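import Mathlib

/-!
Elementary estimates used for the tail, the decay and the bootstrap.
-/

open Finset
open scoped ENNReal

namespace Vale.Agent.P165.Quot

lemma sum_range_rpow_le {a : ℝ} (ha0 : 0 ≤ a) (ha1 : a < 1) (K : ℕ) :
    ∑ i ∈ range K, ((i : ℝ) + 1) ^ (-a) ≤ (K : ℝ) ^ (1 - a) / (1 - a) := by
  induction K with
  | zero => simp [Real.zero_rpow (show (1 - a) ≠ 0 by linarith)]
  | succ K ih =>
    rw [sum_range_succ, Nat.cast_succ]
    have h1a : 0 < 1 - a := by linarith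
    have hK : (0 : ℝ) < (K : ℝ) + 1 := by positivity
    refine (add_le_add ih le_rfl).trans ?_
    rw [div_add' _ _ _ h1a.ne', div_le_div_iff_of_pos_right h1a]
    have hs : (-1 : ℝ) ≤ -(1 / ((K : ℝ) + 1)) := by
      rw [neg_le_neg_iff, div_le_one hK]
      linarith [(Nat.cast_nonneg K : (0 : ℝ) ≤ K)]
    have hb := rpow_one_add_le_one_add_mul_self hs h1a.le (show 1 - a ≤ 1 by linarith)
    have e : (K : ℝ) = ((K : ℝ) + 1) * (1 + -(1 / ((K : ℝ) + 1))) := by field_simp; ring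
    have e2 : ((K : ℝ) + 1) ^ (-a) = ((K : ℝ) + 1) ^ (1 - a) / ((K : ℝ) + 1) := by
      rw [show -a = (1 - a) - 1 by ring, Real.rpow_sub hK, Real.rpow_one]
    have key : (K : ℝ) ^ (1 - a)
        ≤ ((K : ℝ) + 1) ^ (1 - a) * (1 + (1 - a) * -(1 / ((K : ℝ) + 1))) := by
      conv_lhs => rw [e, Real.mul_rpow hK.le (by linarith)]
      exact mul_le_mul_of_nonneg_left hb (Real.rpow_nonneg hK.le _)
    rw [e2]
    calc (K : ℝ) ^ (1 - a) + ((K : ℝ) + 1) ^ (1 - a) / ((K : ℝ) + 1) * (1 - a)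
        ≤ ((K : ℝ) + 1) ^ (1 - a) * (1 + (1 - a) * -(1 / ((K : ℝ) + 1)))
          + ((K : ℝ) + 1) ^ (1 - a) / ((K : ℝ) + 1) * (1 - a) := add_le_add key le_rfl
      _ = ((K : ℝ) + 1) ^ (1 - a) := by field_simp; ring

lemma sum_le_rpow_sum {ι : Type*} (s : Finset ι) (P : ι → ℝ≥0∞) {t : ℝ} (ht0 : 0 < t)
    (ht1 : t ≤ 1) : ∑ i ∈ s, P i ≤ (∑ i ∈ s, P i ^ t) ^ (1 / t) := by
  classical
  have h : (∑ i ∈ s, P i) ^ t ≤ ∑ i ∈ s, P i ^ t := by
    induction s using Finset.induction_on with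
    | empty => simp [ENNReal.zero_rpow_of_pos ht0]
    | @insert a s ha ih =>
      rw [sum_insert ha, sum_insert ha]
      exact (ENNReal.rpow_add_le_add_rpow _ _ ht0.le ht1).trans (add_le_add le_rfl ih)
  calc ∑ i ∈ s, P i = ((∑ i ∈ s, P i) ^ t) ^ (1 / t) := by
        rw [← ENNReal.rpow_mul, mul_one_div_cancel ht0.ne', ENNReal.rpow_one]
    _ ≤ _ := ENNReal.rpow_le_rpow h (by positivity)

lemma exists_pow_div_gt {S : ℝ} (hS : 1 < S) (L : ℕ) (M : ℝ) :
    ∃ m : ℕ, 0 < m ∧ M < S ^ m / (m * L + 1) := by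
  set M' := max M 1
  have h := tendsto_pow_const_div_const_pow_of_one_lt 1 hS
  have hpos : (0 : ℝ) < 1 / (M' * ((L : ℝ) + 1)) := by positivity
  obtain ⟨m₀, hm₀⟩ := Filter.eventually_atTop.1 (h.eventually (gt_mem_nhds hpos))
  refine ⟨m₀ + 1, Nat.succ_pos _, lt_of_le_of_lt (le_max_left M 1) ?_⟩
  set m := m₀ + 1
  have hm := hm₀ m (Nat.le_succ _)
  rw [pow_one, div_lt_div_iff₀ (pow_pos (by linarith) _) (by positivity), one_mul] at hm
  have hm1 : (1 : ℝ) ≤ m := by exact_mod_cast Nat.succ_pos m₀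
  rw [lt_div_iff₀ (by positivity)]
  calc M' * ((m : ℝ) * L + 1) ≤ M' * ((m : ℝ) * ((L : ℝ) + 1)) :=
        mul_le_mul_of_nonneg_left (by linarith) (by positivity)
    _ = (m : ℝ) * (M' * ((L : ℝ) + 1)) := by ring
    _ < S ^ m := hm

/-- Choice of the two exponents around the critical one. -/
theorem exists_exponents {G : ℝ → Prop} (_hG : ∀ t u, 0 < u → u ≤ t → t ≤ 1 → G t → G u)
    (h1 : ¬ G 1) (hex : ∃ t, 0 < t ∧ t ≤ 1 ∧ G t) {θ : ℝ} (hθ : 0 < θ) (hθ1 : θ < 1) :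
    ∃ t₀ t₁, 0 < t₀ ∧ t₀ ≤ t₁ ∧ t₁ ≤ 1 ∧ G t₀ ∧ ¬ G t₁ ∧ (1 - θ) * t₁ ≤ t₀ := by
  set X := {t : ℝ | 0 < t ∧ t ≤ 1 ∧ G t}
  set T := sSup X
  have hne : X.Nonempty := hex
  have hbdd : BddAbove X := ⟨1, fun t ht => ht.2.1⟩
  obtain ⟨s, hs⟩ := hex
  have hT0 : 0 < T := lt_of_lt_of_le hs.1 (le_csSup hbdd hs)
  have hT1 : T ≤ 1 := csSup_le hne fun t ht => ht.2.1
  obtain ⟨t₀, ht₀, hlt⟩ := exists_lt_of_lt_csSup hne
    (show (1 - θ / 2) * T < T from mul_lt_of_lt_one_left hT0 (by linarith))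
  have hθ2 : 0 < 1 - θ / 2 := by linarith
  set t₁ := min 1 (T / (1 - θ / 2))
  have hTle : T ≤ t₁ := le_min hT1 (by rw [le_div_iff₀ hθ2]; nlinarith)
  have ht0T : t₀ ≤ T := le_csSup hbdd ht₀
  refine ⟨t₀, t₁, ht₀.1, ht0T.trans hTle, min_le_left _ _, ht₀.2.2, fun hg => ?_, ?_⟩
  · rcases lt_or_eq_of_le hT1 with h | h
    · have hmem : t₁ ∈ X := ⟨hT0.trans_le hTle, min_le_left _ _, hg⟩
      have hTlt : T < t₁ := lt_min h (by rw [lt_div_iff₀ hθ2]; nlinarith)
      exact absurd (le_csSup hbdd hmem) (not_le.2 hTlt)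
    · rw [show t₁ = 1 from le_antisymm (min_le_left _ _) (h ▸ hTle)] at hg
      exact h1 hg
  · have h2 : t₁ * (1 - θ / 2) ≤ T := (le_div_iff₀ hθ2).1 (min_le_right _ _)
    have h3 : t₁ * (1 - θ / 2) * (1 - θ / 2) ≤ T * (1 - θ / 2) :=
      mul_le_mul_of_nonneg_right h2 hθ2.le
    have h4 : 0 ≤ t₁ * (θ * θ) := mul_nonneg (hT0.le.trans hTle) (mul_self_nonneg θ)
    nlinarith

/-- The stopping line of a multiplicative cascade. -/
theorem exists_stopping_line {ι : Type*} [Fintype ι] {κ : ι → ℝ} {m t X : ℝ} (hm0 : 0 < m)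
    (hm : ∀ i, m ≤ κ i) (hκ : ∀ i, κ i ≤ 1 / 2) (ht : 0 < t)
    (hsum : 1 ≤ ∑ i, κ i ^ t) (hX : 1 ≤ X) :
    ∃ L : Finset (List ι), (∀ a ∈ L, ∀ b ∈ L, a <+: b → a = b) ∧
      (∀ a ∈ L, m / X ≤ (a.map κ).prod ∧ (a.map κ).prod ≤ 1 / X) ∧
      X ^ t ≤ (L.card : ℝ) := by
  classical
  obtain ⟨i₀⟩ : Nonempty ι := by
    by_contra h
    rw [not_nonempty_iff] at h
    simp at hsum
    linarith
  have hm1 : m ≤ 1 := (hm i₀).trans ((hκ i₀).trans (by norm_num))
  suffices key : ∀ (n : ℕ) (Y : ℝ), 1 ≤ Y → Y ≤ 2 ^ n → ∃ L : Finset (List ι),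
      (∀ a ∈ L, ∀ b ∈ L, a <+: b → a = b) ∧
      (∀ a ∈ L, m / Y ≤ (a.map κ).prod ∧ (a.map κ).prod ≤ 1 / Y) ∧
      Y ^ t ≤ (L.card : ℝ) by
    obtain ⟨n, hn⟩ := pow_unbounded_of_one_lt X one_lt_two
    exact key n X hX hn.le
  have base : ∃ L : Finset (List ι), (∀ a ∈ L, ∀ b ∈ L, a <+: b → a = b) ∧
      (∀ a ∈ L, m / 1 ≤ (a.map κ).prod ∧ (a.map κ).prod ≤ 1 / 1) ∧ (1 : ℝ) ^ t ≤ (L.card : ℝ) :=
    ⟨{[]}, by simp, by simp [hm1], by simp⟩
  intro n
  induction n with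
  | zero =>
    intro Y hY1 hY2
    obtain rfl : Y = 1 := le_antisymm (by simpa using hY2) hY1
    exact base
  | succ n ih =>
    intro Y hY1 hY2
    rcases eq_or_lt_of_le hY1 with rfl | hY
    · exact base
    have hY0 : 0 < Y := zero_lt_one.trans hY
    have child : ∀ i, ∃ L : Finset (List ι), (∀ a ∈ L, ∀ b ∈ L, a <+: b → a = b) ∧
        (∀ a ∈ L, m / Y ≤ κ i * (a.map κ).prod ∧ κ i * (a.map κ).prod ≤ 1 / Y) ∧
        (Y * κ i) ^ t ≤ (L.card : ℝ) := by
      intro i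
      have hκi : 0 < κ i := hm0.trans_le (hm i)
      rcases le_total (Y * κ i) 1 with h | h
      · refine ⟨{[]}, by simp, fun a ha => ?_, ?_⟩
        · obtain rfl := mem_singleton.1 ha
          simp only [List.map_nil, List.prod_nil, mul_one]
          exact ⟨(div_le_self hm0.le hY1).trans (hm i), (le_div_iff₀' hY0).2 h⟩
        · simpa using Real.rpow_le_one (by positivity) h ht.le
      · obtain ⟨L, hL1, hL2, hL3⟩ := ih (Y * κ i) h (by
          rw [pow_succ] at hY2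
          calc Y * κ i ≤ Y * (1 / 2) := mul_le_mul_of_nonneg_left (hκ i) hY0.le
            _ ≤ 2 ^ n := by linarith)
        refine ⟨L, hL1, fun a ha => ?_, hL3⟩
        obtain ⟨l1, l2⟩ := hL2 a ha
        rw [div_le_iff₀ (by positivity)] at l1
        rw [le_div_iff₀ (by positivity)] at l2
        rw [div_le_iff₀ hY0, le_div_iff₀ hY0]
        exact ⟨by linarith, by linarith⟩
    choose L hL1 hL2 hL3 using child
    refine ⟨univ.biUnion fun i => (L i).image (List.cons i), ?_, ?_, ?_⟩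
    · intro a ha b hb hab
      simp only [mem_biUnion, mem_univ, true_and, mem_image] at ha hb
      obtain ⟨i, a', ha', rfl⟩ := ha
      obtain ⟨j, b', hb', rfl⟩ := hb
      obtain ⟨rfl, h'⟩ := List.cons_prefix_cons.1 hab
      rw [hL1 i a' ha' b' hb' h']
    · intro a ha
      simp only [mem_biUnion, mem_univ, true_and, mem_image] at ha
      obtain ⟨i, a', ha', rfl⟩ := ha
      simpa using hL2 i a' ha'
    · rw [card_biUnion fun i _ j _ hij => Finset.disjoint_left.2 fun a ha hb => hij (by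
        obtain ⟨_, _, rfl⟩ := mem_image.1 ha
        obtain ⟨_, _, h⟩ := mem_image.1 hb
        exact (List.cons.inj h).1.symm), Nat.cast_sum]
      calc Y ^ t = Y ^ t * 1 := (mul_one _).symm
        _ ≤ Y ^ t * ∑ i, κ i ^ t := mul_le_mul_of_nonneg_left hsum (Real.rpow_nonneg hY0.le _)
        _ = ∑ i, (Y * κ i) ^ t := by
          rw [mul_sum]
          exact sum_congr rfl fun i _ => (Real.mul_rpow hY0.le (hm0.le.trans (hm i))).symm
        _ ≤ ∑ i, (((L i).image (List.cons i)).card : ℝ) := sum_le_sum fun i _ => by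
          rw [card_image_of_injective _ List.cons_injective]
          exact hL3 i

/-- The failures along a geometric sequence. -/
lemma sum_failures_le {K : ℝ} (hK : 0 < K) {l : List ℝ} (hl : ∀ x ∈ l, 0 < x ∧ x ≤ 1 / 2) :
    ∑ i ∈ range l.length, 1 / (K * (l.take i).prod) ≤ 1 / (K * l.prod) := by
  suffices h : ∑ i ∈ range l.length, 1 / (K * (l.take i).prod) + 1 / K ≤ 1 / (K * l.prod) by
    linarith [one_div_pos.2 hK]
  induction l with
  | nil => simp
  | cons x l ih =>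
    obtain ⟨hx, hx2⟩ := hl x (List.mem_cons_self ..)
    have hih := ih fun y hy => hl y (List.mem_cons_of_mem _ hy)
    rw [List.length_cons, sum_range_succ']
    simp only [List.take_succ_cons, List.take_zero, List.prod_cons, List.prod_nil, mul_one]
    have e : ∀ P : ℝ, 1 / (K * (x * P)) = 1 / x * (1 / (K * P)) := fun P => by ring
    simp only [e, ← mul_sum]
    have h1 : 1 / x * (∑ i ∈ range l.length, 1 / (K * (l.take i).prod) + 1 / K)
        ≤ 1 / x * (1 / (K * l.prod)) := mul_le_mul_of_nonneg_left hih (by positivity)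
    have h2 : 2 * (1 / K) ≤ 1 / x * (1 / K) :=
      mul_le_mul_of_nonneg_right (by rw [le_div_iff₀ hx]; linarith) (by positivity)
    linarith

lemma prod_one_sub_ge {ι : Type*} (s : Finset ι) (d : ι → ℝ) (h0 : ∀ i ∈ s, 0 ≤ d i)
    (h1 : ∀ i ∈ s, d i ≤ 1) : 1 - ∑ i ∈ s, d i ≤ ∏ i ∈ s, (1 - d i) := by
  classical
  induction s using Finset.induction_on with
  | empty => simp
  | @insert a s ha ih =>
    rw [prod_insert ha, sum_insert ha]
    have ha0 := h0 a (mem_insert_self a s)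
    have ha1 := h1 a (mem_insert_self a s)
    have hs := ih (fun i hi => h0 i (mem_insert_of_mem hi)) fun i hi => h1 i (mem_insert_of_mem hi)
    have hsum : 0 ≤ ∑ i ∈ s, d i := sum_nonneg fun i hi => h0 i (mem_insert_of_mem hi)
    nlinarith [mul_le_mul_of_nonneg_left hs (show 0 ≤ 1 - d a by linarith), mul_nonneg ha0 hsum]

/-- Polynomial decay from a self-improving inequality. -/
theorem decay_induction {a : ℕ → ℝ} {θ C : ℝ} (hθ : 0 < θ) (hθ1 : θ < 1) (ha0 : ∀ n, 0 ≤ a n)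
    (ha : Antitone a) {n₀ R : ℕ}
    (h : ∀ n, n₀ ≤ n → (n : ℝ) * a n ≤ C * a (n / 3 - R) ^ (1 - θ)) :
    ∃ A, ∀ n, a n ≤ A * ((n : ℝ) + 1) ^ (-(1 / θ)) := by
  set s := 1 / θ with hs
  have hs0 : 0 < s := by positivity
  set C' := max C 0
  set N := max n₀ (9 * (R + 1))
  set K := 2 * C' * (6 : ℝ) ^ (s * (1 - θ)) with hK
  have hK0 : 0 ≤ K := by positivity
  set A := max (max 1 (K ^ s)) (a 0 * ((N : ℝ) + 1) ^ s)
  have hA1 : 1 ≤ A := (le_max_left _ _).trans (le_max_left _ _)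
  have hA0 : 0 < A := zero_lt_one.trans_le hA1
  have hKA : K * A ^ (1 - θ) ≤ A := by
    have h1 : K ≤ A ^ θ := by
      calc K = (K ^ s) ^ θ := by
            rw [← Real.rpow_mul hK0, hs, one_div_mul_cancel hθ.ne', Real.rpow_one]
        _ ≤ A ^ θ := Real.rpow_le_rpow (Real.rpow_nonneg hK0 _)
            ((le_max_right _ _).trans (le_max_left _ _)) hθ.le
    calc K * A ^ (1 - θ) ≤ A ^ θ * A ^ (1 - θ) :=
          mul_le_mul_of_nonneg_right h1 (Real.rpow_nonneg hA0.le _)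
      _ = A := by rw [← Real.rpow_add hA0, add_sub_cancel, Real.rpow_one]
  refine ⟨A, fun n => ?_⟩
  induction n using Nat.strong_induction_on with
  | _ n ih =>
    have hn1 : (0 : ℝ) < (n : ℝ) + 1 := by positivity
    rw [Real.rpow_neg hn1.le, ← div_eq_mul_inv, le_div_iff₀ (Real.rpow_pos_of_pos hn1 _)]
    rcases lt_or_ge n N with hn | hn
    · refine le_trans ?_ (le_max_right _ _)
      exact mul_le_mul (ha (Nat.zero_le n)) (Real.rpow_le_rpow hn1.le
        (by exact_mod_cast Nat.succ_le_succ hn.le) hs0.le) (Real.rpow_nonneg hn1.le _) (ha0 0)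
    have hn0 : n₀ ≤ n := (le_max_left _ _).trans hn
    have hnR : 9 * (R + 1) ≤ n := (le_max_right _ _).trans hn
    set m := n / 3 - R with hm
    have hmn : m < n := by omega
    have hm6 : ((n : ℝ) + 1) / 6 ≤ (m : ℝ) + 1 := by
      have : n + 1 ≤ 6 * (m + 1) := by omega
      rw [div_le_iff₀ (by norm_num)]
      exact_mod_cast (this.trans_eq (mul_comm _ _))
    have ham : a m ≤ A * (((n : ℝ) + 1) / 6) ^ (-s) :=
      (ih m hmn).trans (mul_le_mul_of_nonneg_left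
        (Real.rpow_le_rpow_of_nonpos (by positivity) hm6 (by linarith)) hA0.le)
    have e : (A * (((n : ℝ) + 1) / 6) ^ (-s)) ^ (1 - θ)
        = A ^ (1 - θ) * (6 : ℝ) ^ (s * (1 - θ)) * ((n : ℝ) + 1) / ((n : ℝ) + 1) ^ s := by
      rw [Real.mul_rpow hA0.le (by positivity), ← Real.rpow_mul (by positivity),
        Real.div_rpow hn1.le (by norm_num), show -s * (1 - θ) = -(s * (1 - θ)) by ring,
        Real.rpow_neg hn1.le, Real.rpow_neg (by norm_num : (0 : ℝ) ≤ 6)]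
      have es : s * (1 - θ) = s - 1 := by rw [hs]; field_simp
      rw [show ((n : ℝ) + 1) ^ (s * (1 - θ)) = ((n : ℝ) + 1) ^ s / ((n : ℝ) + 1) by
        rw [es, Real.rpow_sub hn1, Real.rpow_one]]
      field_simp
    have h1 : (n : ℝ) * a n ≤ C' * (A * (((n : ℝ) + 1) / 6) ^ (-s)) ^ (1 - θ) :=
      (h n hn0).trans ((mul_le_mul_of_nonneg_right (le_max_left _ _)
        (Real.rpow_nonneg (ha0 _) _)).trans (mul_le_mul_of_nonneg_left
          (Real.rpow_le_rpow (ha0 _) ham (by linarith)) (le_max_right _ _)))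
    rw [e, ← mul_div_assoc, le_div_iff₀ (Real.rpow_pos_of_pos hn1 _)] at h1
    have hn2 : (n : ℝ) + 1 ≤ 2 * n := by
      have : (1 : ℝ) ≤ n := by exact_mod_cast (show 1 ≤ n by omega)
      linarith
    refine le_of_mul_le_mul_left ?_ hn1
    calc ((n : ℝ) + 1) * (a n * ((n : ℝ) + 1) ^ s)
        ≤ 2 * n * (a n * ((n : ℝ) + 1) ^ s) :=
          mul_le_mul_of_nonneg_right hn2 (mul_nonneg (ha0 n) (Real.rpow_nonneg hn1.le _))
      _ = 2 * (n * a n * ((n : ℝ) + 1) ^ s) := by ring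
      _ ≤ 2 * (C' * (A ^ (1 - θ) * (6 : ℝ) ^ (s * (1 - θ)) * ((n : ℝ) + 1))) := by linarith
      _ = ((n : ℝ) + 1) * (K * A ^ (1 - θ)) := by rw [hK]; ring
      _ ≤ ((n : ℝ) + 1) * A := mul_le_mul_of_nonneg_left hKA hn1.le

lemma self_bound {P C e : ℝ} (hP : 0 ≤ P) (hC : 0 ≤ C) (_he0 : 0 ≤ e) (he : e < 1)
    (h : P ≤ C * P ^ e) : P ≤ C ^ (1 / (1 - e)) := by
  rcases eq_or_lt_of_le hP with rfl | hP'
  · exact Real.rpow_nonneg hC _
  have h1 : P ^ (1 - e) ≤ C := by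
    rw [Real.rpow_sub hP', Real.rpow_one, div_le_iff₀ (Real.rpow_pos_of_pos hP' _)]
    exact h
  calc P = (P ^ (1 - e)) ^ (1 / (1 - e)) := by
        rw [← Real.rpow_mul hP, mul_one_div_cancel (by linarith), Real.rpow_one]
    _ ≤ _ := Real.rpow_le_rpow (Real.rpow_nonneg hP _) h1
        (div_nonneg zero_le_one (by linarith))

/-- Exponential decay from submultiplicativity and one small value. -/
theorem exp_decay {α : Type*} (len : α → ℕ) (F : α → ℝ) (hF0 : ∀ a, 0 ≤ F a) {C ρ : ℝ} {h : ℕ}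
    (hC : 0 < C) (hρ0 : 0 < ρ) (hρ : C * ρ < 1) (hbd : ∀ a, F a ≤ C)
    (hsmall : ∀ a, len a = h → F a ≤ ρ) (hh : 0 < h)
    (hsplit : ∀ a, h ≤ len a → ∃ b d, len b = h ∧ len d + h = len a ∧ F a ≤ C * F b * F d) :
    ∃ A δ : ℝ, 0 < δ ∧ ∀ a, F a ≤ A * Real.exp (-δ * len a) := by
  set r := C * ρ with hr
  have hr0 : 0 < r := mul_pos hC hρ0
  have key : ∀ n, ∀ a, len a = n → F a ≤ C * r ^ (n / h) := by
    intro n
    induction n using Nat.strong_induction_on with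
    | _ n ih =>
      intro a hla
      rcases lt_or_ge n h with hn | hn
      · rw [Nat.div_eq_of_lt hn, pow_zero, mul_one]
        exact hbd a
      obtain ⟨b, d, hb, hd, hle⟩ := hsplit a (hla ▸ hn)
      have hdn : len d = n - h := by omega
      have hdlt : n - h < n := by omega
      rw [Nat.div_eq_sub_div hh hn, pow_succ]
      calc F a ≤ C * F b * F d := hle
        _ ≤ C * ρ * (C * r ^ ((n - h) / h)) :=
          mul_le_mul (mul_le_mul_of_nonneg_left (hsmall b hb) hC.le) (ih _ hdlt d hdn) (hF0 d)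
            (by positivity)
        _ = C * (r ^ ((n - h) / h) * r) := by rw [← hr]; ring
  have hhR : (0 : ℝ) < h := Nat.cast_pos.2 hh
  refine ⟨C / r, -Real.log r / h, div_pos (neg_pos.2 (Real.log_neg hr0 hρ)) hhR, fun a => ?_⟩
  refine (key _ a rfl).trans ?_
  have hk : (len a : ℝ) / h ≤ ((len a / h : ℕ) : ℝ) + 1 := by
    rw [div_le_iff₀ hhR]
    have : len a < h * (len a / h + 1) := Nat.lt_mul_div_succ _ hh
    calc (len a : ℝ) ≤ ((h * (len a / h + 1) : ℕ) : ℝ) := Nat.cast_le.2 this.le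
      _ = (((len a / h : ℕ) : ℝ) + 1) * h := by push_cast; ring
  have h2 : r ^ (len a / h + 1) ≤ Real.exp (-(-Real.log r / h) * len a) := by
    rw [← Real.exp_log (pow_pos hr0 _), Real.exp_le_exp, Real.log_pow]
    push_cast
    calc (((len a / h : ℕ) : ℝ) + 1) * Real.log r ≤ (len a : ℝ) / h * Real.log r :=
          mul_le_mul_of_nonpos_right hk (Real.log_neg hr0 hρ).le
      _ = -(-Real.log r / h) * len a := by ring
  rw [div_mul_eq_mul_div, le_div_iff₀ hr0, mul_assoc, ← pow_succ]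
  exact mul_le_mul_of_nonneg_left h2 hC.le

end Vale.Agent.P165.Quot
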