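import Vale.Agent.P165.Quot.Prob
import Vale.Agent.P151.KN.Uniform

/-!
Basic facts about probabilities of increasing events on an infinite graph.
-/

open Finset
open scoped ENNReal

namespace Vale.Agent.P165.Quot

variable {W : Type*} [DecidableEq W] {H : SimpleGraph W} {p : ℝ}

lemma ofReal_pr_le_prob {U : Finset (Sym2 W)} (hU : ↑U ⊆ H.edgeSet) (A : Finset (Sym2 W) → Prop) :
    ENNReal.ofReal (pr p U A) ≤ prob H p A :=
  le_iSup₂ (f := fun (U : Finset (Sym2 W)) (_ : ↑U ⊆ H.edgeSet) => ENNReal.ofReal (pr p U A)) U hU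

lemma prob_le {A : Finset (Sym2 W) → Prop} {c : ℝ≥0∞}
    (h : ∀ U : Finset (Sym2 W), ↑U ⊆ H.edgeSet → ENNReal.ofReal (pr p U A) ≤ c) :
    prob H p A ≤ c :=
  iSup₂_le h

lemma exists_lt_pr {A : Finset (Sym2 W) → Prop} {c : ℝ≥0∞} (h : c < prob H p A) :
    ∃ U : Finset (Sym2 W), ↑U ⊆ H.edgeSet ∧ c < ENNReal.ofReal (pr p U A) := by
  rw [prob] at h
  obtain ⟨U, hU⟩ := lt_iSup_iff.1 h
  obtain ⟨hUE, hU⟩ := lt_iSup_iff.1 hU
  exact ⟨U, hUE, hU⟩

lemma prob_le_one (h0 : 0 ≤ p) (h1 : p ≤ 1) (A : Finset (Sym2 W) → Prop) :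
    prob H p A ≤ 1 :=
  prob_le fun _ _ => ENNReal.ofReal_le_one.2 (pr_le_one h0 h1 _ A)

lemma prob_mono (h0 : 0 ≤ p) (h1 : p ≤ 1) {A B : Finset (Sym2 W) → Prop}
    (h : ∀ S : Finset (Sym2 W), ↑S ⊆ H.edgeSet → A S → B S) : prob H p A ≤ prob H p B :=
  prob_le fun U hU => le_trans
    (ENNReal.ofReal_le_ofReal (pr_mono h0 h1 fun S hS hA =>
      h S ((Finset.coe_subset.2 hS).trans hU) hA))
    (ofReal_pr_le_prob hU B)

lemma prob_mono_param {q : ℝ} (h0 : 0 ≤ p) (hpq : p ≤ q) (h1 : q ≤ 1)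
    {A : Finset (Sym2 W) → Prop} (hA : Incr A) : prob H p A ≤ prob H q A :=
  prob_le fun U hU => le_trans
    (ENNReal.ofReal_le_ofReal
      (pr_monotoneOn U hA ⟨h0, hpq.trans h1⟩ ⟨h0.trans hpq, h1⟩ hpq))
    (ofReal_pr_le_prob hU A)

lemma prob_exists_le {ι : Type*} (h0 : 0 ≤ p) (h1 : p ≤ 1) {A : ι → Finset (Sym2 W) → Prop} :
    prob H p (fun S => ∃ i, A i S) ≤ ∑' i, prob H p (A i) := by
  classical
  refine prob_le fun U hU => ?_
  let s : Finset ι := U.powerset.attach.biUnion fun S =>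
    if h : ∃ i, A i S.1 then {h.choose} else ∅
  have hs : ∀ S, S ⊆ U → (∃ i, A i S) → ∃ i ∈ s, A i S := by
    intro S hS h
    refine ⟨h.choose, mem_biUnion.2 ⟨⟨S, mem_powerset.2 hS⟩, mem_attach _ _, ?_⟩, h.choose_spec⟩
    rw [dif_pos h]
    exact mem_singleton_self _
  refine (ENNReal.ofReal_le_ofReal (pr_le_sum h0 h1 s A hs)).trans ?_
  rw [ENNReal.ofReal_sum_of_nonneg fun i _ => pr_nonneg h0 h1 U _]
  exact (Finset.sum_le_sum fun i _ => ofReal_pr_le_prob hU (A i)).trans (ENNReal.sum_le_tsum s)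

lemma prob_or_le (h0 : 0 ≤ p) (h1 : p ≤ 1) {A B : Finset (Sym2 W) → Prop} :
    prob H p (fun S => A S ∨ B S) ≤ prob H p A + prob H p B := by
  refine prob_le fun U hU => ?_
  have h := pr_or_and p U A B
  have h' := pr_nonneg h0 h1 U (fun S => A S ∧ B S)
  refine (ENNReal.ofReal_le_ofReal (show pr p U (fun S => A S ∨ B S) ≤ pr p U A + pr p U B by
    linarith)).trans ?_
  exact ENNReal.ofReal_add_le.trans
    (add_le_add (ofReal_pr_le_prob hU A) (ofReal_pr_le_prob hU B))

lemma prob_and_ge (h0 : 0 ≤ p) (h1 : p ≤ 1) {A B : Finset (Sym2 W) → Prop} (hA : Incr A)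
    (hB : Incr B) : prob H p A * prob H p B ≤ prob H p (fun S => A S ∧ B S) := by
  simp only [prob, ENNReal.iSup_mul, ENNReal.mul_iSup]
  refine iSup₂_le fun V hV => iSup₂_le fun U hU => ?_
  refine le_trans ?_ (le_iSup₂ (U ∪ V) (by simpa using And.intro hU hV))
  calc ENNReal.ofReal (pr p U A) * ENNReal.ofReal (pr p V B)
      ≤ ENNReal.ofReal (pr p (U ∪ V) A) * ENNReal.ofReal (pr p (U ∪ V) B) := by
        gcongr
        · exact pr_mono_set h0 h1 subset_union_left hA
        · exact pr_mono_set h0 h1 subset_union_right hB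
    _ = ENNReal.ofReal (pr p (U ∪ V) A * pr p (U ∪ V) B) :=
        (ENNReal.ofReal_mul (pr_nonneg h0 h1 _ _)).symm
    _ ≤ _ := ENNReal.ofReal_le_ofReal (pr_and_ge h0 h1 _ hA hB)

lemma prob_box_le (h0 : 0 ≤ p) (h1 : p ≤ 1) {A B : Finset (Sym2 W) → Prop} (hA : Incr A)
    (hB : Incr B) : prob H p (Box A B) ≤ prob H p A * prob H p B :=
  prob_le fun U hU => (ENNReal.ofReal_le_ofReal (pr_box_le h0 h1 U hA hB)).trans (by
    rw [ENNReal.ofReal_mul (pr_nonneg h0 h1 U A)]
    exact mul_le_mul' (ofReal_pr_le_prob hU A) (ofReal_pr_le_prob hU B))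

/-- The embedding of pairs induced by an automorphism. -/
def pairEmb (φ : H ≃g H) : Sym2 W ↪ Sym2 W := φ.toEquiv.toEmbedding.sym2Map

omit [DecidableEq W] in
lemma pairEmb_apply (φ : H ≃g H) (e : Sym2 W) : pairEmb φ e = Sym2.map φ e := rfl

omit [DecidableEq W] in
lemma pairEmb_mem (φ : H ≃g H) {e : Sym2 W} : pairEmb φ e ∈ H.edgeSet ↔ e ∈ H.edgeSet := by
  induction e with
  | h a b => exact φ.map_rel_iff

lemma prob_map (φ : H ≃g H) (A : Finset (Sym2 W) → Prop) :
    prob H p A = prob H p (fun S => A (S.map (pairEmb φ))) := by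
  refine le_antisymm (prob_le fun U hU => ?_) (prob_le fun U hU => ?_)
  · have hinv : ∀ e : Sym2 W, pairEmb φ (pairEmb φ.symm e) = e := by
      intro e
      induction e with
      | h a b => simp [pairEmb_apply]
    have hV : (U.map (pairEmb φ.symm)).map (pairEmb φ) = U := by
      ext e
      simp [hinv]
    conv_lhs => rw [← hV, pr_image]
    refine ofReal_pr_le_prob ?_ _
    intro e he
    obtain ⟨e', he', rfl⟩ := Finset.mem_map.1 he
    exact (pairEmb_mem φ.symm).2 (hU he')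
  · rw [← pr_image p (pairEmb φ) U A]
    refine ofReal_pr_le_prob ?_ _
    intro e he
    obtain ⟨e', he', rfl⟩ := Finset.mem_map.1 he
    exact (pairEmb_mem φ).2 (hU he')

omit [DecidableEq W] in
lemma inPart_map (φ : H ≃g H) (E : Set (Sym2 W)) (S : Finset (Sym2 W)) :
    inPart (Sym2.map φ '' E) (S.map (pairEmb φ)) = (inPart E S).map (pairEmb φ) := by
  ext e
  simp only [mem_inPart, Finset.mem_map, Set.mem_image]
  constructor
  · rintro ⟨⟨e', he', rfl⟩, e'', he'', h⟩
    have : e'' = e' := (pairEmb φ).injective ((pairEmb_apply φ e'').trans h)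
    exact ⟨e', ⟨he', this ▸ he''⟩, rfl⟩
  · rintro ⟨e', ⟨h1, h2⟩, rfl⟩
    exact ⟨⟨e', h1, rfl⟩, e', h2, (pairEmb_apply φ e').symm⟩

lemma mem_cl_map (φ : H ≃g H) (E : Set (Sym2 W)) (x y : W) (S : Finset (Sym2 W)) :
    φ y ∈ cl {φ x} (inPart (Sym2.map φ '' E) (S.map (pairEmb φ))) ↔ y ∈ cl {x} (inPart E S) := by
  rw [inPart_map]
  exact cl_map φ.toEquiv x y _

/-- Automorphism invariance in the form used for translations. -/
lemma prob_connTo_iso (φ : H ≃g H) (E : Set (Sym2 W)) (x : W) (T : Set W) :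
    prob H p (connTo (Sym2.map φ '' E) (φ x) (φ '' T)) = prob H p (connTo E x T) := by
  rw [prob_map φ]
  congr 1
  funext S
  refine propext ⟨?_, ?_⟩
  · rintro ⟨_, ⟨y, hy, rfl⟩, h⟩
    exact ⟨y, hy, (mem_cl_map φ E x y S).1 h⟩
  · rintro ⟨y, hy, h⟩
    exact ⟨φ y, ⟨y, hy, rfl⟩, (mem_cl_map φ E x y S).2 h⟩

lemma prob_manyIn_iso (φ : H ≃g H) (E : Set (Sym2 W)) (x : W) (T : Set W) (K : ℕ) :
    prob H p (manyIn (Sym2.map φ '' E) (φ x) (φ '' T) K) = prob H p (manyIn E x T K) := by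
  rw [prob_map φ]
  congr 1
  funext S
  refine propext ⟨?_, ?_⟩
  · rintro ⟨Y, hK, hY⟩
    refine ⟨Y.map φ.symm.toEquiv.toEmbedding, by simpa using hK, fun y hy => ?_⟩
    obtain ⟨z, hz, rfl⟩ := Finset.mem_map.1 hy
    obtain ⟨⟨w, hw, rfl⟩, h2⟩ := hY z hz
    have e : φ.symm.toEquiv.toEmbedding (φ w) = w := φ.toEquiv.symm_apply_apply w
    rw [e]
    exact ⟨hw, (mem_cl_map φ E x w S).1 h2⟩
  · rintro ⟨Y, hK, hY⟩
    refine ⟨Y.map φ.toEquiv.toEmbedding, by simpa using hK, fun y hy => ?_⟩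
    obtain ⟨z, hz, rfl⟩ := Finset.mem_map.1 hy
    exact ⟨⟨z, (hY z hz).1, rfl⟩, (mem_cl_map φ E x z S).2 (hY z hz).2⟩

lemma mean_iso (φ : H ≃g H) (E : Set (Sym2 W)) (x : W) (T : Set W) :
    mean H p (Sym2.map φ '' E) (φ x) (φ '' T) = mean H p E x T := by
  simp only [mean]
  rw [← (Equiv.Set.image φ T φ.injective).tsum_eq]
  refine tsum_congr fun y => ?_
  have h := prob_connTo_iso (p := p) φ E x {(y : W)}
  rw [Set.image_singleton] at h
  exact h

omit [DecidableEq W] in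
lemma inPart_mono_set {E E' : Set (Sym2 W)} (h : E ⊆ E') (S : Finset (Sym2 W)) :
    inPart E S ⊆ inPart E' S := fun _ he =>
  mem_inPart.2 ⟨(mem_inPart.1 he).1, h (mem_inPart.1 he).2⟩

lemma prob_connTo_mono (h0 : 0 ≤ p) (h1 : p ≤ 1) {E E' : Set (Sym2 W)} {T T' : Set W}
    (hE : E ⊆ E') (hT : T ⊆ T') (x : W) :
    prob H p (connTo E x T) ≤ prob H p (connTo E' x T') :=
  prob_mono h0 h1 fun S _ ⟨y, hy, h⟩ => ⟨y, hT hy, cl_mono subset_rfl (inPart_mono_set hE S) h⟩

lemma prob_conn_symm (E : Set (Sym2 W)) (x y : W) :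
    prob H p (connTo E x {y}) = prob H p (connTo E y {x}) := by
  congr 1
  funext S
  simp only [connTo, Set.mem_singleton_iff, exists_eq_left, mem_cl_single]
  exact propext ⟨fun h => h.symm, fun h => h.symm⟩

lemma prob_connTo_self (h0 : 0 ≤ p) (h1 : p ≤ 1) (E : Set (Sym2 W)) {x : W} {T : Set W}
    (hx : x ∈ T) : prob H p (connTo E x T) = 1 := by
  refine le_antisymm (prob_le_one h0 h1 _) ?_
  refine le_trans ?_ (ofReal_pr_le_prob (U := ∅) (by simp) _)
  rw [pr_congr (R := fun _ => True) (fun S _ => iff_of_true ⟨x, hx, subset_cl _ _ rfl⟩ trivial),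
    pr_true, ENNReal.ofReal_one]

/-- A walk inside `E` costs `p` per edge. -/
lemma walk_mul_le (h0 : 0 ≤ p) (h1 : p ≤ 1) {E : Set (Sym2 W)} {x y : W} (q : H.Walk x y)
    (hq : ∀ e ∈ q.edges, e ∈ E) (T : Set W) :
    ENNReal.ofReal p ^ q.length * prob H p (connTo E y T) ≤ prob H p (connTo E x T) := by
  simp only [prob, ENNReal.mul_iSup]
  refine iSup₂_le fun U hU => ?_
  let F := q.edges.toFinset
  have hF : ↑(U ∪ F) ⊆ H.edgeSet := by
    rw [coe_union]
    exact Set.union_subset hU fun e he => q.edges_subset_edgeSet (List.mem_toFinset.1 he)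
  refine le_trans ?_ (le_iSup₂ (U ∪ F) hF)
  have hcard : F.card ≤ q.length := (List.toFinset_card_le _).trans (q.length_edges).le
  rw [← ENNReal.ofReal_pow h0, ← ENNReal.ofReal_mul (pow_nonneg h0 _)]
  refine ENNReal.ofReal_le_ofReal ?_
  calc p ^ q.length * pr p U (connTo E y T)
      ≤ p ^ F.card * pr p (U ∪ F) (connTo E y T) :=
        mul_le_mul (pow_le_pow_of_le_one h0 h1 hcard)
          (pr_mono_set h0 h1 subset_union_left (incr_connTo E y T)) (pr_nonneg h0 h1 _ _)
          (pow_nonneg h0 _)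
    _ ≤ pr p (U ∪ F) (connTo E x T) := by
        refine pr_insertion h0 h1 subset_union_right (incr_connTo E y T) ?_
        rintro S _ ⟨z, hz, hzy⟩ hFS
        refine ⟨z, hz, cl_trans ?_ subset_rfl hzy⟩
        rw [Set.singleton_subset_iff, mem_cl_single]
        refine ⟨q.transfer _ fun e he => ?_⟩
        rw [SimpleGraph.edgeSet_fromEdgeSet]
        exact ⟨Finset.mem_coe.2 (mem_inPart.2 ⟨hFS (List.mem_toFinset.2 he), hq e he⟩),
          H.not_isDiag_of_mem_edgeSet (q.edges_subset_edgeSet he)⟩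

/-- The vertices that can be joined to `x` by edges of `U`. -/
noncomputable def reachable (U : Finset (Sym2 W)) (x : W) : Finset W :=
  insert x (U.biUnion fun e => e.toFinset)

lemma mem_reachable {U S : Finset (Sym2 W)} (hS : S ⊆ U) {x y : W} (h : y ∈ cl {x} S) :
    y ∈ reachable U x := by
  have : cl {x} S ⊆ (↑(reachable U x) : Set W) := by
    refine cl_subset (by simp [reachable]) fun a b _ hab => ?_
    simp only [reachable, coe_insert, Set.mem_insert_iff, mem_coe, mem_biUnion]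
    exact Or.inr ⟨s(a, b), hS hab, Sym2.mem_toFinset.2 (Sym2.mem_mk_right a b)⟩
  exact this h

/-- The infinite form of the connection inequality. -/
theorem connTo_trans (h0 : 0 ≤ p) (h1 : p ≤ 1) (E : Set (Sym2 W)) (x : W) (U T : Set W)
    {t : ℝ≥0∞} (ht : ∀ u ∈ U, t ≤ prob H p (connTo E u T)) :
    prob H p (connTo E x U) * t ≤ prob H p (connTo E x T) := by
  classical
  simp only [prob, ENNReal.iSup_mul]
  refine iSup₂_le fun V hV => ?_
  let B : Finset W := (reachable V x).filter fun u => u ∈ U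
  rcases (pr_nonneg h0 h1 V (connTo E x U)).eq_or_lt' with hz | hpos
  · rw [hz, ENNReal.ofReal_zero, zero_mul]; exact zero_le
  have hB : B.Nonempty := by
    by_contra hne
    refine hpos.ne' (le_antisymm ?_ (pr_nonneg h0 h1 _ _))
    refine (pr_le_sum h0 h1 B (fun _ _ => True) ?_).trans (by simp [not_nonempty_iff_eq_empty.1 hne])
    rintro S hS ⟨u, hu, huc⟩
    exact ⟨u, mem_filter.2 ⟨mem_reachable ((inPart_subset E S).trans hS) huc, hu⟩, trivial⟩
  obtain ⟨b₀, hb₀⟩ := hB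
  have ht1 : t ≤ 1 := (ht b₀ (mem_filter.1 hb₀).2).trans (prob_le_one h0 h1 _)
  have htop : t ≠ ⊤ := ne_top_of_le_ne_top ENNReal.one_ne_top ht1
  set a := pr p V (connTo E x U) with ha
  rw [← ENNReal.ofReal_toReal htop, ← ENNReal.ofReal_mul hpos.le]
  set R := ⨆ (W' : Finset (Sym2 W)) (_ : ↑W' ⊆ H.edgeSet), ENNReal.ofReal (pr p W' (connTo E x T))
    with hR
  refine le_of_not_gt fun hlt => ?_
  have hRtop : R ≠ ⊤ := ne_top_of_lt hlt
  have hRr : R.toReal < a * t.toReal := by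
    rw [← ENNReal.ofReal_toReal hRtop] at hlt
    exact (ENNReal.ofReal_lt_ofReal_iff_of_nonneg ENNReal.toReal_nonneg).1 hlt
  set s := (R.toReal / a + t.toReal) / 2 with hs
  have hdiv : R.toReal / a < t.toReal := by rw [div_lt_iff₀ hpos]; linarith
  have hs0 : 0 ≤ s := by
    have := div_nonneg (ENNReal.toReal_nonneg : 0 ≤ R.toReal) hpos.le
    linarith [(ENNReal.toReal_nonneg : 0 ≤ t.toReal)]
  have hst : ENNReal.ofReal s < t := by
    rw [← ENNReal.ofReal_toReal htop]
    exact (ENNReal.ofReal_lt_ofReal_iff_of_nonneg hs0).2 (by linarith)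
  have hchoose : ∀ u : B, ∃ V' : Finset (Sym2 W), ↑V' ⊆ H.edgeSet ∧
      ENNReal.ofReal s < ENNReal.ofReal (pr p V' (connTo E u.1 T)) := fun u =>
    exists_lt_pr (hst.trans_le (ht u.1 (mem_filter.1 u.2).2))
  choose V' hV' hVs using hchoose
  let V₁ : Finset (Sym2 W) := V ∪ B.attach.biUnion V'
  have hV₁ : ↑V₁ ⊆ H.edgeSet := by
    intro e he
    rcases mem_union.1 (Finset.mem_coe.1 he) with he | he
    · exact hV he
    · obtain ⟨u, -, hu⟩ := mem_biUnion.1 he
      exact hV' u hu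
  let V₂ := inPart E V₁
  have hV₂ : ∀ S, S ⊆ V₁ → S ∩ V₂ = inPart E S := by
    intro S hS
    ext e
    simp only [V₂, mem_inter, mem_inPart]
    exact ⟨fun h => ⟨h.1, h.2.2⟩, fun h => ⟨h.1, hS h.1, h.2⟩⟩
  have hmarg : ∀ Q : Finset (Sym2 W) → Prop,
      pr p V₁ (fun S => Q (inPart E S)) = pr p V₂ Q := fun Q => by
    rw [← pr_marginal p (inPart_subset E V₁) Q]
    exact pr_congr fun S hS => by rw [hV₂ S hS]
  let F : Set W → ℝ := fun C => P151.Fin.ind (∃ y ∈ T, y ∈ C)
  have hev : ∀ Q : Finset (Sym2 W) → Prop,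
      P151.Fin.ev (fun _ => p) V₂ (fun S => P151.Fin.ind (Q S)) = pr p V₂ Q := fun Q =>
    P151.Fin.pr_eq_uniform p Q
  have hF : ∀ u ∈ B, s ≤ P151.Fin.ev (fun _ => p) V₂ fun S => F (cl {u} S) := by
    intro u hu
    rw [hev, ← hmarg]
    refine le_trans ?_ (pr_mono_set (U₁ := V' ⟨u, hu⟩) h0 h1 ?_ (incr_connTo E u T))
    · exact ((ENNReal.ofReal_lt_ofReal_iff_of_nonneg hs0).1 (hVs ⟨u, hu⟩)).le
    · exact (subset_biUnion_of_mem V' (mem_attach _ _)).trans subset_union_right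
  have hKN := P151.KN.connection_fun_of_le_one (U := V₂) (fun _ => h0) (fun _ => h1) x
    (B := B) (F := F) (fun C C' hC => P151.Fin.ind_mono fun ⟨y, hy, hyC⟩ => ⟨y, hy, hC hyC⟩) hF
  simp only [F, ← P151.Fin.ind_and, hev, P151.Fin.pr_eq_uniform] at hKN
  rw [← hmarg, ← hmarg] at hKN
  have hge : a ≤ pr p V₁ fun S => x ∈ cl (↑B : Set W) (inPart E S) := by
    rw [ha]
    refine le_trans ?_ (pr_mono_set h0 h1 (subset_union_left : V ⊆ V₁)
      (fun S S' hSS h => cl_mono subset_rfl (inPart_mono hSS) h))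
    refine pr_mono h0 h1 ?_
    rintro S hS ⟨u, hu, huc⟩
    exact ⟨u, Finset.mem_coe.2
      (mem_filter.2 ⟨mem_reachable ((inPart_subset E S).trans hS) huc, hu⟩),
      (mem_cl_single.1 huc).symm⟩
  have hle : (pr p V₁ fun S => x ∈ cl (↑B : Set W) (inPart E S) ∧
      ∃ y ∈ T, y ∈ cl {x} (inPart E S)) ≤ R.toReal := by
    rw [← ENNReal.ofReal_le_iff_le_toReal hRtop]
    refine le_trans (ENNReal.ofReal_le_ofReal ?_) (ofReal_pr_le_prob hV₁ (connTo E x T))
    exact pr_mono h0 h1 fun S _ h => h.2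
  have h3 := mul_le_mul_of_nonneg_right hge hs0
  have h4 : R.toReal / a < s := by linarith
  rw [div_lt_iff₀ hpos] at h4
  linarith

omit [DecidableEq W] in
lemma mem_cl_of_hwalk {S : Finset (Sym2 W)} {x y : W} (q : H.Walk x y)
    (hq : ∀ e ∈ q.edges, e ∈ S) : y ∈ cl {x} S := by
  rw [mem_cl_single]
  refine ⟨q.transfer _ fun e he => ?_⟩
  rw [SimpleGraph.edgeSet_fromEdgeSet]
  exact ⟨Finset.mem_coe.2 (hq e he), H.not_isDiag_of_mem_edgeSet (q.edges_subset_edgeSet he)⟩

/-- If every open path from `x` to `T` inside `E` stays inside some `E' i` and visits `M i`,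
then its two pieces are disjoint. -/
theorem mean_le_through {ι : Type*} (h0 : 0 ≤ p) (h1 : p ≤ 1) (E : Set (Sym2 W)) (x : W)
    (T : Set W) (E' : ι → Set (Sym2 W)) (M : ι → Set W)
    (hcut : ∀ y ∈ T, ∀ q : H.Walk x y, q.IsPath → (∀ e ∈ q.edges, e ∈ E) →
      ∃ i, (∀ e ∈ q.edges, e ∈ E' i) ∧ ∃ m ∈ q.support, m ∈ M i) :
    mean H p E x T ≤
      ∑' i, ∑' m : M i, prob H p (connTo (E' i) x {(m : W)}) * mean H p (E' i) (m : W) T := by
  classical
  have key : ∀ y : T, prob H p (connTo E x {(y : W)}) ≤ ∑' z : (Σ i, M i),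
      prob H p (connTo (E' z.1) x {(z.2 : W)}) * prob H p (connTo (E' z.1) (z.2 : W) {(y : W)}) := by
    intro y
    refine le_trans ?_ (ENNReal.tsum_le_tsum fun z =>
      prob_box_le h0 h1 (incr_connTo (E' z.1) x {(z.2 : W)})
        (incr_connTo (E' z.1) (z.2 : W) {(y : W)}))
    refine le_trans (prob_mono h0 h1 ?_) (prob_exists_le h0 h1)
    rintro S hS ⟨w, rfl, hw⟩
    obtain ⟨r₀⟩ := mem_cl_single.1 hw
    let r := r₀.bypass
    have hr : ∀ e ∈ r.edges, e ∈ inPart E S := fun e he => by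
      have := r.edges_subset_edgeSet he
      rw [SimpleGraph.edgeSet_fromEdgeSet] at this
      exact this.1
    let q : H.Walk x (y : W) := r.transfer H fun e he => hS (mem_inPart.1 (hr e he)).1
    have hqe : q.edges = r.edges := SimpleGraph.Walk.edges_transfer _ _
    have hqp : q.IsPath := r₀.bypass_isPath.transfer _
    obtain ⟨i, hi, m, hm, hmM⟩ := hcut y y.2 q hqp fun e he =>
      (mem_inPart.1 (hr e (hqe ▸ he))).2
    have hspec : q.edges = (q.takeUntil m hm).edges ++ (q.dropUntil m hm).edges := by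
      conv_lhs => rw [← q.take_spec hm]
      exact SimpleGraph.Walk.edges_append _ _
    have hnd := hqp.isTrail.edges_nodup
    rw [hspec] at hnd
    have hd := (List.nodup_append.1 hnd).2.2
    have hmem : ∀ e ∈ q.edges, e ∈ S := fun e he => (mem_inPart.1 (hr e (hqe ▸ he))).1
    refine ⟨⟨i, m, hmM⟩, (q.takeUntil m hm).edges.toFinset, (q.dropUntil m hm).edges.toFinset,
      fun e he => hmem e (hspec ▸ List.mem_append_left _ (List.mem_toFinset.1 he)),
      fun e he => hmem e (hspec ▸ List.mem_append_right _ (List.mem_toFinset.1 he)), ?_,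
      ⟨m, rfl, mem_cl_of_hwalk _ fun e he => mem_inPart.2
        ⟨List.mem_toFinset.2 he, hi e (hspec ▸ List.mem_append_left _ he)⟩⟩,
      ⟨_, rfl, mem_cl_of_hwalk _ fun e he => mem_inPart.2
        ⟨List.mem_toFinset.2 he, hi e (hspec ▸ List.mem_append_right _ he)⟩⟩⟩
    rw [Finset.disjoint_left]
    intro e he he'
    exact hd e (List.mem_toFinset.1 he) e (List.mem_toFinset.1 he') rfl
  refine (ENNReal.tsum_le_tsum key).trans_eq ?_
  rw [ENNReal.tsum_comm, ENNReal.tsum_sigma']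
  exact tsum_congr fun i => tsum_congr fun m => ENNReal.tsum_mul_left

/-- The tree-graph bound. -/
theorem prob_two_le [H.LocallyFinite] (h0 : 0 ≤ p) (h1 : p ≤ 1) (x a b : W) :
    prob H p (fun S => connTo Set.univ x {a} S ∧ connTo Set.univ x {b} S) ≤
      ∑' z : W, prob H p (connTo Set.univ x {z}) * prob H p (connTo Set.univ z {a}) *
        prob H p (connTo Set.univ z {b}) := by
  have hc : ∀ u v : W, connTo Set.univ u {v} = conn u v := by
    intro u v
    funext S
    have hS : inPart Set.univ S = S := by ext e; simp [mem_inPart]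
    simp [connTo, hS]
  simp only [hc]
  refine le_trans (prob_mono h0 h1 (B := fun S => ∃ z, Box (conn x z) (Box (conn z a) (conn z b)) S)
    fun S _ h => ?_) ((prob_exists_le h0 h1).trans (ENNReal.tsum_le_tsum fun z => ?_))
  · obtain ⟨z, -, hz⟩ := exists_branch h.1 h.2
    exact ⟨z, hz⟩
  · refine (prob_box_le h0 h1 (incr_conn x z) (incr_box _ _)).trans ?_
    rw [mul_assoc]
    exact mul_le_mul_right (prob_box_le h0 h1 (incr_conn z a) (incr_conn z b)) _

/-- A finite sum of suprema is bounded through all choices of the indices. -/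
lemma sum_iSup_le {ι κ : Type*} (s : Finset ι) (g : ι → κ → ℝ≥0∞) {c : ℝ≥0∞}
    (h : ∀ f : ι → κ, ∑ i ∈ s, g i (f i) ≤ c) : ∑ i ∈ s, ⨆ k, g i k ≤ c := by
  classical
  rcases isEmpty_or_nonempty κ with hκ | hκ
  · simp
  · have e : ∀ i, ⨆ k, g i k = ⨆ f : ι → κ, g i (f i) := fun i =>
      ((Function.surjective_eval (β := fun _ : ι => κ) i).iSup_comp (g i)).symm
    simp only [e]
    rw [ENNReal.finsetSum_iSup fun f f' =>
      ⟨fun i => if g i (f i) ≤ g i (f' i) then f' i else f i, fun i => by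
        by_cases hle : g i (f i) ≤ g i (f' i)
        · simp [hle]
        · simp [hle, (not_le.1 hle).le]⟩]
    exact iSup_le h

lemma mean_ge_pr (h0 : 0 ≤ p) (h1 : p ≤ 1) (E : Set (Sym2 W)) (x : W) (T : Set W)
    {U : Finset (Sym2 W)} (hU : ↑U ⊆ H.edgeSet) (s : Finset W) (hs : ∀ y ∈ s, y ∈ T) :
    ENNReal.ofReal (∑ y ∈ s, pr p U (connTo E x {y})) ≤ mean H p E x T := by
  classical
  rw [ENNReal.ofReal_sum_of_nonneg fun i _ => pr_nonneg h0 h1 U _]
  refine le_trans ?_ (ENNReal.sum_le_tsum (s.subtype (· ∈ T)))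
  rw [Finset.sum_subtype_eq_sum_filter (fun y => prob H p (connTo E x {y})),
    Finset.filter_true_of_mem hs]
  exact Finset.sum_le_sum fun y _ => ofReal_pr_le_prob hU _

/-- At least `K` connected points cost at most the mean divided by `K`. -/
lemma prob_manyIn_le_mean (h0 : 0 ≤ p) (h1 : p ≤ 1) (E : Set (Sym2 W)) (x : W) (T : Set W)
    (K : ℕ) : (K : ℝ≥0∞) * prob H p (manyIn E x T K) ≤ mean H p E x T := by
  classical
  simp only [prob, ENNReal.mul_iSup]
  refine iSup₂_le fun U hU => ?_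
  let s := (reachable U x).filter fun y => y ∈ T
  refine le_trans ?_ (mean_ge_pr h0 h1 E x T hU s fun y hy => (mem_filter.1 hy).2)
  rw [← ENNReal.ofReal_natCast, ← ENNReal.ofReal_mul K.cast_nonneg]
  refine ENNReal.ofReal_le_ofReal ?_
  simp only [pr, Finset.sum_filter, Finset.mul_sum]
  rw [Finset.sum_comm]
  refine Finset.sum_le_sum fun S hS => ?_
  have hw := wt_nonneg h0 h1 U S
  split_ifs with hm
  · obtain ⟨Y, hY, hYc⟩ := hm
    have hsub : Y ⊆ s.filter fun y => connTo E x {y} S := fun y hy => by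
      refine mem_filter.2 ⟨mem_filter.2 ⟨mem_reachable
        ((inPart_subset E S).trans (mem_powerset.1 hS)) (hYc y hy).2, (hYc y hy).1⟩, ?_⟩
      exact ⟨y, rfl, (hYc y hy).2⟩
    rw [← Finset.sum_filter, Finset.sum_const, nsmul_eq_mul]
    exact mul_le_mul_of_nonneg_right (by exact_mod_cast hY.trans (card_le_card hsub)) hw
  · rw [mul_zero]
    exact Finset.sum_nonneg fun y _ => by split_ifs <;> simp [hw]

lemma prob_connTo_le_mean (h0 : 0 ≤ p) (h1 : p ≤ 1) (E : Set (Sym2 W)) (x : W) (T : Set W) :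
    prob H p (connTo E x T) ≤ mean H p E x T :=
  (prob_mono h0 h1 (B := fun S => ∃ y : T, connTo E x {(y : W)} S)
    fun _ _ ⟨y, hy, h⟩ => ⟨⟨y, hy⟩, y, rfl, h⟩).trans (prob_exists_le h0 h1)

/-- Layer-cake with a second moment. -/
theorem mean_le_tails (h0 : 0 ≤ p) (h1 : p ≤ 1) (E : Set (Sym2 W)) (x : W) (T : Set W)
    {K : ℕ} (hK : 0 < K) :
    mean H p E x T ≤ (∑ i ∈ Finset.range K, prob H p (manyIn E x T (i + 1))) +
      (∑' a : T, ∑' b : T,
        prob H p (fun S => connTo E x {(a : W)} S ∧ connTo E x {(b : W)} S)) / K := by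
  classical
  rw [mean, ENNReal.tsum_eq_iSup_sum]
  refine iSup_le fun F => ?_
  simp only [prob, iSup_subtype']
  refine sum_iSup_le F _ fun f => ?_
  let U : Finset (Sym2 W) := F.biUnion fun y => (f y).1
  have hU : ↑U ⊆ H.edgeSet := by
    intro e he
    obtain ⟨y, -, hy⟩ := mem_biUnion.1 (Finset.mem_coe.1 he)
    exact (f y).2 hy
  let s : Finset T := (reachable U x).subtype (· ∈ T)
  let N : Finset (Sym2 W) → ℕ := fun S => (s.filter fun y : T => connTo E x {(y : W)} S).card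
  have hstep : ∑ y ∈ F, pr p U (connTo E x {(y : W)}) ≤
      (∑ i ∈ Finset.range K, pr p U (manyIn E x T (i + 1))) +
      (∑ a ∈ s, ∑ b ∈ s,
        pr p U (fun S => connTo E x {(a : W)} S ∧ connTo E x {(b : W)} S)) / K := by
    simp only [pr, Finset.sum_filter]
    rw [Finset.sum_comm, Finset.sum_comm (s := Finset.range K)]
    conv_rhs => arg 2; arg 1; arg 2; ext a; rw [Finset.sum_comm]
    rw [Finset.sum_comm (s := s) (t := U.powerset), Finset.sum_div, ← Finset.sum_add_distrib]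
    refine Finset.sum_le_sum fun S hS => ?_
    have hS' := (inPart_subset E S).trans (mem_powerset.1 hS)
    have hw := wt_nonneg h0 h1 U S
    have hmem : ∀ y : T, connTo E x {(y : W)} S → y ∈ s := by
      rintro y ⟨z, rfl, hz⟩
      exact Finset.mem_subtype.2 (mem_reachable hS' hz)
    have hL : (∑ y ∈ F, if connTo E x {(y : W)} S then wt p U S else 0) ≤ (N S : ℝ) * wt p U S := by
      rw [← Finset.sum_filter, Finset.sum_const, nsmul_eq_mul]
      refine mul_le_mul_of_nonneg_right (Nat.cast_le.2 (card_le_card fun y hy => ?_)) hw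
      exact mem_filter.2 ⟨hmem y (mem_filter.1 hy).2, (mem_filter.1 hy).2⟩
    have hM : ∀ i, i < N S → manyIn E x T (i + 1) S := by
      intro i hi
      refine ⟨(s.filter fun y : T => connTo E x {(y : W)} S).map ⟨Subtype.val, Subtype.val_injective⟩,
        by rw [card_map]; exact hi, fun y hy => ?_⟩
      obtain ⟨z, hz, rfl⟩ := Finset.mem_map.1 hy
      obtain ⟨w, rfl, hw'⟩ := (mem_filter.1 hz).2
      exact ⟨z.2, hw'⟩
    have hR1 : ((min (N S) K : ℕ) : ℝ) * wt p U S ≤
        ∑ i ∈ Finset.range K, if manyIn E x T (i + 1) S then wt p U S else 0 := by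
      rw [← Finset.sum_filter, Finset.sum_const, nsmul_eq_mul]
      refine mul_le_mul_of_nonneg_right (Nat.cast_le.2 ?_) hw
      rw [← card_range (min (N S) K)]
      refine card_le_card fun i hi => ?_
      rw [mem_range, lt_min_iff] at hi
      exact mem_filter.2 ⟨mem_range.2 hi.2, hM i hi.1⟩
    have hR2 : (N S : ℝ) * N S * wt p U S = ∑ a ∈ s, ∑ b ∈ s,
        if connTo E x {(a : W)} S ∧ connTo E x {(b : W)} S then wt p U S else 0 := by
      have hrow : ∀ a ∈ s, (∑ b ∈ s,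
          if connTo E x {(a : W)} S ∧ connTo E x {(b : W)} S then wt p U S else 0) =
          if connTo E x {(a : W)} S then (N S : ℝ) * wt p U S else 0 := by
        intro a _
        by_cases ha : connTo E x {(a : W)} S
        · simp only [ha, true_and, if_true]
          rw [← Finset.sum_filter, Finset.sum_const, nsmul_eq_mul]
        · simp [ha]
      rw [Finset.sum_congr rfl hrow, ← Finset.sum_filter, Finset.sum_const, nsmul_eq_mul, mul_assoc]
    refine hL.trans ?_
    have hK' : (0 : ℝ) < K := by exact_mod_cast hK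
    rcases le_or_gt (N S) K with hNK | hNK
    · rw [min_eq_left hNK] at hR1
      refine hR1.trans (le_add_of_nonneg_right (div_nonneg ?_ hK'.le))
      rw [← hR2]
      positivity
    · refine le_add_of_nonneg_of_le (Finset.sum_nonneg fun i _ => by split_ifs <;> simp [hw]) ?_
      rw [← hR2, le_div_iff₀ hK']
      have hh : (K : ℝ) ≤ N S := by exact_mod_cast hNK.le
      nlinarith [mul_le_mul_of_nonneg_left hh (mul_nonneg (Nat.cast_nonneg (N S) : (0 : ℝ) ≤ N S) hw)]
  calc ∑ y ∈ F, ENNReal.ofReal (pr p (f y).1 (connTo E x {(y : W)}))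
      ≤ ∑ y ∈ F, ENNReal.ofReal (pr p U (connTo E x {(y : W)})) :=
        Finset.sum_le_sum fun y hy => ENNReal.ofReal_le_ofReal
          (pr_mono_set h0 h1 (subset_biUnion_of_mem (fun y => (f y).1) hy) (incr_connTo _ _ _))
    _ = ENNReal.ofReal (∑ y ∈ F, pr p U (connTo E x {(y : W)})) :=
        (ENNReal.ofReal_sum_of_nonneg fun y _ => pr_nonneg h0 h1 U _).symm
    _ ≤ _ := (ENNReal.ofReal_le_ofReal hstep).trans ENNReal.ofReal_add_le
    _ ≤ _ := by
        refine add_le_add ?_ ?_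
        · rw [ENNReal.ofReal_sum_of_nonneg fun i _ => pr_nonneg h0 h1 U _]
          exact Finset.sum_le_sum fun i _ =>
            le_iSup (fun V : {V : Finset (Sym2 W) // ↑V ⊆ H.edgeSet} =>
              ENNReal.ofReal (pr p V.1 (manyIn E x T (i + 1)))) ⟨U, hU⟩
        · rw [ENNReal.ofReal_div_of_pos (by exact_mod_cast hK), ENNReal.ofReal_natCast]
          refine ENNReal.div_le_div_right ?_ _
          rw [ENNReal.ofReal_sum_of_nonneg fun a _ => Finset.sum_nonneg fun b _ =>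
            pr_nonneg h0 h1 U _]
          refine le_trans (Finset.sum_le_sum fun a _ => ?_) (ENNReal.sum_le_tsum s)
          rw [ENNReal.ofReal_sum_of_nonneg fun b _ => pr_nonneg h0 h1 U _]
          refine le_trans (Finset.sum_le_sum fun b _ => ?_) (ENNReal.sum_le_tsum s)
          exact le_iSup (fun V : {V : Finset (Sym2 W) // ↑V ⊆ H.edgeSet} => ENNReal.ofReal
            (pr p V.1 fun S => connTo E x {(a : W)} S ∧ connTo E x {(b : W)} S)) ⟨U, hU⟩

/-- A bound valid below a parameter passes to it: powers of probabilities. -/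
theorem sum_prob_rpow_le_of_lt {ι : Type*} (s : Finset ι) (A : ι → Finset (Sym2 W) → Prop)
    {t : ℝ} (ht : 0 < t) {C : ℝ≥0∞} {p₀ : ℝ} (hp₀ : p₀ < p)
    (h : ∀ q, p₀ ≤ q → q < p → ∑ i ∈ s, prob H q (A i) ^ t ≤ C) :
    ∑ i ∈ s, prob H p (A i) ^ t ≤ C := by
  have hcomm : ∀ i, prob H p (A i) ^ t =
      ⨆ V : {V : Finset (Sym2 W) // ↑V ⊆ H.edgeSet}, ENNReal.ofReal (pr p V.1 (A i)) ^ t := by
    intro i
    have := (ENNReal.orderIsoRpow t ht).map_iSup
      fun V : {V : Finset (Sym2 W) // ↑V ⊆ H.edgeSet} => ENNReal.ofReal (pr p V.1 (A i))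
    simp only [ENNReal.orderIsoRpow_apply] at this
    rw [← this, prob, iSup_subtype']
  simp only [hcomm]
  refine sum_iSup_le s _ fun f => ?_
  have hcont : Continuous fun q : ℝ => ∑ i ∈ s, ENNReal.ofReal (pr q (f i).1 (A i)) ^ t := by
    refine continuous_finsetSum _ fun i _ => ENNReal.continuous_rpow_const.comp
      (ENNReal.continuous_ofReal.comp ?_)
    exact continuous_iff_continuousAt.2 fun q => (hasDerivAt_pr q (f i).1 (A i)).continuousAt
  refine le_of_tendsto ((hcont.tendsto p).mono_left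
    (nhdsWithin_le_nhds (s := Set.Iio p))) ?_
  filter_upwards [Ioo_mem_nhdsLT hp₀] with q hq
  refine le_trans (Finset.sum_le_sum fun i _ => ?_) (h q hq.1.le hq.2)
  exact ENNReal.rpow_le_rpow (ofReal_pr_le_prob (f i).2 (A i)) ht.le

end Vale.Agent.P165.Quot
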