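import Vale.Agent.P165.SharpTilt
import Vale.Agent.P165.Uniq

/-!
Continuation of a bounded tilted susceptibility past the parameter, with no invariance of the
weight.
-/

open Finset
open scoped ENNReal

namespace Vale.Agent.P165.Quot

variable {W : Type*} [DecidableEq W] {H : SimpleGraph W} [H.LocallyFinite]

/-- A probability of a finite edge set is Lipschitz in the parameter. -/
lemma abs_pr_sub_le {α : Type*} [DecidableEq α] {p q : ℝ} (hp0 : 0 ≤ p) (hp1 : p ≤ 1)
    (hq0 : 0 ≤ q) (hq1 : q ≤ 1) (U : Finset α) (Q : Finset α → Prop) :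
    |pr q U Q - pr p U Q| ≤ U.card * |q - p| := by
  classical
  induction U using Finset.induction_on generalizing Q with
  | empty => simp [pr, wt, sum_filter]
  | @insert a U ha ih =>
    rw [pr_insert q ha, pr_insert p ha, card_insert_of_notMem ha, Nat.cast_succ, add_mul, one_mul]
    set A := pr q U (fun S => Q (insert a S))
    set A' := pr p U (fun S => Q (insert a S))
    set B := pr q U Q
    set B' := pr p U Q
    have h1 : |A - A'| ≤ U.card * |q - p| := ih _
    have h2 : |B - B'| ≤ U.card * |q - p| := ih _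
    have h3 : |A - B| ≤ 1 := abs_sub_le_of_nonneg_of_le (pr_nonneg hq0 hq1 _ _)
      (pr_le_one hq0 hq1 _ _) (pr_nonneg hq0 hq1 _ _) (pr_le_one hq0 hq1 _ _)
    have e : q * A + (1 - q) * B - (p * A' + (1 - p) * B')
        = (p * (A - A') + (1 - p) * (B - B')) + (q - p) * (A - B) := by ring
    rw [e]
    refine (abs_add_le _ _).trans (add_le_add ((abs_add_le _ _).trans ?_) ?_)
    · rw [abs_mul, abs_mul, abs_of_nonneg hp0, abs_of_nonneg (sub_nonneg.2 hp1)]
      calc p * |A - A'| + (1 - p) * |B - B'|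
          ≤ p * (U.card * |q - p|) + (1 - p) * (U.card * |q - p|) :=
            add_le_add (mul_le_mul_of_nonneg_left h1 hp0)
              (mul_le_mul_of_nonneg_left h2 (sub_nonneg.2 hp1))
        _ = U.card * |q - p| := by ring
    · rw [abs_mul]
      exact mul_le_of_le_one_right (abs_nonneg _) h3

lemma card_ball_le {D : ℕ} (hD : ∀ x, (H.neighborFinset x).card ≤ D) (v : W) (n : ℕ) :
    (ball H v n).card ≤ (D + 1) ^ n := by
  induction n with
  | zero => simp [ball]
  | succ n ih =>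
    refine (card_union_le _ _).trans ?_
    refine (add_le_add le_rfl (card_biUnion_le.trans (sum_le_card_nsmul _ _ D fun x _ => hD x))).trans ?_
    rw [smul_eq_mul, pow_succ]
    nlinarith

lemma card_inEdges_le {D : ℕ} (hD : ∀ x, (H.neighborFinset x).card ≤ D) (S : Finset W) :
    (inEdges H S).card ≤ S.card * D :=
  card_biUnion_le.trans ((sum_le_card_nsmul _ _ D fun x _ =>
    card_image_le.trans ((card_le_card inter_subset_left).trans (hD x))).trans_eq rfl)

lemma card_outPairs_le {D : ℕ} (hD : ∀ x, (H.neighborFinset x).card ≤ D) (S : Finset W) :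
    (outPairs H S).card ≤ S.card * D :=
  card_biUnion_le.trans ((sum_le_card_nsmul _ _ D fun x _ =>
    card_image_le.trans ((card_le_card sdiff_subset).trans (hD x))).trans_eq rfl)

lemma weight_ball_le {f : W → W → ℝ} (hf0 : ∀ a b, 0 ≤ f a b)
    (hf : ∀ a b c, f a c ≤ f a b * f b c) {L : ℝ} (hL1 : 1 ≤ L)
    (hL : ∀ x y, H.Adj x y → f x y ≤ L) {v : W} {C : ℝ} (hC0 : 0 ≤ C) (hv : f v v ≤ C) :
    ∀ (n : ℕ), ∀ z ∈ ball H v n, f v z ≤ C * L ^ n := by
  intro n
  induction n with
  | zero => simpa [ball] using hv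
  | succ n ih =>
    intro z hz
    rcases mem_union.1 hz with hz | hz
    · exact (ih z hz).trans (mul_le_mul_of_nonneg_left (pow_le_pow_right₀ hL1 n.le_succ) hC0)
    · obtain ⟨y, hy, hyz⟩ := mem_biUnion.1 hz
      rw [pow_succ, ← mul_assoc]
      exact (hf v y z).trans (mul_le_mul (ih y hy) (hL y z (by simpa using hyz)) (hf0 _ _)
        (mul_nonneg hC0 (pow_nonneg (zero_le_one.trans hL1) _)))

/-- Some shell of bounded radius has a small weighted criterion. -/
lemma exists_small_phiT {f : W → W → ℝ} (hf0 : ∀ a b, 0 ≤ f a b)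
    (hf : ∀ a b c, f a c ≤ f a b * f b c) {p : ℝ} (h0 : 0 ≤ p) (h1 : p ≤ 1) {D : ℕ}
    (hD : ∀ x, (H.neighborFinset x).card ≤ D) {L : ℝ} (hL0 : 0 ≤ L)
    (hL : ∀ x y, H.Adj x y → f x y ≤ L) {C : ℝ} (v : W)
    (hC : ∀ (Λ : Finset W) (U : Finset (Sym2 W)), ↑U ⊆ H.edgeSet →
      ∑ z ∈ Λ, f v z * pr p U (fun T => z ∈ cl {v} T) ≤ C)
    {m : ℕ} (hm : 2 * (p * D * L * C) < m) :
    ∃ n < m, phiT H f p v (ball H v (n + 1)) < 1 / 2 := by
  classical
  by_contra hno
  push Not at hno
  set U := inEdges H (ball H v m)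
  set τ : W → ℝ := fun z => f v z * pr p U (fun T => z ∈ cl {v} T)
  have hτ : ∀ z, 0 ≤ τ z := fun z => mul_nonneg (hf0 _ _) (pr_nonneg h0 h1 _ _)
  have hterm : ∀ n < m, 1 / 2 ≤ p * D * L * ∑ z ∈ shell H v n, τ z := by
    intro n hn
    set S := ball H v (n + 1)
    refine (hno n hn).trans ?_
    rw [phiT, mul_assoc, mul_assoc, mul_sum (a := L), mul_sum (a := (D : ℝ))]
    refine mul_le_mul_of_nonneg_left ?_ h0
    have hsub : outPairs H S ⊆ (shell H v n).biUnion
        fun x => (H.neighborFinset x).image fun y => (x, y) := by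
      rintro ⟨x, y⟩ h
      obtain ⟨hadj, hx, hy⟩ := mem_outPairs.1 h
      exact mem_biUnion.2 ⟨x, mem_sdiff.2 ⟨hx, fun h' => hy (ball_adj h' hadj)⟩,
        mem_image.2 ⟨y, by simpa using hadj, rfl⟩⟩
    have hinto : inEdges H S ⊆ U := by
      intro e
      induction e with
      | h a b =>
        intro h
        obtain ⟨hadj, ha, hb⟩ := mem_inEdges.1 h
        exact mem_inEdges.2 ⟨hadj, ball_mono v hn ha, ball_mono v hn hb⟩
    calc ∑ e ∈ outPairs H S, pr p (inEdges H S) (fun T => e.1 ∈ cl {v} T) * f v e.2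
        ≤ ∑ e ∈ outPairs H S, L * τ e.1 := by
          refine sum_le_sum fun e he => ?_
          obtain ⟨x, y⟩ := e
          have hxy : f v y ≤ L * f v x := by
            rw [mul_comm]
            exact (hf v x y).trans (mul_le_mul_of_nonneg_left (hL x y (mem_outPairs.1 he).1)
              (hf0 _ _))
          refine (mul_le_mul (pr_mono_set h0 h1 hinto fun S T hST h => cl_mono subset_rfl hST h)
            hxy (hf0 _ _) (pr_nonneg h0 h1 _ _)).trans (le_of_eq ?_)
          simp only [τ]; ring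
      _ ≤ ∑ e ∈ (shell H v n).biUnion fun x => (H.neighborFinset x).image fun y => (x, y),
          L * τ e.1 := sum_le_sum_of_subset_of_nonneg hsub fun e _ _ => mul_nonneg hL0 (hτ _)
      _ = ∑ x ∈ shell H v n, ∑ e ∈ (H.neighborFinset x).image (fun y => (x, y)), L * τ e.1 :=
          sum_biUnion fun a _ b _ hab => Finset.disjoint_left.2 fun e ha hb => hab (by
            obtain ⟨_, _, rfl⟩ := mem_image.1 ha
            obtain ⟨_, _, h⟩ := mem_image.1 hb
            exact (congrArg Prod.fst h).symm)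
      _ ≤ _ := sum_le_sum fun x _ => by
          rw [sum_image (fun a _ b _ h => (Prod.mk.inj h).2)]
          dsimp only
          rw [sum_const, nsmul_eq_mul]
          exact mul_le_mul_of_nonneg_right (Nat.cast_le.2 (hD x)) (mul_nonneg hL0 (hτ x))
  have hsum := sum_le_sum (s := range m) fun n hn => hterm n (mem_range.1 hn)
  rw [← mul_sum, ← sum_biUnion fun a _ b _ hab => shell_disjoint v hab] at hsum
  simp only [sum_const, card_range, nsmul_eq_mul] at hsum
  have := hsum.trans (mul_le_mul_of_nonneg_left (hC _ U (inEdges_edge _)) (by positivity))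
  linarith

/-- A bounded tilted susceptibility persists at some larger parameter. -/
theorem tilt_open_uniform {f : W → W → ℝ} (hf0 : ∀ a b, 0 ≤ f a b)
    (hf : ∀ a b c, f a c ≤ f a b * f b c) {p : ℝ} (h0 : 0 ≤ p) (h1 : p < 1) {D : ℕ}
    (hD : ∀ x, (H.neighborFinset x).card ≤ D) {L : ℝ} (hL : ∀ x y, H.Adj x y → f x y ≤ L) {C : ℝ}
    (hC : ∀ (v : W) (Λ : Finset W) (U : Finset (Sym2 W)), ↑U ⊆ H.edgeSet →
      ∑ z ∈ Λ, f v z * pr p U (fun T => z ∈ cl {v} T) ≤ C) :
    ∃ q, p < q ∧ q < 1 ∧ ∃ C' : ℝ, ∀ (v : W) (Λ : Finset W) (U : Finset (Sym2 W)),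
      ↑U ⊆ H.edgeSet → ∑ z ∈ Λ, f v z * pr q U (fun T => z ∈ cl {v} T) ≤ C' := by
  classical
  rcases isEmpty_or_nonempty W with hW | ⟨⟨o⟩⟩
  · exact ⟨(p + 1) / 2, by linarith, by linarith, 0, fun v => hW.elim v⟩
  have hC0 : 0 ≤ C := by simpa using hC o ∅ ∅ (by simp)
  set L' := max L 1
  have hL' : ∀ x y, H.Adj x y → f x y ≤ L' := fun x y h => (hL x y h).trans (le_max_left _ _)
  have hL1 : 1 ≤ L' := le_max_right _ _
  have hL0 : 0 ≤ L' := zero_le_one.trans hL1
  have hvv : ∀ v, f v v ≤ C := fun v => by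
    have := hC v {v} ∅ (by simp)
    have h1' : pr p (∅ : Finset (Sym2 W)) (fun T => v ∈ cl {v} T) = 1 :=
      (pr_congr (R := fun _ => True) fun T _ =>
        iff_true_intro (subset_cl ({v} : Set W) T (Set.mem_singleton v))).trans
        (pr_true _ _)
    rw [sum_singleton, h1', mul_one] at this
    exact this
  obtain ⟨m, hm⟩ := exists_nat_gt (2 * (p * D * L' * C))
  choose n hn hphi using fun v => exists_small_phiT hf0 hf h0 h1.le hD hL0 hL' v (hC v) hm
  set N : ℕ := (D + 1) ^ m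
  set B : ℝ := C * L' ^ (m + 1)
  have hcard : ∀ v, (ball H v (n v + 1)).card ≤ N := fun v =>
    (card_ball_le hD v _).trans (Nat.pow_le_pow_right D.succ_pos (hn v))
  have hB : ∀ v z, z ∈ ball H v (n v + 1 + 1) → f v z ≤ B := fun v z hz =>
    (weight_ball_le hf0 hf hL1 hL' hC0 (hvv v) _ z hz).trans
      (mul_le_mul_of_nonneg_left (pow_le_pow_right₀ hL1 (by have := hn v; omega)) hC0)
  set A : ℝ := (N * D : ℕ) * B * ((N * D : ℕ) + 1) with hA
  have hB0 : 0 ≤ B := mul_nonneg hC0 (pow_nonneg hL0 _)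
  have hA0 : 0 ≤ A := mul_nonneg (mul_nonneg (Nat.cast_nonneg _) hB0) (by positivity)
  set δ : ℝ := min ((1 - p) / 2) (1 / (4 * (A + 1))) with hδ
  have hδ0 : 0 < δ := lt_min (by linarith) (by positivity)
  have hδ1 : δ ≤ (1 - p) / 2 := min_le_left _ _
  have hδA : A * δ ≤ 1 / 4 := by
    calc A * δ ≤ A * (1 / (4 * (A + 1))) := mul_le_mul_of_nonneg_left (min_le_right _ _) hA0
      _ ≤ 1 / 4 := by rw [← mul_div_assoc, mul_one, div_le_iff₀ (by linarith)]; linarith
  have hq1 : p + δ < 1 := by linarith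
  refine ⟨p + δ, by linarith, hq1, (N : ℝ) * B / (1 - 3 / 4), fun v Λ U hU => ?_⟩
  refine tilt_susceptibility_le hf0 hf (by linarith) hq1.le (by norm_num)
    (fun w => ⟨ball H w (n w + 1), ball_mono w (Nat.zero_le _) (by simp [ball]), ?_, ?_⟩) hU Λ v
  · refine (sum_le_card_nsmul _ _ B fun z hz => hB w z (ball_mono w (Nat.le_succ _) hz)).trans ?_
    rw [nsmul_eq_mul]
    exact mul_le_mul_of_nonneg_right (Nat.cast_le.2 (hcard w)) hB0
  set S := ball H w (n w + 1)
  have hE : (inEdges H S).card ≤ N * D :=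
    (card_inEdges_le hD S).trans (Nat.mul_le_mul_right D (hcard w))
  have hO : (outPairs H S).card ≤ N * D :=
    (card_outPairs_le hD S).trans (Nat.mul_le_mul_right D (hcard w))
  set s : ℝ → ℝ := fun t =>
    ∑ e ∈ outPairs H S, pr t (inEdges H S) (fun T => e.1 ∈ cl {w} T) * f w e.2 with hs
  have hfe : ∀ e ∈ outPairs H S, f w e.2 ≤ B := fun e he =>
    hB w e.2 (ball_adj (mem_outPairs.1 (show (e.1, e.2) ∈ outPairs H S from he)).2.1
      (mem_outPairs.1 (show (e.1, e.2) ∈ outPairs H S from he)).1)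
  have hd : s (p + δ) - s p ≤ (N * D : ℕ) * ((N * D : ℕ) * δ * B) := by
    rw [hs]
    simp only
    rw [← sum_sub_distrib]
    refine (sum_le_card_nsmul _ _ (((N * D : ℕ) : ℝ) * δ * B) fun e he => ?_).trans ?_
    · rw [← sub_mul]
      refine mul_le_mul ?_ (hfe e he) (hf0 _ _) (mul_nonneg (Nat.cast_nonneg _) hδ0.le)
      refine (le_abs_self _).trans ((abs_pr_sub_le h0 h1.le (by linarith) hq1.le _ _).trans ?_)
      rw [add_sub_cancel_left, abs_of_pos hδ0]
      exact mul_le_mul_of_nonneg_right (Nat.cast_le.2 hE) hδ0.le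
    · rw [nsmul_eq_mul]
      exact mul_le_mul_of_nonneg_right (Nat.cast_le.2 hO)
        (mul_nonneg (mul_nonneg (Nat.cast_nonneg _) hδ0.le) hB0)
  have hs1 : s (p + δ) ≤ (N * D : ℕ) * B := by
    refine (sum_le_card_nsmul _ _ B fun e he => ?_).trans ?_
    · exact (mul_le_of_le_one_left (hf0 _ _) (pr_le_one (by linarith) hq1.le _ _)).trans (hfe e he)
    · rw [nsmul_eq_mul]
      exact mul_le_mul_of_nonneg_right (Nat.cast_le.2 hO) hB0
  have hsp : p * s p ≤ 1 / 2 := (hphi w).le
  have key : (p + δ) * s (p + δ) ≤ 1 / 2 + A * δ := by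
    have e : (p + δ) * s (p + δ) = p * s p + p * (s (p + δ) - s p) + δ * s (p + δ) := by ring
    rw [e, hA]
    have h2 : p * (s (p + δ) - s p) ≤ (N * D : ℕ) * ((N * D : ℕ) * δ * B) := by
      refine (mul_le_mul_of_nonneg_left hd h0).trans (mul_le_of_le_one_left ?_ h1.le)
      exact mul_nonneg (Nat.cast_nonneg _) (mul_nonneg (mul_nonneg (Nat.cast_nonneg _) hδ0.le) hB0)
    have h3 : δ * s (p + δ) ≤ δ * ((N * D : ℕ) * B) := mul_le_mul_of_nonneg_left hs1 hδ0.le
    linarith
  change (p + δ) * s (p + δ) ≤ 3 / 4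
  linarith

omit [H.LocallyFinite] in
/-- A weight growing along the images of every vertex turns the bound into connection decay. -/
theorem connDecay_of_tilt {f : W → W → ℝ} {q C : ℝ} (_h0 : 0 ≤ q) (_h1 : q ≤ 1)
    (hC : ∀ (v : W) (Λ : Finset W) (U : Finset (Sym2 W)), ↑U ⊆ H.edgeSet →
      ∑ z ∈ Λ, f v z * pr q U (fun T => z ∈ cl {v} T) ≤ C)
    (hgrow : ∀ (P : Finset W) (x : W) (M : ℝ), ∃ φ : H ≃g H, φ x ∉ P ∧
      ∀ a ∈ P, M ≤ f a (φ x)) :
    ConnDecay H q := by
  intro P x η hη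
  obtain ⟨φ, hφ, hM⟩ := hgrow P x (max (C / η) 1)
  refine ⟨φ, hφ, fun a ha U hU => ?_⟩
  have h := hC a {φ x} U hU
  rw [sum_singleton] at h
  have hpos : 0 < f a (φ x) := lt_of_lt_of_le zero_lt_one ((le_max_right _ _).trans (hM a ha))
  have hCη : C ≤ f a (φ x) * η :=
    (div_le_iff₀ hη).1 ((le_max_left _ _).trans (hM a ha))
  exact le_of_mul_le_mul_left (h.trans hCη) hpos

/-- The threshold of a connected quasi-transitive infinite graph is positive. -/
theorem pc_pos [Infinite W] (hH : H.Connected) (hQT : QuasiTransitive H) : 0 < pc H := by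
  classical
  obtain ⟨F, hFfin, hF⟩ := id hQT
  set D := hFfin.toFinset.sup fun x => (H.neighborFinset x).card
  have hD : ∀ v, (H.neighborFinset v).card ≤ D := by
    intro v
    obtain ⟨φ, hφ⟩ := hF v
    refine le_trans (le_of_eq ?_)
      (Finset.le_sup (f := fun x => (H.neighborFinset x).card) (hFfin.mem_toFinset.2 hφ))
    rw [← card_map φ.toEquiv.toEmbedding]
    congr 1
    ext y
    obtain ⟨b, rfl⟩ := φ.surjective y
    simp [φ.map_adj_iff]
    erw [φ.symm_apply_apply]
  set p : ℝ := 1 / ((D : ℝ) + 2)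
  have hp0 : 0 < p := by positivity
  have hp1 : p < 1 := by
    rw [div_lt_one (by positivity)]
    linarith [(Nat.cast_nonneg D : (0 : ℝ) ≤ D)]
  refine hp0.trans (lt_pc_of_phiS hH hQT hp0.le hp1 fun v => ⟨{v}, mem_singleton_self v, ?_⟩)
  have hsum : ∑ e ∈ outPairs H {v}, pr p (inEdges H {v}) (fun T => e.1 ∈ cl {v} T) ≤ (D : ℝ) := by
    refine (sum_le_card_nsmul _ _ 1 fun e _ => pr_le_one hp0.le hp1.le _ _).trans ?_
    rw [nsmul_eq_mul, mul_one, Nat.cast_le]
    simpa using card_outPairs_le hD {v}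
  calc phiS H p v {v} ≤ p * D := mul_le_mul_of_nonneg_left hsum hp0.le
    _ < 1 := by rw [div_mul_eq_mul_div, one_mul, div_lt_one (by positivity)]; linarith

end Vale.Agent.P165.Quot
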