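import Vale.Agent.P165.SharpTilt
import Vale.Agent.P165.BK

/-!
Probabilities of increasing events as suprema over finite edge sets, connection events inside a
prescribed edge set, and counts of connected points.
-/

open Finset
open scoped ENNReal

namespace Vale.Agent.P165.Quot

variable {W : Type*} [DecidableEq W]

/-- The probability of an increasing event: the supremum over the finite edge sets of `H`. -/
noncomputable def prob (H : SimpleGraph W) (p : ℝ) (A : Finset (Sym2 W) → Prop) : ℝ≥0∞ :=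
  ⨆ (U : Finset (Sym2 W)) (_ : ↑U ⊆ H.edgeSet), ENNReal.ofReal (pr p U A)

/-- The open edges of `S` lying in `E`. -/
noncomputable def inPart (E : Set (Sym2 W)) (S : Finset (Sym2 W)) : Finset (Sym2 W) :=
  @Finset.filter _ (fun e => e ∈ E) (Classical.decPred _) S

/-- `x` is joined to the set `T` by open edges lying in `E`. -/
def connTo (E : Set (Sym2 W)) (x : W) (T : Set W) (S : Finset (Sym2 W)) : Prop :=
  ∃ y ∈ T, y ∈ cl {x} (inPart E S)

/-- At least `K` points of `T` are joined to `x` by open edges lying in `E`. -/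
def manyIn (E : Set (Sym2 W)) (x : W) (T : Set W) (K : ℕ) (S : Finset (Sym2 W)) : Prop :=
  ∃ Y : Finset W, K ≤ Y.card ∧ ∀ y ∈ Y, y ∈ T ∧ y ∈ cl {x} (inPart E S)

/-- At least `K` points of `T` are joined to the finite set `Y` by open edges lying in `E`. -/
def manyFrom (E : Set (Sym2 W)) (Y : Finset W) (T : Set W) (K : ℕ) (S : Finset (Sym2 W)) : Prop :=
  ∃ Z : Finset W, K ≤ Z.card ∧ ∀ z ∈ Z, z ∈ T ∧ z ∈ cl (↑Y : Set W) (inPart E S)

/-- The expected number of points of `T` joined to `x` by open edges lying in `E`. -/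
noncomputable def mean (H : SimpleGraph W) (p : ℝ) (E : Set (Sym2 W)) (x : W) (T : Set W) : ℝ≥0∞ :=
  ∑' y : T, prob H p (connTo E x {(y : W)})

omit [DecidableEq W] in
lemma inPart_mono {E : Set (Sym2 W)} {S T : Finset (Sym2 W)} (h : S ⊆ T) :
    inPart E S ⊆ inPart E T :=
  @Finset.filter_subset_filter _ _ (Classical.decPred _) _ _ h

omit [DecidableEq W] in
lemma inPart_subset (E : Set (Sym2 W)) (S : Finset (Sym2 W)) : inPart E S ⊆ S :=
  @Finset.filter_subset _ _ (Classical.decPred _) _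

omit [DecidableEq W] in
lemma mem_inPart {E : Set (Sym2 W)} {S : Finset (Sym2 W)} {e : Sym2 W} :
    e ∈ inPart E S ↔ e ∈ S ∧ e ∈ E := by
  simp [inPart]

omit [DecidableEq W] in
lemma incr_connTo (E : Set (Sym2 W)) (x : W) (T : Set W) : Incr (connTo E x T) :=
  fun _ _ h ⟨y, hy, hc⟩ => ⟨y, hy, cl_mono subset_rfl (inPart_mono h) hc⟩

omit [DecidableEq W] in
lemma incr_manyIn (E : Set (Sym2 W)) (x : W) (T : Set W) (K : ℕ) : Incr (manyIn E x T K) :=
  fun _ _ h ⟨Y, hK, hY⟩ =>
    ⟨Y, hK, fun y hy => ⟨(hY y hy).1, cl_mono subset_rfl (inPart_mono h) (hY y hy).2⟩⟩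

omit [DecidableEq W] in
lemma incr_manyFrom (E : Set (Sym2 W)) (Y : Finset W) (T : Set W) (K : ℕ) :
    Incr (manyFrom E Y T K) :=
  fun _ _ h ⟨Z, hK, hZ⟩ =>
    ⟨Z, hK, fun z hz => ⟨(hZ z hz).1, cl_mono subset_rfl (inPart_mono h) (hZ z hz).2⟩⟩

end Vale.Agent.P165.Quot
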