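import Vale.Agent.P165.Quot.Words

/-!
Spheres, codes and antichains of reduced words.
-/

open Finset

namespace Vale.Agent.P165.Quot

variable {k : ℕ} {u v w : FreeGroup (Fin k)} {x y l : Letter k}

lemma mem_sphere {n : ℕ} : u ∈ sphere k n ↔ wlen u = n := by
  classical
  refine ⟨fun h => (mem_filter.1 h).2, fun h => mem_filter.2 ⟨?_, h⟩⟩
  induction n generalizing u with
  | zero => simp [wlen_eq_zero.1 h]
  | succ n ih =>
    obtain ⟨a, L, hL⟩ : ∃ a L, u.toWord = a :: L := List.exists_cons_of_length_eq_add_one h
    obtain ⟨e, -, hw, -⟩ := concat_of_split (P := [a]) (S := L) hL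
    rw [List.replicate_succ, List.foldr_cons]
    refine mem_image₂.2 ⟨a, mem_univ _, FreeGroup.mk L, ih ?_, e.symm⟩
    rw [wlen, hw]
    simpa [wlen, hL] using h

lemma card_letter : Fintype.card (Letter k) = 2 * k := by
  simp [mul_comm]

lemma card_sphere_ge (hk : 2 ≤ k) (n : ℕ) : (2 * k - 1) ^ n ≤ (sphere k n).card := by
  classical
  induction n with
  | zero =>
    rw [pow_zero]
    exact card_pos.2 ⟨1, mem_sphere.2 wlen_one⟩
  | succ n ih =>
    let T := (sphere k n).sigma fun u => univ.filter fun x : Letter k => Concat (gen x) u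
    have hc : ∀ u : FreeGroup (Fin k),
        2 * k - 1 ≤ (univ.filter fun x : Letter k => Concat (gen x) u).card := by
      intro u
      have h1 : (univ.filter fun x : Letter k => ¬ Concat (gen x) u).card ≤ 1 := by
        refine card_le_one.2 fun a ha b hb => ?_
        simp only [mem_filter, mem_univ, true_and, concat_iff, lastL_gen, Option.some.injEq,
          forall_eq', not_not] at ha hb
        rw [ha, Option.some.injEq] at hb
        simpa using congrArg opp hb
      have h2 := card_filter_add_card_filter_not (s := univ)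
        (fun x : Letter k => Concat (gen x) u)
      rw [card_univ, card_letter] at h2
      omega
    have hT : T.card ≤ (sphere k (n + 1)).card := by
      refine card_le_card_of_injOn (fun p => gen p.2 * p.1) (fun p hp => ?_) fun p hp q hq e => ?_
      · obtain ⟨hp1, hp2⟩ := mem_sigma.1 hp
        have h2 := (mem_filter.1 hp2).2
        refine mem_sphere.2 ?_
        rw [h2, wlen_gen, mem_sphere.1 hp1, add_comm]
      · obtain ⟨-, hp2⟩ := mem_sigma.1 hp
        obtain ⟨-, hq2⟩ := mem_sigma.1 hq
        have := congrArg FreeGroup.toWord e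
        rw [toWord_concat (mem_filter.1 hp2).2, toWord_concat (mem_filter.1 hq2).2, toWord_gen,
          toWord_gen] at this
        obtain ⟨u, a⟩ := p
        obtain ⟨v, b⟩ := q
        simp only [List.cons_append, List.nil_append, List.cons.injEq,
          FreeGroup.toWord_inj] at this
        rw [this.1, this.2]
    refine le_trans ?_ hT
    rw [pow_succ, card_sigma]
    calc (2 * k - 1) ^ n * (2 * k - 1) ≤ (sphere k n).card * (2 * k - 1) :=
          Nat.mul_le_mul_right _ ih
      _ = ∑ _u ∈ sphere k n, (2 * k - 1) := by simp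
      _ ≤ _ := sum_le_sum fun u _ => hc u

lemma finite_ball (n : ℕ) : {t : FreeGroup (Fin k) | wlen t ≤ n}.Finite :=
  (List.finite_length_le (Letter k) n).preimage FreeGroup.toWord_injective.injOn

lemma exists_letter (hk : 2 ≤ k) (a b d : Letter k) : ∃ z, z ≠ a ∧ z ≠ b ∧ z ≠ d := by
  classical
  by_contra h
  have hsub : (univ : Finset (Letter k)) ⊆ {a, b, d} := fun z _ => by
    by_contra hz
    simp only [mem_insert, mem_singleton, not_or] at hz
    exact h ⟨z, hz⟩
  have h3 := (card_le_card hsub).trans (card_le_three (a := a) (b := b) (c := d))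
  rw [card_univ, card_letter] at h3
  omega

lemma isReduced_replicate (n : ℕ) (z : Letter k) :
    FreeGroup.IsReduced (List.replicate n z) :=
  List.isChain_replicate_of_rel _ fun _ => rfl

/-- A word of prescribed length and end letters. -/
lemma exists_word (hk : 2 ≤ k) (a b : Letter k) {n : ℕ} (hn : 3 ≤ n) :
    ∃ m : FreeGroup (Fin k), wlen m = n ∧ headL m = some a ∧ lastL m = some b := by
  obtain ⟨z, hz1, hz2, -⟩ := exists_letter hk (opp a) (opp b) (opp a)
  obtain ⟨j, rfl⟩ : ∃ j, n = j + 3 := ⟨n - 3, by omega⟩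
  have hr : FreeGroup.IsReduced (([a] ++ List.replicate (j + 1) z) ++ [b]) := by
    refine isReduced_append_iff.2 ⟨isReduced_append_iff.2 ⟨.singleton, isReduced_replicate _ z, ?_⟩,
      .singleton, ?_⟩
    · intro w hw
      simp only [List.getLast?_singleton, Option.some.injEq] at hw
      subst hw
      simpa [List.head?_replicate] using hz1
    · intro w hw
      rw [List.getLast?_append_of_ne_nil _ (by simp), List.getLast?_replicate] at hw
      simp only [Nat.add_one_ne_zero, if_false, Option.some.injEq] at hw
      subst hw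
      simp only [List.head?_cons, ne_eq, Option.some.injEq]
      rintro rfl
      exact hz2 opp_opp.symm
  refine ⟨FreeGroup.mk (([a] ++ List.replicate (j + 1) z) ++ [b]), ?_, ?_, ?_⟩
  · rw [wlen, toWord_mk_of_reduced hr]
    simp
  · rw [headL, toWord_mk_of_reduced hr]
    simp
  · rw [lastL, toWord_mk_of_reduced hr]
    exact List.getLast?_concat

lemma prefixFree_of_length {A : Set (FreeGroup (Fin k))} {n : ℕ} (hA : ∀ t ∈ A, wlen t = n) :
    PrefixFree A :=
  fun u hu v hv h => pre_eq_of_length h (by rw [hA u hu, hA v hv])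

/-- Wrapping preserves freeness of initial segments. -/
theorem exists_wrap (hk : 2 ≤ k) (a b : Letter k) :
    ∃ Φ : FreeGroup (Fin k) → FreeGroup (Fin k),
      (∀ t, t ≠ 1 → wlen (Φ t) = wlen t + 4 ∧ headL (Φ t) = some a ∧ lastL (Φ t) = some b ∧
        ∃ d e, wlen d = 2 ∧ wlen e = 2 ∧ Φ t = d * t * e ∧ Concat d t ∧ Concat (d * t) e) ∧
      ∀ A : Set (FreeGroup (Fin k)), (1 : FreeGroup (Fin k)) ∉ A → PrefixFree A →
        Set.InjOn Φ A ∧ PrefixFree (Φ '' A) := by
  choose f hf using fun t : FreeGroup (Fin k) =>
    exists_letter hk (opp a) (((headL t).map opp).getD (opp a)) (opp a)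
  choose g hg using fun t : FreeGroup (Fin k) =>
    exists_letter hk (opp b) (((lastL t).map opp).getD (opp b)) (opp b)
  have key : ∀ t, t ≠ 1 →
      (gen a * gen (f t) * t * (gen (g t) * gen b)).toWord =
          [a, f t] ++ t.toWord ++ [g t, b] ∧
      wlen (gen a * gen (f t)) = 2 ∧ wlen (gen (g t) * gen b) = 2 ∧
      Concat (gen a * gen (f t)) t ∧ Concat (gen a * gen (f t) * t) (gen (g t) * gen b) := by
    intro t ht
    obtain ⟨p, hp⟩ : ∃ p, headL t = some p :=
      Option.ne_none_iff_exists'.1 fun e => ht (headL_eq_none.1 e)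
    obtain ⟨q, hq⟩ : ∃ q, lastL t = some q :=
      Option.ne_none_iff_exists'.1 fun e => ht (lastL_eq_none.1 e)
    have c1 : Concat (gen a) (gen (f t)) := by
      simpa [concat_iff, lastL_gen, headL_gen] using (hf t).1
    have c2 : Concat (gen (g t)) (gen b) := by
      simp only [concat_iff, lastL_gen, headL_gen, Option.some.injEq, forall_eq', ne_eq]
      exact fun e => (hg t).1 (by rw [e, opp_opp])
    have c3 : Concat (gen (f t)) t := by
      simp only [concat_iff, lastL_gen, Option.some.injEq, forall_eq', hp, ne_eq]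
      exact fun e => (hf t).2.1 (by simp [hp, e])
    have c4 : Concat t (gen (g t)) := by
      simp only [concat_iff, headL_gen, hq, Option.some.injEq, forall_eq', ne_eq]
      exact fun e => (hg t).2.1 (by simp [hq, e])
    have d1 := (concat_assoc c1 c3 (fun e => by simpa [e] using wlen_gen (x := f t))).1
    have d2 : Concat (gen a * gen (f t) * t) (gen (g t)) :=
      (concat_assoc d1 c4 ht).1
    have d3 := (concat_assoc d2 c2 (fun e => by simpa [e] using wlen_gen (x := g t))).2
    refine ⟨?_, by rw [c1]; simp, by rw [c2]; simp, d1, d3⟩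
    rw [toWord_concat d3, toWord_concat d1, toWord_concat c1, toWord_concat c2]
    simp
  refine ⟨fun t => gen a * gen (f t) * t * (gen (g t) * gen b), fun t ht => ?_, fun A h1 hA => ?_⟩
  · obtain ⟨k1, k2, k3, k4, k5⟩ := key t ht
    refine ⟨?_, ?_, ?_, _, _, k2, k3, rfl, k4, k5⟩
    · rw [wlen, k1]
      simp [wlen]
    · rw [headL, k1]
      simp
    · rw [lastL, k1, List.getLast?_append_of_ne_nil _ (by simp)]
      simp
  · have hpre : ∀ s ∈ A, ∀ t ∈ A, Pre (gen a * gen (f s) * s * (gen (g s) * gen b))
        (gen a * gen (f t) * t * (gen (g t) * gen b)) → s = t := by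
      intro s hs t ht hst
      rw [Pre, (key s fun e => h1 (e ▸ hs)).1, (key t fun e => h1 (e ▸ ht)).1] at hst
      have hlen : s.toWord.length ≤ t.toWord.length := by
        simpa using hst.length_le
      obtain ⟨S, hS⟩ := hst
      simp only [List.cons_append, List.nil_append, List.append_assoc, List.cons.injEq] at hS
      refine hA s hs t ht (List.prefix_of_prefix_length_le (l₃ := t.toWord ++ [g t, b]) ?_
        (List.prefix_append _ _) hlen)
      rw [← hS.2.2]
      exact List.prefix_append _ _
    refine ⟨fun s hs t ht e => hpre s hs t ht ?_, ?_⟩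
    · have e' : gen a * gen (f s) * s * (gen (g s) * gen b) =
          gen a * gen (f t) * t * (gen (g t) * gen b) := e
      rw [e']
      exact pre_refl
    · rintro _ ⟨s, hs, rfl⟩ _ ⟨t, ht, rfl⟩ h
      rw [hpre s hs t ht h]

lemma ne_one_of_head {a : Letter k} (h : headL u = some a) : u ≠ 1 := fun e => by
  simp [e, headL] at h

/-- Products of members of a code are formed without cancellation and decode uniquely. -/
theorem code_products {A : Set (FreeGroup (Fin k))} {a b : Letter k} (hab : b ≠ opp a)
    (hA : PrefixFree A) (hh : ∀ t ∈ A, headL t = some a ∧ lastL t = some b) :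
    (∀ L : List (FreeGroup (Fin k)), (∀ t ∈ L, t ∈ A) →
      wlen L.prod = (L.map wlen).sum ∧
      (L ≠ [] → headL L.prod = some a ∧ lastL L.prod = some b)) ∧
    ∀ L M : List (FreeGroup (Fin k)), (∀ t ∈ L, t ∈ A) → (∀ t ∈ M, t ∈ A) →
      (Pre L.prod M.prod ↔ L <+: M) := by
  have main : ∀ L : List (FreeGroup (Fin k)), (∀ t ∈ L, t ∈ A) →
      L.prod.toWord = (L.map FreeGroup.toWord).flatten ∧
      (L ≠ [] → headL L.prod = some a ∧ lastL L.prod = some b) := by
    intro L
    induction L with
    | nil => simp
    | cons t L ih =>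
      intro hL
      obtain ⟨ht, hL'⟩ := List.forall_mem_cons.1 hL
      obtain ⟨ih1, ih2⟩ := ih hL'
      have hc : Concat t L.prod := concat_iff.2 fun z hz => by
        rw [(hh t ht).2, Option.some.injEq] at hz
        subst hz
        rcases eq_or_ne L [] with rfl | hne
        · simp [headL]
        · rw [(ih2 hne).1, ne_eq, Option.some.injEq]
          exact fun e => hab (by rw [e, opp_opp])
      refine ⟨by rw [List.prod_cons, toWord_concat hc, ih1]; simp, fun _ => ?_⟩
      rw [List.prod_cons, headL_concat hc (ne_one_of_head (hh t ht).1)]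
      refine ⟨(hh t ht).1, ?_⟩
      rcases eq_or_ne L [] with rfl | hne
      · simpa using (hh t ht).2
      · rw [lastL_concat hc (ne_one_of_head (ih2 hne).1)]
        exact (ih2 hne).2
  refine ⟨fun L hL => ⟨?_, (main L hL).2⟩, fun L M hL hM => ?_⟩
  · rw [wlen, (main L hL).1, List.length_flatten, List.map_map]
    rfl
  rw [Pre, (main L hL).1, (main M hM).1]
  constructor
  · induction L generalizing M with
    | nil => simp
    | cons s L ih =>
      obtain ⟨hs, hL'⟩ := List.forall_mem_cons.1 hL
      have hs0 : s.toWord ≠ [] := by simpa using ne_one_of_head (hh s hs).1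
      cases M with
      | nil => simp [hs0]
      | cons t M =>
        obtain ⟨ht, hM'⟩ := List.forall_mem_cons.1 hM
        intro h
        simp only [List.map_cons, List.flatten_cons] at h
        have hst : s = t := by
          rcases List.prefix_or_prefix_of_prefix ((List.prefix_append _ _).trans h)
              (List.prefix_append t.toWord _) with h' | h'
          · exact hA s hs t ht h'
          · exact (hA t ht s hs h').symm
        subst hst
        exact List.cons_prefix_cons.2 ⟨rfl, ih M hL' hM' ((List.prefix_append_right_inj _).1 h)⟩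
  · rintro ⟨N, rfl⟩
    simp

/-- A set in which every member has fewer than `L` initial segments is a union of `L` sets free
of initial segments. -/
theorem sum_le_of_chains {M : Type*} [AddCommMonoid M] [PartialOrder M] [IsOrderedAddMonoid M]
    (A : Finset (FreeGroup (Fin k))) (f : FreeGroup (Fin k) → M) {L : ℕ} {C : M}
    (hL : ∀ t ∈ A, ∀ B : Finset (FreeGroup (Fin k)), B ⊆ A → (∀ s ∈ B, Pre s t) → B.card ≤ L)
    (hC : ∀ B : Finset (FreeGroup (Fin k)), B ⊆ A → PrefixFree (↑B : Set (FreeGroup (Fin k))) →
      ∑ t ∈ B, f t ≤ C) :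
    ∑ t ∈ A, f t ≤ L • C := by
  classical
  let r := fun t => (A.filter fun s => Pre s t).card
  have hr : ∀ t ∈ A, r t ∈ Finset.Icc 1 L := fun t ht => mem_Icc.2
    ⟨card_pos.2 ⟨t, mem_filter.2 ⟨ht, pre_refl⟩⟩,
      hL t ht _ (filter_subset _ _) fun s hs => (mem_filter.1 hs).2⟩
  rw [← sum_fiberwise_of_maps_to hr f]
  refine (sum_le_card_nsmul _ _ C fun j _ => hC _ (filter_subset _ _) ?_).trans (le_of_eq ?_)
  · intro u hu v hv huv
    obtain ⟨huA, hu⟩ := mem_filter.1 (mem_coe.1 hu)
    obtain ⟨hvA, hv⟩ := mem_filter.1 (mem_coe.1 hv)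
    by_contra hne
    have hlt : r u < r v := by
      refine card_lt_card (Finset.ssubset_iff_of_subset ?_ |>.2 ⟨v, mem_filter.2 ⟨hvA, pre_refl⟩, ?_⟩)
      · exact fun s hs => mem_filter.2 ⟨(mem_filter.1 hs).1, pre_trans (mem_filter.1 hs).2 huv⟩
      · exact fun hv' => hne (pre_eq_of_length huv (pre_length (mem_filter.1 hv').2))
    omega
  · rw [Nat.card_Icc, Nat.add_sub_cancel]

end Vale.Agent.P165.Quot
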