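import Vale.Agent.P165.Quot.Series
import Vale.Agent.P165.Quot.Codes

/-!
Real estimates and sums over spheres for the bootstrap.
-/

open Finset
open scoped ENNReal

namespace Vale.Agent.P165.Quot

/-- The minimum of two numbers is below every geometric interpolation. -/
lemma interp_le {x y η : ℝ} (hx : 0 ≤ x) (hy : 0 ≤ y) (hη : 0 ≤ η) (hη1 : η ≤ 1) :
    min x y ≤ x ^ η * y ^ (1 - η) := by
  have hm : 0 ≤ min x y := le_min hx hy
  calc min x y = min x y ^ (η + (1 - η)) := by rw [add_sub_cancel, Real.rpow_one]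
    _ = min x y ^ η * min x y ^ (1 - η) := Real.rpow_add' hm (by norm_num)
    _ ≤ _ := mul_le_mul (Real.rpow_le_rpow hm (min_le_left _ _) hη)
        (Real.rpow_le_rpow hm (min_le_right _ _) (by linarith)) (Real.rpow_nonneg hm _)
        (Real.rpow_nonneg hx _)

/-- The cut-off raised to a small power. -/
lemma rpow_cut_le {P N e : ℝ} {K : ℕ} (hP : 1 ≤ P) (hN : 1 ≤ N) (he : 0 ≤ e) (he1 : e ≤ 1 / 90)
    (hK : (K : ℝ) ≤ 2 * P ^ 4 * N ^ 10) : (K : ℝ) ^ e ≤ 2 * P ^ (1 / 20 : ℝ) * N := by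
  have hP0 : (0 : ℝ) ≤ P := zero_le_one.trans hP
  have hN0 : (0 : ℝ) ≤ N := zero_le_one.trans hN
  refine (Real.rpow_le_rpow (Nat.cast_nonneg K) hK he).trans ?_
  rw [Real.mul_rpow (by positivity) (by positivity), Real.mul_rpow (by norm_num) (by positivity)]
  refine mul_le_mul (mul_le_mul ?_ ?_ (by positivity) (by norm_num)) ?_ (by positivity)
    (by positivity)
  · simpa using Real.rpow_le_rpow_of_exponent_le one_le_two (show e ≤ 1 by linarith)
  · rw [← Real.rpow_natCast, ← Real.rpow_mul hP0]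
    exact Real.rpow_le_rpow_of_exponent_le hP (by push_cast; linarith)
  · rw [← Real.rpow_natCast, ← Real.rpow_mul hN0]
    exact (Real.rpow_le_rpow_of_exponent_le hN (by push_cast; linarith : (10 : ℕ) * e ≤ 1)).trans
      (Real.rpow_one N).le

/-- Interpolating a power tail with a fast decaying constant. -/
lemma sum_interp_le {θ X Y N P : ℝ} {T : ℕ → ℝ} {K : ℕ} (hθ : 0 < θ) (hθ1 : θ ≤ 1 / 10000)
    (hX : 0 ≤ X) (hY : 0 ≤ Y) (hN : 1 ≤ N) (hP : 1 ≤ P) (hK : (K : ℝ) ≤ 2 * P ^ 4 * N ^ 10)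
    (h1 : ∀ i < K, T i ≤ X * N ^ (-(1 / θ)))
    (h2 : ∀ i < K, T i ≤ Y * ((i : ℝ) + 1) ^ (-(1 - θ))) :
    ∑ i ∈ range K, T i ≤
      200 * (X ^ (1 / 100 : ℝ) * Y ^ (1 - 1 / 100 : ℝ)) * P ^ (1 / 20 : ℝ) / N ^ 10 := by
  have hN0 : (0 : ℝ) < N := zero_lt_one.trans_le hN
  obtain ⟨a, ha⟩ : ∃ a : ℝ, a = (1 - θ) * (1 - 1 / 100) := ⟨_, rfl⟩
  obtain ⟨Z, hZ⟩ : ∃ Z : ℝ, Z = X ^ (1 / 100 : ℝ) * Y ^ (1 - 1 / 100 : ℝ) := ⟨_, rfl⟩
  have hZ0 : 0 ≤ Z := hZ ▸ mul_nonneg (Real.rpow_nonneg hX _) (Real.rpow_nonneg hY _)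
  rw [← hZ]
  have hstep : ∀ i ∈ range K, T i ≤ Z * (N ^ 11)⁻¹ * ((i : ℝ) + 1) ^ (-a) := by
    intro i hi
    rw [mem_range] at hi
    have hi0 : (0 : ℝ) < (i : ℝ) + 1 := by positivity
    refine ((le_min (h1 i hi) (h2 i hi)).trans (interp_le
      (mul_nonneg hX (Real.rpow_nonneg hN0.le _)) (mul_nonneg hY (Real.rpow_nonneg hi0.le _))
      (by norm_num : (0 : ℝ) ≤ 1 / 100) (by norm_num))).trans ?_
    rw [Real.mul_rpow hX (Real.rpow_nonneg hN0.le _),
      Real.mul_rpow hY (Real.rpow_nonneg hi0.le _), ← Real.rpow_mul hN0.le,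
      ← Real.rpow_mul hi0.le, show -(1 - θ) * (1 - 1 / 100) = -a by rw [ha]; ring]
    calc X ^ (1 / 100 : ℝ) * N ^ (-(1 / θ) * (1 / 100)) *
          (Y ^ (1 - 1 / 100 : ℝ) * ((i : ℝ) + 1) ^ (-a))
        = Z * N ^ (-(1 / θ) * (1 / 100)) * ((i : ℝ) + 1) ^ (-a) := by rw [hZ]; ring
      _ ≤ _ := by
          refine mul_le_mul_of_nonneg_right (mul_le_mul_of_nonneg_left ?_ hZ0)
            (Real.rpow_nonneg hi0.le _)
          rw [← Real.rpow_natCast N 11, ← Real.rpow_neg hN0.le]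
          refine Real.rpow_le_rpow_of_exponent_le hN ?_
          have : (10000 : ℝ) ≤ 1 / θ := by
            rw [le_div_iff₀ hθ]
            linarith
          push_cast
          linarith
  have ha0 : 0 ≤ a := by rw [ha]; exact mul_nonneg (by linarith) (by norm_num)
  have ha1 : a ≤ 1 - 1 / 100 := by
    rw [ha]
    exact mul_le_of_le_one_left (by norm_num) (by linarith)
  refine (sum_le_sum hstep).trans ?_
  rw [← mul_sum]
  have hKe : (K : ℝ) ^ (1 - a) ≤ 2 * P ^ (1 / 20 : ℝ) * N :=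
    rpow_cut_le hP hN (by linarith) (by rw [ha]; linarith) hK
  have hP20 : 0 ≤ P ^ (1 / 20 : ℝ) := Real.rpow_nonneg (by linarith) _
  have hsum : ∑ i ∈ range K, ((i : ℝ) + 1) ^ (-a) ≤ 200 * P ^ (1 / 20 : ℝ) * N := by
    refine (sum_range_rpow_le ha0 (by linarith) K).trans ?_
    rw [div_le_iff₀ (by linarith)]
    calc (K : ℝ) ^ (1 - a) ≤ 200 * P ^ (1 / 20 : ℝ) * N * (1 / 100) := by linarith
      _ ≤ _ := mul_le_mul_of_nonneg_left (by linarith) (by positivity)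
  refine (mul_le_mul_of_nonneg_left hsum (by positivity)).trans (le_of_eq ?_)
  field_simp

variable {k : ℕ}

/-- A sum over all words is at most the sum of the sums over spheres. -/
lemma tsum_le_spheres (f : FreeGroup (Fin k) → ℝ≥0∞) :
    ∑' u, f u ≤ ∑' n, ∑ u ∈ sphere k n, f u := by
  classical
  rw [ENNReal.tsum_eq_iSup_sum]
  refine iSup_le fun F => ?_
  rw [← sum_fiberwise_of_maps_to (g := wlen) (t := F.image wlen) fun u hu => mem_image_of_mem _ hu]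
  refine (sum_le_sum fun n _ => sum_le_sum_of_subset ?_).trans (ENNReal.sum_le_tsum _)
  exact fun u hu => mem_sphere.2 (mem_filter.1 hu).2

/-- A fixed finite bound for the sums of a multiple of the inverse squares. -/
lemma exists_inv_sq_bound : ∃ Z : ℝ, 1 ≤ Z ∧ ∀ c, 0 ≤ c →
    ∑' m : ℕ, ENNReal.ofReal (c / ((m : ℝ) + 1) ^ 2) ≤ ENNReal.ofReal (c * Z) := by
  have hs : Summable fun m : ℕ => 1 / ((m : ℝ) + 1) ^ 2 := by
    have := (summable_nat_add_iff 1).2 (Real.summable_one_div_nat_pow.2 one_lt_two)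
    simpa using this
  refine ⟨max 1 (∑' m : ℕ, 1 / ((m : ℝ) + 1) ^ 2), le_max_left _ _, fun c hc => ?_⟩
  rw [← ENNReal.ofReal_tsum_of_nonneg (fun m => div_nonneg hc (sq_nonneg _))
    ((hs.mul_left c).congr fun m => by ring)]
  refine ENNReal.ofReal_le_ofReal ?_
  calc ∑' m : ℕ, c / ((m : ℝ) + 1) ^ 2 = ∑' m : ℕ, c * (1 / ((m : ℝ) + 1) ^ 2) :=
        tsum_congr fun m => by ring
    _ = c * ∑' m : ℕ, 1 / ((m : ℝ) + 1) ^ 2 := tsum_mul_left
    _ ≤ _ := mul_le_mul_of_nonneg_left (le_max_right _ _) hc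

end Vale.Agent.P165.Quot
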