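import Vale.Agent.P165.Quot.Codes

/-!
Rays and heights seen from their ends.
-/

namespace Vale.Agent.P165.Quot

variable {k : ℕ} {u v w : FreeGroup (Fin k)} {ξ : ℕ → FreeGroup (Fin k)}

lemma ray_pre (hξ : IsRay ξ) {m n : ℕ} (hmn : m ≤ n) : Pre (ξ m) (ξ n) := by
  induction n, hmn using Nat.le_induction with
  | base => exact pre_refl
  | succ n _ ih => exact pre_trans ih (hξ n).2

lemma exists_ray_through (hk : 1 ≤ k) (w : FreeGroup (Fin k)) :
    ∃ ξ : ℕ → FreeGroup (Fin k), IsRay ξ ∧ ξ (wlen w) = w := by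
  obtain ⟨z, hz⟩ : ∃ z : Letter k, ∀ q, lastL w = some q → z = q := by
    cases hw : lastL w with
    | none => exact ⟨(⟨0, by omega⟩, true), by simp⟩
    | some q => exact ⟨q, fun _ e => Option.some.inj e⟩
  have hr : ∀ m, FreeGroup.IsReduced (w.toWord ++ List.replicate m z) := fun m =>
    isReduced_append_iff.2 ⟨FreeGroup.isReduced_toWord, isReduced_replicate m z, fun q hq e => by
      rw [List.head?_replicate] at e
      split_ifs at e
      have := hz q hq
      simp only [Option.some.injEq] at e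
      exact opp_ne (this ▸ e).symm⟩
  have ht : ∀ m, (FreeGroup.mk ((w.toWord ++ List.replicate m z).take m)).toWord =
      (w.toWord ++ List.replicate m z).take m := fun m =>
    toWord_mk_of_reduced (List.IsChain.take (hr m) _)
  refine ⟨fun m => FreeGroup.mk ((w.toWord ++ List.replicate m z).take m), fun m => ⟨?_, ?_⟩, ?_⟩
  · rw [wlen, ht]
    simp
  · rw [Pre, ht, ht]
    refine List.prefix_of_prefix_length_le (l₃ := w.toWord ++ List.replicate (m + 1) z)
      ((List.take_prefix _ _).trans ?_) (List.take_prefix _ _) (by simp)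
    rw [List.replicate_succ']
    exact ⟨[z], by simp⟩
  · show FreeGroup.mk _ = w
    rw [show wlen w = w.toWord.length from rfl, List.take_left', FreeGroup.mk_toWord]
    rfl

lemma le_conf_iff (hξ : IsRay ξ) {m : ℕ} : m ≤ conf ξ u ↔ Pre (ξ m) u := by
  classical
  refine ⟨fun h => pre_trans (ray_pre hξ h) ?_, fun h => ?_⟩
  · have h0 : Pre (ξ 0) u := by
      rw [wlen_eq_zero.1 (hξ 0).1]
      exact one_pre
    exact Nat.findGreatest_spec (P := fun j => Pre (ξ j) u) (Nat.zero_le _) h0
  · exact Nat.le_findGreatest ((hξ m).1 ▸ pre_length h) h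

lemma conf_le : conf ξ u ≤ wlen u := by
  classical
  exact Nat.findGreatest_le _

lemma height_le_conf : height ξ u ≤ conf ξ u := by
  have := conf_le (ξ := ξ) (u := u)
  unfold height
  omega

lemma height_one (hξ : IsRay ξ) : height ξ 1 = 0 := by
  clear hξ
  have := conf_le (ξ := ξ) (u := (1 : FreeGroup (Fin k)))
  rw [wlen_one] at this
  simp [height, Nat.le_zero.1 this]

lemma height_eq (hξ : IsRay ξ) {m : ℕ} (hm : conf ξ u ≤ m) :
    (wdist u (ξ m) : ℤ) = m - height ξ u := by
  obtain ⟨a, b, d, hu, hd, hab, had, hbd⟩ := exists_common u (ξ m)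
  have hw : wdist u (ξ m) = wlen b + wlen d := by
    rw [hu, hd, wdist_mul_left, wdist]
    exact hbd.trans (by rw [wlen_inv])
  have hlu : wlen u = wlen a + wlen b := hu ▸ hab
  have hlm : m = wlen a + wlen d := by
    rw [← (hξ m).1, hd]
    exact had
  have hea : ξ (wlen a) = a := by
    refine pre_eq_of_length (pre_of_pre_of_le (ray_pre hξ (by omega : wlen a ≤ m))
      (hd ▸ pre_mul had) ?_) ?_ <;> rw [(hξ _).1]
  have hle : wlen a ≤ conf ξ u := (le_conf_iff hξ).2 (by rw [hea, hu]; exact pre_mul hab)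
  have hge : conf ξ u ≤ wlen a := by
    by_contra hlt
    push Not at hlt
    have h1 : Pre (ξ (wlen a + 1)) u := (le_conf_iff hξ).1 hlt
    have h2 : Pre (ξ (wlen a + 1)) (ξ m) := ray_pre hξ (le_trans hlt hm)
    have ha1 : (ξ (wlen a + 1)).toWord.length = a.toWord.length + 1 := (hξ (wlen a + 1)).1
    have hea' : Pre a (ξ (wlen a + 1)) := by
      have := ray_pre hξ (Nat.le_succ (wlen a))
      rwa [hea] at this
    obtain ⟨S, hS⟩ := hea'
    obtain ⟨z, rfl⟩ : ∃ z, S = [z] := by
      refine List.length_eq_one_iff.1 ?_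
      have := congrArg List.length hS
      simp only [List.length_append] at this
      omega
    rw [Pre, hu, toWord_concat hab, ← hS, List.prefix_append_right_inj] at h1
    rw [Pre, hd, toWord_concat had, ← hS, List.prefix_append_right_inj] at h2
    obtain ⟨B, hB⟩ := h1
    obtain ⟨D, hD⟩ := h2
    refine concat_iff.1 hbd (opp z) ?_ ?_
    · rw [lastL_inv, headL, ← hB]
      simp
    · rw [headL, ← hD, opp_opp]
      simp
  unfold height
  omega

lemma height_lipschitz (hξ : IsRay ξ) : height ξ u - height ξ v ≤ wdist u v := by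
  obtain ⟨m, h1, h2⟩ : ∃ m, conf ξ u ≤ m ∧ conf ξ v ≤ m :=
    ⟨_, le_max_left _ _, le_max_right _ _⟩
  have hu := height_eq hξ h1
  have hv := height_eq hξ h2
  have := wdist_triangle (u := v) (v := u) (w := ξ m)
  rw [wdist_comm (u := v) (v := u)] at this
  omega

lemma height_enter (hξ : IsRay ξ) {m : ℕ} (h1 : Pre (ξ m) u) (h2 : ¬ Pre (ξ m) v) :
    (m : ℤ) - wdist u v < height ξ u := by
  have h := cross_dist h1 h2
  rw [(hξ m).1] at h
  have := (le_conf_iff hξ).2 h1
  unfold height
  omega

end Vale.Agent.P165.Quot
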