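import Vale.Agent.P165.Quot.Shift
import Vale.Agent.P165.Quot.Rays

/-!
Cutting a connection at its highest point seen from the end of a ray.
-/

open Finset
open scoped ENNReal

namespace Vale.Agent.P165.Quot

variable {k : ℕ}

lemma lastL_inv_mul {w c : FreeGroup (Fin k)} (h : ¬ Pre c w) : lastL (w⁻¹ * c) = lastL c := by
  obtain ⟨a, b, d, rfl, rfl, hab, had, hbd⟩ := exists_common w c
  have hd : d ≠ 1 := by
    rintro rfl
    rw [mul_one] at h
    exact h (pre_mul hab)
  rw [lastL_concat had hd, show (a * b)⁻¹ * (a * d) = b⁻¹ * d by group]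
  exact lastL_concat hbd hd

variable {W : Type*} [DecidableEq W] {H : SimpleGraph W} {p : ℝ}

lemma prob_eq_zero {A : Finset (Sym2 W) → Prop} (h0 : 0 ≤ p) (h1 : p ≤ 1)
    (h : ∀ S : Finset (Sym2 W), ↑S ⊆ H.edgeSet → ¬ A S) : prob H p A = 0 := by
  refine le_antisymm ?_ zero_le
  refine ((prob_mono h0 h1 (B := fun S => ∃ _i : Empty, A S) fun S hS hA =>
    absurd hA (h S hS)).trans (prob_exists_le h0 h1)).trans ?_
  simp

namespace Cov

variable {Γ : Type*} [Group Γ] [MulAction Γ W] [H.LocallyFinite] (Cv : Cov (Γ := Γ) H k)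

omit [DecidableEq W] in
include Cv in
/-- Balls in the graph have boundedly many points. -/
lemma exists_ball_card (ℓ : ℕ) : ∃ N : ℕ, ∀ e : W,
    ∃ B : Finset W, B.card ≤ N ∧ ∀ z, (∃ q : H.Walk z e, q.length ≤ ℓ) → z ∈ B := by
  refine ⟨Cv.reps.sup fun r => (walkBall_finite (H := H) r ℓ).toFinset.card, fun e => ?_⟩
  obtain ⟨g, r, hr, rfl⟩ := Cv.cover e
  refine ⟨(walkBall_finite (H := H) r ℓ).toFinset.map (Cv.act g).toEquiv.toEmbedding, ?_,
    fun z ⟨q, hq⟩ => ?_⟩
  · rw [card_map]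
    exact Finset.le_sup (f := fun r => (walkBall_finite (H := H) r ℓ).toFinset.card) hr
  · refine Finset.mem_map.2 ⟨g⁻¹ • z, (Set.Finite.mem_toFinset _).2
      ⟨(Cv.actWalk g⁻¹ q).copy rfl (inv_smul_smul g r), by simpa using hq⟩, ?_⟩
    show g • g⁻¹ • z = z
    exact smul_inv_smul g z

omit [H.LocallyFinite] in
/-- A point seen from outside a core near its word is seen at an entry close to it. -/
lemma exists_entry_near (hH : H.Connected) (D ρ : ℕ) : ∃ ℓ : ℕ,
    ∀ p, 0 ≤ p → p ≤ 1 → ∀ c : FreeGroup (Fin k), c ≠ 1 → ∀ r ∈ Cv.reps, ∀ z ∈ Cv.nearV ρ c,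
      prob H p (connTo (Cv.outE D c) r {z}) = 0 ∨
      ∃ e ∈ Cv.entry D c, (∃ q : H.Walk z e, q.length ≤ ℓ) ∧
        ENNReal.ofReal p ^ ℓ * prob H p (connTo (Cv.outE D c) r {z}) ≤
          prob H p (connTo (Cv.outE D c) r {e}) := by
  obtain ⟨ℓ, hℓ⟩ := Cv.exists_connector hH (ρ + D)
  refine ⟨ℓ, fun p h0 h1 c hc r hr z hz => ?_⟩
  by_cases hzc : z ∈ Cv.core D c
  · by_cases hze : z ∈ Cv.entry D c
    · refine .inr ⟨z, hze, ⟨.nil, Nat.zero_le _⟩, mul_le_of_le_one_left zero_le ?_⟩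
      exact pow_le_one₀ zero_le (ENNReal.ofReal_le_one.2 h1)
    · refine .inl (prob_eq_zero h0 h1 fun S hS ⟨y, hy, hc'⟩ => ?_)
      obtain rfl : y = z := hy
      obtain ⟨q⟩ := mem_cl_single.1 hc'
      cases hq' : q.reverse with
      | nil => exact Cv.not_mem_core_one hc (Cv.proj_rep _ hr) hzc
      | @cons _ b _ h q'' =>
        rw [SimpleGraph.fromEdgeSet_adj, Finset.mem_coe, mem_inPart] at h
        rcases Cv.mem_outE.1 h.1.2 with h' | h'
        · exact h' hzc
        · exact hze ⟨hzc, b, hS h.1.1, h'⟩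
  · obtain ⟨a, ha⟩ : ∃ a, lastL c = some a :=
      Option.ne_none_iff_exists'.1 fun e => hc (lastL_eq_none.1 e)
    obtain ⟨t, ht, htc⟩ : ∃ t : FreeGroup (Fin k), wlen t = D ∧ Concat c t := by
      have ht := toWord_mk_of_reduced (isReduced_replicate D a)
      refine ⟨FreeGroup.mk (List.replicate D a), by simp [wlen, ht], concat_iff.2 fun u hu => ?_⟩
      rw [ha, Option.some.injEq] at hu
      subst hu
      rw [headL, ht, List.head?_replicate]
      split_ifs
      · simp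
      · simpa using fun e => opp_ne e.symm
    obtain ⟨r₀, hr₀⟩ := Cv.nonempty
    have hd : wdist (Cv.proj z) (c * t) ≤ ρ + D := by
      refine (wdist_triangle (v := c)).trans (add_le_add ?_ ?_)
      · rw [wdist_comm]
        exact hz
      · rw [wdist, inv_mul_cancel_left, ht]
    obtain ⟨y, hy, q, hq⟩ := hℓ z (c * t) r₀ hr₀ hd
    have hpy := Cv.proj_cls hr₀ hy
    have hyc : y ∈ Cv.core D c := Cv.mem_core_of_deep
      (show Pre c (Cv.proj y) by rw [hpy]; exact pre_mul htc) (by rw [hpy, htc, ht])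
    obtain ⟨e, he, q', hql, hqE, -⟩ := Cv.exists_entry_on_walk q hzc hyc
    refine .inr ⟨e, he, ⟨q', hql.trans hq⟩, ?_⟩
    rw [prob_conn_symm _ r z, prob_conn_symm _ r e]
    refine pow_mul_connTo_le h0 h1 q'.reverse (fun f hf => hqE f ?_)
      (by rw [SimpleGraph.Walk.length_reverse]; exact hql.trans hq) _
    simpa [SimpleGraph.Walk.edges_reverse] using hf

/-- Points near a cone are seen, up to a bounded factor, at the entries of its core. -/
theorem exists_near_le_entry (hH : H.Connected) (D ρ : ℕ) : ∃ (ℓ : ℕ) (J : ℝ≥0∞), J ≠ ⊤ ∧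
    ∀ p, 0 ≤ p → p ≤ 1 → ∀ c : FreeGroup (Fin k), c ≠ 1 → ∀ r ∈ Cv.reps,
      ENNReal.ofReal p ^ ℓ * mean H p (Cv.outE D c) r (Cv.nearV ρ c) ≤
        J * Cv.halfMean D p c := by
  classical
  obtain ⟨ℓ, hℓ⟩ := Cv.exists_entry_near hH D ρ
  obtain ⟨N, hN⟩ := Cv.exists_ball_card ℓ
  choose B hBN hBmem using hN
  refine ⟨ℓ, N, ENNReal.natCast_ne_top N, fun p h0 h1 c hc r hr => ?_⟩
  let P := fun v : W => prob H p (connTo (Cv.outE D c) r {v})
  have hz : ∀ z : Cv.nearV ρ c, ENNReal.ofReal p ^ ℓ * P z ≤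
      ∑' e : Cv.entry D c, if (z : W) ∈ B e then P e else 0 := by
    intro z
    rcases hℓ p h0 h1 c hc r hr z z.2 with h | ⟨e, he, hq, hle⟩
    · simp [P, h]
    · refine le_trans (le_of_eq_of_le ?_ hle) (le_trans ?_
        (ENNReal.le_tsum (⟨e, he⟩ : Cv.entry D c)))
      · rfl
      · rw [if_pos (hBmem e z hq)]
  calc ENNReal.ofReal p ^ ℓ * mean H p (Cv.outE D c) r (Cv.nearV ρ c)
      = ∑' z : Cv.nearV ρ c, ENNReal.ofReal p ^ ℓ * P z := ENNReal.tsum_mul_left.symm
    _ ≤ ∑' z : Cv.nearV ρ c, ∑' e : Cv.entry D c, if (z : W) ∈ B e then P e else 0 :=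
        ENNReal.tsum_le_tsum hz
    _ ≤ ∑' z : W, ∑' e : Cv.entry D c, if z ∈ B e then P e else 0 :=
        ENNReal.tsum_comp_le_tsum_of_injective Subtype.val_injective _
    _ = ∑' e : Cv.entry D c, ∑' z : W, if z ∈ B e then P e else 0 := ENNReal.tsum_comm
    _ ≤ ∑' e : Cv.entry D c, (N : ℝ≥0∞) * P e := ENNReal.tsum_le_tsum fun e => by
        rw [tsum_eq_sum (s := B e) fun z hz => if_neg hz,
          Finset.sum_congr rfl fun z hz => if_pos hz, Finset.sum_const, nsmul_eq_mul]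
        exact mul_le_mul_left (Nat.cast_le.2 (hBN e)) _
    _ = (N : ℝ≥0∞) * mean H p (Cv.outE D c) r (Cv.entry D c) := ENNReal.tsum_mul_left
    _ ≤ _ := mul_le_mul_right (Finset.single_le_sum
        (f := fun r => mean H p (Cv.outE D c) r (Cv.entry D c)) (fun _ _ => zero_le) hr) _

omit [DecidableEq W] [H.LocallyFinite] in
/-- A walk below a height never enters a cone of higher level. -/
lemma not_pre_of_height {ξ : ℕ → FreeGroup (Fin k)} (hξ : IsRay ξ) {m : ℕ} {x y : W}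
    (q : H.Walk x y) (hx : ¬ Pre (ξ m) (Cv.proj x))
    (hq : ∀ v ∈ q.support, height ξ (Cv.proj v) + Cv.R < m) :
    ∀ v ∈ q.support, ¬ Pre (ξ m) (Cv.proj v) := by
  induction q with
  | nil => simpa using hx
  | @cons a b d h q ih =>
    have hb : ¬ Pre (ξ m) (Cv.proj b) := fun hb => by
      have h1 := height_enter hξ hb hx
      have h2 := Cv.jump _ _ h.symm
      have h3 := hq b (by simp)
      omega
    intro v hv
    rcases List.mem_cons.1 hv with rfl | hv
    · exact hx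
    · exact ih hb (fun v hv => hq v (List.mem_cons_of_mem _ hv)) v hv

omit [H.LocallyFinite] in
/-- A point near a cone sees a fibre no more than the representatives see the translated
neighbourhood. -/
lemma mean_le_translate {c w : FreeGroup (Fin k)} (h : ¬ Pre c w) (hc : c ≠ 1) (D ρ : ℕ) {a : W} (ha : a ∈ Cv.nearV ρ c) :
    mean H p (Cv.outE D c) a (Cv.Fib w) ≤
      ∑ s ∈ Cv.reps, mean H p (Cv.outE D (w⁻¹ * c)) s (Cv.nearV ρ (w⁻¹ * c)) := by
  classical
  obtain ⟨l, hl⟩ : ∃ l, lastL c = some l :=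
    Option.ne_none_iff_exists'.1 fun e => hc (lastL_eq_none.1 e)
  have hl' : lastL (w⁻¹ * c) = some l := (lastL_inv_mul h).trans hl
  let P := fun v : W => prob H p (connTo (Cv.outE D c) a {v})
  calc mean H p (Cv.outE D c) a (Cv.Fib w)
      ≤ ∑' z : ↥(⋃ s ∈ Cv.reps, Cv.cls w s), P z :=
        ENNReal.tsum_mono_subtype P (s := Cv.Fib w) fun z hz => by
          obtain ⟨s, hs, hzs⟩ := Cv.exists_cls z
          rw [show Cv.proj z = w from hz] at hzs
          exact Set.mem_biUnion hs hzs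
    _ ≤ ∑ s ∈ Cv.reps, ∑' z : Cv.cls w s, P z := ENNReal.tsum_biUnion_le P _ _
    _ ≤ _ := sum_le_sum fun s _ => ?_
  have hz : ∀ z : Cv.cls w s, ∃ g : Γ, Cv.π g = w ∧ g • s = z := fun z => z.2
  choose g hg hgz using hz
  let φ : Cv.cls w s → Cv.nearV ρ (w⁻¹ * c) := fun z => ⟨(g z)⁻¹ • a, by
    show wdist _ _ ≤ ρ
    rw [Cv.proj_smul, map_inv, hg, wdist_mul_left]
    exact ha⟩
  have hφ : Function.Injective φ := fun z z' hzz => by
    have e : (g z)⁻¹ • a = (g z')⁻¹ • a := congrArg Subtype.val hzz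
    have hone : g z' * (g z)⁻¹ = 1 := Cv.free _ a (by rw [mul_smul, e, smul_inv_smul])
    rw [mul_inv_eq_one] at hone
    exact Subtype.ext ((hgz z).symm.trans (hone ▸ hgz z'))
  refine le_trans (le_of_eq (tsum_congr fun z => ?_))
    (ENNReal.tsum_comp_le_tsum_of_injective hφ fun v : Cv.nearV ρ (w⁻¹ * c) =>
      prob H p (connTo (Cv.outE D (w⁻¹ * c)) s {(v : W)}))
  have h2 : lastL (Cv.π (g z) * (w⁻¹ * c)) = some l := by rw [hg, mul_inv_cancel_left, hl]
  have := prob_connTo_iso (p := p) (Cv.act (g z)) (Cv.outE D (w⁻¹ * c)) s {(φ z : W)}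
  rw [Cv.smul_outE hl' h2, Set.image_singleton, Cv.act_apply, Cv.act_apply, hg,
    mul_inv_cancel_left, hgz] at this
  simp only [φ, smul_inv_smul] at this
  rw [← this]
  exact prob_conn_symm _ _ _

/-- The cut at the highest point. -/
theorem exists_top_bound (hH : H.Connected) (D : ℕ) : ∃ (ℓ : ℕ) (J : ℝ≥0∞), J ≠ ⊤ ∧
    ∀ p, 0 ≤ p → p ≤ 1 → ∀ ξ : ℕ → FreeGroup (Fin k), IsRay ξ → ∀ w : FreeGroup (Fin k),
      ENNReal.ofReal p ^ ℓ * Cv.count p w ≤
        J * ∑' m : {m : ℕ // 0 < m ∧ conf ξ w < m ∧ height ξ w < m},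
          Cv.halfMean D p (ξ m) * Cv.halfMean D p (w⁻¹ * ξ m) := by
  classical
  obtain ⟨ℓ, J, hJ, hnear⟩ := Cv.exists_near_le_entry hH D (Cv.R + 1)
  refine ⟨ℓ + ℓ, ((Cv.reps.card : ℝ≥0∞) * J) * ((Cv.reps.card : ℝ≥0∞) * J),
    ENNReal.mul_ne_top (ENNReal.mul_ne_top (ENNReal.natCast_ne_top _) hJ)
      (ENNReal.mul_ne_top (ENNReal.natCast_ne_top _) hJ), fun p h0 h1 ξ hξ w => ?_⟩
  let A := fun c : FreeGroup (Fin k) =>
    ∑ s ∈ Cv.reps, mean H p (Cv.outE D c) s (Cv.nearV (Cv.R + 1) c)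
  have hA : ∀ c ≠ 1, ENNReal.ofReal p ^ ℓ * A c ≤
      (Cv.reps.card : ℝ≥0∞) * J * Cv.halfMean D p c := by
    intro c hc
    rw [Finset.mul_sum, mul_assoc]
    exact (sum_le_sum fun s hs => hnear p h0 h1 c hc s hs).trans_eq (by simp)
  have hne : ∀ {m : ℕ}, 0 < m → ξ m ≠ 1 := fun {m} hm e => by
    have := (hξ m).1
    rw [e, wlen_one] at this
    omega
  have hr : ∀ r ∈ Cv.reps, mean H p Set.univ r (Cv.Fib w) ≤
      ∑' m : {m : ℕ // 0 < m ∧ conf ξ w < m ∧ height ξ w < m},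
        mean H p (Cv.outE D (ξ m)) r (Cv.nearV (Cv.R + 1) (ξ m)) * A (w⁻¹ * ξ m) := by
    intro r hr
    refine (mean_le_through h0 h1 Set.univ r (Cv.Fib w)
      (fun m : {m : ℕ // 0 < m ∧ conf ξ w < m ∧ height ξ w < m} => Cv.outE D (ξ m))
      (fun m => Cv.nearV (Cv.R + 1) (ξ m)) fun y hy q _ _ => ?_).trans
      (ENNReal.tsum_le_tsum fun m => ?_)
    · obtain ⟨v, hv, hmax⟩ := q.support.toFinset.exists_max_image
        (fun v => height ξ (Cv.proj v)) ⟨r, List.mem_toFinset.2 q.start_mem_support⟩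
      rw [List.mem_toFinset] at hv
      simp only [List.mem_toFinset] at hmax
      have hr0 : height ξ (Cv.proj r) = 0 := by rw [Cv.proj_rep r hr, height_one hξ]
      have htop : 0 ≤ height ξ (Cv.proj v) := hr0 ▸ hmax r q.start_mem_support
      obtain ⟨n, hn⟩ := Int.eq_ofNat_of_zero_le htop
      have hout := Cv.not_pre_of_height hξ (m := n + Cv.R + 1) q (by
        rw [Cv.proj_rep r hr]
        intro h
        have := pre_length h
        rw [(hξ _).1, wlen_one] at this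
        omega) fun u hu => by
          have := hmax u hu
          push_cast
          omega
      have hy' : Cv.proj y = w := hy
      refine ⟨⟨n + Cv.R + 1, by omega, ?_, ?_⟩, fun e he => ?_, v, hv, ?_⟩
      · refine not_le.1 fun h => hout y q.end_mem_support ?_
        rw [hy']
        exact (le_conf_iff hξ).1 h
      · have := hmax y q.end_mem_support
        rw [hy'] at this
        push_cast
        omega
      · induction e with
        | h x z =>
          exact Cv.mem_outE.2 (.inl fun hx =>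
            hout x (q.fst_mem_support_of_mem_edges he) (Cv.core_subset hx))
      · have hc : conf ξ (Cv.proj v) ≤ n + Cv.R + 1 :=
          (not_le.1 fun h => hout v hv ((le_conf_iff hξ).1 h)).le
        show wdist (ξ (n + Cv.R + 1)) (Cv.proj v) ≤ Cv.R + 1
        rw [wdist_comm]
        have := height_eq hξ hc
        rw [hn] at this
        push_cast at this
        omega
    · refine le_trans (ENNReal.tsum_le_tsum fun a => mul_le_mul_right
        (Cv.mean_le_translate (fun h => (not_le.2 m.2.2.1) ((le_conf_iff hξ).2 h))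
          (hne m.2.1) D _ a.2) _) ?_
      rw [ENNReal.tsum_mul_right]
      rfl
  have hsum : Cv.count p w ≤ ∑' m : {m : ℕ // 0 < m ∧ conf ξ w < m ∧ height ξ w < m},
      A (ξ m) * A (w⁻¹ * ξ m) := by
    refine (sum_le_sum hr).trans (le_of_eq ?_)
    rw [← Summable.tsum_finsetSum fun i _ => ENNReal.summable]
    exact tsum_congr fun m => (Finset.sum_mul _ _ _).symm
  refine le_trans (mul_le_mul_right hsum _) ?_
  rw [← ENNReal.tsum_mul_left, ← ENNReal.tsum_mul_left]
  refine ENNReal.tsum_le_tsum fun m => ?_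
  have h2 : w⁻¹ * ξ m ≠ 1 := fun e => by
    have := lastL_inv_mul (w := w) (c := ξ m) fun h => (not_le.2 m.2.2.1) ((le_conf_iff hξ).2 h)
    rw [e, lastL_eq_none.2 rfl, eq_comm, lastL_eq_none] at this
    exact hne m.2.1 this
  calc ENNReal.ofReal p ^ (ℓ + ℓ) * (A (ξ m) * A (w⁻¹ * ξ m))
      = (ENNReal.ofReal p ^ ℓ * A (ξ m)) * (ENNReal.ofReal p ^ ℓ * A (w⁻¹ * ξ m)) := by ring
    _ ≤ _ := mul_le_mul' (hA _ (hne m.2.1)) (hA _ h2)
    _ = _ := by ring

end Cov

end Vale.Agent.P165.Quot
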