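import Vale.Agent.P165.Quot.Moments
import Vale.Agent.P165.Quot.TopCut
import Vale.Agent.P165.Quot.BootReal

/-!
The self-bounding of the largest count, the sum of squares and the sphere sums below the threshold.
-/

open Finset
open scoped ENNReal

namespace Vale.Agent.P165.Quot.Cov

variable {W Γ : Type*} {k : ℕ} [Group Γ] [MulAction Γ W] {H : SimpleGraph W} [DecidableEq W]
  [H.LocallyFinite] (Cv : Cov (Γ := Γ) H k)

/-- One number bounds the counts, their squares summed and their sphere sums. -/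
def CountBd (p P : ℝ) : Prop :=
  (∀ u, Cv.count p u ≤ ENNReal.ofReal P) ∧ ∑' u, Cv.count p u ^ 2 ≤ ENNReal.ofReal P ∧
    ∀ n, ∑ u ∈ sphere k n, Cv.count p u ≤ ENNReal.ofReal (P * ((n : ℝ) + 1) ^ 3)

omit [H.LocallyFinite] in
lemma halfTail_mono_param {p q : ℝ} (h0 : 0 ≤ p) (hpq : p ≤ q) (h1 : q ≤ 1) (D : ℕ)
    (c : FreeGroup (Fin k)) (K : ℕ) : Cv.halfTail D p c K ≤ Cv.halfTail D q c K :=
  sum_le_sum fun _ _ => prob_mono_param h0 hpq h1 (incr_manyIn _ _ _ _)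

omit [H.LocallyFinite] in
lemma halfTail_le_one_card {p : ℝ} (h0 : 0 ≤ p) (h1 : p ≤ 1) (D : ℕ) (c : FreeGroup (Fin k))
    (K : ℕ) : Cv.halfTail D p c K ≤ Cv.reps.card :=
  (sum_le_card_nsmul _ _ 1 fun _ _ => prob_le_one h0 h1 _).trans_eq (by simp)

omit [H.LocallyFinite] in
/-- The first `K` tails at one point and over a sphere. -/
lemma exists_tail_sums {q : ℝ} (hq0 : 0 ≤ q) (hq1 : q ≤ 1) (D : ℕ) {θ A : ℝ} (hθ : 0 < θ)
    (hθ1 : θ ≤ 1 / 10000) {C : ℝ≥0∞} (hC : C ≠ ⊤) (hT : Cv.TailBound D q θ C)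
    (hdec : ∀ u : FreeGroup (Fin k),
      Cv.hit q u ≤ ENNReal.ofReal (A * ((wlen u : ℝ) + 1) ^ (-(1 / θ)))) :
    ∃ E : ℝ, 0 ≤ E ∧ ∀ p, 0 ≤ p → p ≤ q → ∀ P : ℝ, 1 ≤ P → ∀ n K : ℕ, 0 < n →
      (K : ℝ) ≤ 2 * P ^ 4 * ((n : ℝ) + 1) ^ 10 →
      (∀ c : FreeGroup (Fin k), wlen c = n → ∑ i ∈ range K, Cv.halfTail D p c (i + 1) ≤
        ENNReal.ofReal (E * P ^ (1 / 20 : ℝ) / ((n : ℝ) + 1) ^ 10)) ∧
      ∑ c ∈ sphere k n, ∑ i ∈ range K, Cv.halfTail D p c (i + 1) ≤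
        ENNReal.ofReal (E * P ^ (1 / 20 : ℝ) * ((n : ℝ) + 1)) := by
  classical
  obtain ⟨C', hC'0, rfl⟩ : ∃ C' : ℝ, 0 ≤ C' ∧ C = ENNReal.ofReal C' :=
    ⟨C.toReal, ENNReal.toReal_nonneg, (ENNReal.ofReal_toReal hC).symm⟩
  obtain ⟨X, hX⟩ : ∃ X : ℝ, X = C' * max A 0 := ⟨_, rfl⟩
  have hX0 : 0 ≤ X := hX ▸ mul_nonneg hC'0 (le_max_right _ _)
  refine ⟨200 * (X ^ (1 / 100 : ℝ) * C' ^ (1 - 1 / 100 : ℝ)) + 2 * C' / θ, by positivity,
    fun p h0 hpq P hP n K hn hK => ?_⟩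
  have hN : (1 : ℝ) ≤ (n : ℝ) + 1 := by linarith [(Nat.cast_nonneg n : (0 : ℝ) ≤ n)]
  have hpow : ∀ i : ℕ, ENNReal.ofReal C' * ((i + 1 : ℕ) : ℝ≥0∞) ^ (-(1 - θ)) =
      ENNReal.ofReal (C' * ((i : ℝ) + 1) ^ (-(1 - θ))) := fun i => by
    rw [ENNReal.ofReal_mul hC'0, ← ENNReal.ofReal_rpow_of_pos (by positivity),
      ← ENNReal.ofReal_natCast (i + 1), Nat.cast_succ]
  have hX1 : 0 ≤ X ^ (1 / 100 : ℝ) * C' ^ (1 - 1 / 100 : ℝ) :=
    mul_nonneg (Real.rpow_nonneg hX0 _) (Real.rpow_nonneg hC'0 _)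
  have hP20 : (0 : ℝ) ≤ P ^ (1 / 20 : ℝ) := Real.rpow_nonneg (zero_le_one.trans hP) _
  constructor
  · intro c hcn
    have hne : ∀ i, Cv.halfTail D p c (i + 1) ≠ ⊤ := fun i =>
      ne_top_of_le_ne_top (ENNReal.natCast_ne_top _)
        (Cv.halfTail_le_one_card h0 (hpq.trans hq1) D c (i + 1))
    have hc : c ≠ 1 := fun e => by
      rw [e, wlen_one] at hcn
      omega
    rw [← sum_congr rfl fun i _ => ENNReal.ofReal_toReal (hne i),
      ← ENNReal.ofReal_sum_of_nonneg fun i _ => ENNReal.toReal_nonneg]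
    refine ENNReal.ofReal_le_ofReal (le_trans (sum_interp_le hθ hθ1 hX0 hC'0 hN hP hK
      (fun i _ => ?_) (fun i _ => ?_)) ?_)
    · refine ENNReal.toReal_le_of_le_ofReal (by positivity) ?_
      refine ((Cv.halfTail_mono_param h0 hpq hq1 D c _).trans
        (hT.2.2 c (i + 1) hc (Nat.succ_pos i))).trans ((mul_le_mul_right (hdec c) _).trans ?_)
      rw [← ENNReal.ofReal_mul hC'0, hcn, hX, mul_assoc]
      exact ENNReal.ofReal_le_ofReal (mul_le_mul_of_nonneg_left (mul_le_mul_of_nonneg_right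
        (le_max_left _ _) (Real.rpow_nonneg (zero_le_one.trans hN) _)) hC'0)
    · refine ENNReal.toReal_le_of_le_ofReal (by positivity) ?_
      rw [← hpow]
      refine (Cv.halfTail_mono_param h0 hpq hq1 D c _).trans
        (le_trans ?_ (hT.2.1 c (i + 1) (Nat.succ_pos i)))
      refine le_trans (le_of_eq ?_) (single_le_sum (fun _ _ => zero_le)
        (mem_Icc.2 ⟨hcn ▸ hn, le_rfl⟩ : wlen c ∈ Icc 1 (wlen c)))
      rw [pfx_self]
    · have h2 : 0 ≤ 2 * C' / θ := div_nonneg (by linarith) hθ.le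
      exact div_le_div_of_nonneg_right
        (mul_le_mul_of_nonneg_right (le_add_of_nonneg_right h2) hP20) (by positivity)
  · rw [sum_comm]
    refine (sum_le_sum fun i _ => (sum_le_sum fun c _ =>
      Cv.halfTail_mono_param h0 hpq hq1 D c _).trans
        ((hT.1 n (i + 1) hn (Nat.succ_pos i)).trans_eq (hpow i))).trans ?_
    rw [← ENNReal.ofReal_sum_of_nonneg fun i _ => by positivity, ← mul_sum]
    refine ENNReal.ofReal_le_ofReal ?_
    have h1 := sum_range_rpow_le (a := 1 - θ) (by linarith) (by linarith) K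
    rw [sub_sub_cancel] at h1
    have h2 := rpow_cut_le hP hN hθ.le (by linarith) hK
    calc C' * ∑ i ∈ range K, ((i : ℝ) + 1) ^ (-(1 - θ))
        ≤ C' * (2 * P ^ (1 / 20 : ℝ) * ((n : ℝ) + 1) / θ) :=
          mul_le_mul_of_nonneg_left (h1.trans (div_le_div_of_nonneg_right h2 hθ.le)) hC'0
      _ = 2 * C' / θ * P ^ (1 / 20 : ℝ) * ((n : ℝ) + 1) := by ring
      _ ≤ _ := by
        gcongr
        exact le_add_of_nonneg_left (by positivity)

/-- The reached part of a core, point by point and over spheres. -/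
lemma exists_half_bounds (hH : H.Connected) {q : ℝ} (hq0 : 0 < q) (hq1 : q ≤ 1) (D : ℕ)
    {θ A : ℝ} (hθ : 0 < θ) (hθ1 : θ ≤ 1 / 10000) {C : ℝ≥0∞} (hC : C ≠ ⊤)
    (hT : Cv.TailBound D q θ C) (hdec : ∀ u : FreeGroup (Fin k),
      Cv.hit q u ≤ ENNReal.ofReal (A * ((wlen u : ℝ) + 1) ^ (-(1 / θ)))) :
    ∃ E : ℝ, 0 ≤ E ∧ ∀ p, q / 2 ≤ p → p ≤ q → ∀ P : ℝ, 1 ≤ P → Cv.CountBd p P →
      (∀ c : FreeGroup (Fin k), c ≠ 1 → Cv.halfMean D p c ≤
        ENNReal.ofReal (E * P ^ (1 / 20 : ℝ) / ((wlen c : ℝ) + 1) ^ 10)) ∧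
      ∀ n, 0 < n → ∑ c ∈ sphere k n, Cv.halfMean D p c ≤
        ENNReal.ofReal (E * P ^ (1 / 20 : ℝ) * ((n : ℝ) + 1)) := by
  classical
  obtain ⟨C₀, hC₀, hlayer⟩ := Cv.exists_halfMean_le hH D (p₀ := q / 2) (by linarith)
  obtain ⟨C₁, hC₁, hmul⟩ := Cv.exists_count_concat hH (p₀ := q / 2) (by linarith)
  obtain ⟨E, hE0, hE⟩ := Cv.exists_tail_sums hq0.le hq1 D hθ hθ1 hC hT hdec
  obtain ⟨c₀, hc₀, rfl⟩ : ∃ c : ℝ, 0 ≤ c ∧ C₀ = ENNReal.ofReal c :=
    ⟨C₀.toReal, ENNReal.toReal_nonneg, (ENNReal.ofReal_toReal hC₀).symm⟩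
  obtain ⟨c₁, hc₁, rfl⟩ : ∃ c : ℝ, 0 ≤ c ∧ C₁ = ENNReal.ofReal c :=
    ⟨C₁.toReal, ENNReal.toReal_nonneg, (ENNReal.ofReal_toReal hC₁).symm⟩
  refine ⟨E + c₀ + c₀ * c₁ ^ 2, by positivity, fun p hqp hpq P hP hbd => ?_⟩
  obtain ⟨hM, hB, hV⟩ := hbd
  have hp0 : 0 ≤ p := by linarith
  have hP0 : (0 : ℝ) ≤ P := zero_le_one.trans hP
  have hP20 : 1 ≤ P ^ (1 / 20 : ℝ) := Real.one_le_rpow hP (by norm_num)
  have hMB : ENNReal.ofReal P * ∑' u, Cv.count p u ^ 2 ≤ ENNReal.ofReal (P ^ 2) := by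
    rw [sq P, ENNReal.ofReal_mul hP0]
    exact mul_le_mul_right hB _
  have hcut : ∀ n : ℕ, ∃ K : ℕ, 0 < K ∧ P ^ 4 * ((n : ℝ) + 1) ^ 10 ≤ K ∧
      (K : ℝ) ≤ 2 * P ^ 4 * ((n : ℝ) + 1) ^ 10 := by
    intro n
    have h1 : (1 : ℝ) ≤ P ^ 4 * ((n : ℝ) + 1) ^ 10 :=
      one_le_mul_of_one_le_of_one_le (one_le_pow₀ hP)
        (one_le_pow₀ (by linarith [(Nat.cast_nonneg n : (0 : ℝ) ≤ n)]))
    refine ⟨_, Nat.ceil_pos.2 (zero_lt_one.trans_le h1), Nat.le_ceil _, ?_⟩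
    have := Nat.ceil_lt_add_one (zero_le_one.trans h1)
    linarith
  constructor
  · intro c hc
    obtain ⟨K, hK0, hKge, hKle⟩ := hcut (wlen c)
    have hn : 0 < wlen c := Nat.pos_of_ne_zero fun e => hc (wlen_eq_zero.1 e)
    have hKR : (0 : ℝ) < K := Nat.cast_pos.2 hK0
    refine (hlayer p hqp (hpq.trans hq1) c K hK0).trans ?_
    refine (add_le_add ((hE p hp0 hpq P hP _ K hn hKle).1 c rfl) (ENNReal.div_le_div_right
      (mul_le_mul_right ((conv_le Cv hM c).trans hMB) _) _)).trans ?_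
    rw [← ENNReal.ofReal_mul hc₀, ← ENNReal.ofReal_natCast K, ← ENNReal.ofReal_div_of_pos hKR,
      ← ENNReal.ofReal_add (by positivity) (by positivity)]
    refine ENNReal.ofReal_le_ofReal ?_
    have hN : (0 : ℝ) < ((wlen c : ℝ) + 1) ^ 10 := by positivity
    have h2 : c₀ * P ^ 2 / K ≤ c₀ * P ^ (1 / 20 : ℝ) / ((wlen c : ℝ) + 1) ^ 10 := by
      rw [div_le_div_iff₀ hKR hN]
      calc c₀ * P ^ 2 * ((wlen c : ℝ) + 1) ^ 10
          ≤ c₀ * P ^ 4 * ((wlen c : ℝ) + 1) ^ 10 :=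
            mul_le_mul_of_nonneg_right (mul_le_mul_of_nonneg_left
              (pow_le_pow_right₀ hP (by norm_num)) hc₀) hN.le
        _ ≤ c₀ * K := by
            rw [mul_assoc]
            exact mul_le_mul_of_nonneg_left hKge hc₀
        _ ≤ c₀ * P ^ (1 / 20 : ℝ) * K :=
            mul_le_mul_of_nonneg_right (le_mul_of_one_le_right hc₀ hP20) hKR.le
    refine (add_le_add le_rfl h2).trans ?_
    rw [← add_div, ← add_mul]
    exact div_le_div_of_nonneg_right (mul_le_mul_of_nonneg_right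
      (le_add_of_nonneg_right (by positivity)) (zero_le_one.trans hP20)) hN.le
  · intro n hn
    obtain ⟨K, hK0, hKge, hKle⟩ := hcut n
    have hKR : (0 : ℝ) < K := Nat.cast_pos.2 hK0
    have hW : (∑ j ∈ range (n + 1), (∑ a ∈ sphere k j, Cv.count p a) *
        ∑ b ∈ sphere k (n - j), Cv.count p b) ≤
          ENNReal.ofReal (P ^ 2 * ((n : ℝ) + 1) ^ 7) := by
      calc _ ≤ ∑ _j ∈ range (n + 1), ENNReal.ofReal (P ^ 2 * ((n : ℝ) + 1) ^ 6) := by
            refine sum_le_sum fun j hj => (mul_le_mul' (hV j) (hV (n - j))).trans ?_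
            rw [mem_range] at hj
            rw [← ENNReal.ofReal_mul (by positivity)]
            refine ENNReal.ofReal_le_ofReal ?_
            have h1 : (j : ℝ) + 1 ≤ (n : ℝ) + 1 := by exact_mod_cast hj.trans_le le_rfl
            have h2 : ((n - j : ℕ) : ℝ) + 1 ≤ (n : ℝ) + 1 := by
              exact_mod_cast Nat.succ_le_succ (Nat.sub_le n j)
            calc P * ((j : ℝ) + 1) ^ 3 * (P * (((n - j : ℕ) : ℝ) + 1) ^ 3)
                ≤ P * ((n : ℝ) + 1) ^ 3 * (P * ((n : ℝ) + 1) ^ 3) := by gcongr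
              _ = _ := by ring
        _ = _ := by
            rw [sum_const, card_range, nsmul_eq_mul, ← ENNReal.ofReal_natCast,
              ← ENNReal.ofReal_mul (by positivity)]
            congr 1
            push_cast
            ring
    calc ∑ c ∈ sphere k n, Cv.halfMean D p c
        ≤ ∑ c ∈ sphere k n, ((∑ i ∈ range K, Cv.halfTail D p c (i + 1)) +
            ENNReal.ofReal c₀ * (∑' u, Cv.count p u * Cv.count p (u⁻¹ * c) ^ 2) / K) :=
          sum_le_sum fun c _ => hlayer p hqp (hpq.trans hq1) c K hK0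
      _ = (∑ c ∈ sphere k n, ∑ i ∈ range K, Cv.halfTail D p c (i + 1)) +
            ENNReal.ofReal c₀ *
              (∑ c ∈ sphere k n, ∑' u, Cv.count p u * Cv.count p (u⁻¹ * c) ^ 2) / K := by
          rw [sum_add_distrib, mul_sum]
          simp only [div_eq_mul_inv, sum_mul]
      _ ≤ ENNReal.ofReal (E * P ^ (1 / 20 : ℝ) * ((n : ℝ) + 1)) + ENNReal.ofReal c₀ *
            (ENNReal.ofReal c₁ ^ 2 * ENNReal.ofReal P * (∑' u, Cv.count p u ^ 2) *
              ENNReal.ofReal (P ^ 2 * ((n : ℝ) + 1) ^ 7)) / K := by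
          refine add_le_add (hE p hp0 hpq P hP n K hn hKle).2
            (ENNReal.div_le_div_right (mul_le_mul_right ?_ _) _)
          exact (conv_sphere_le Cv hM (hmul p hqp (hpq.trans hq1)) n).trans (mul_le_mul_right hW _)
      _ ≤ ENNReal.ofReal (E * P ^ (1 / 20 : ℝ) * ((n : ℝ) + 1)) +
            ENNReal.ofReal c₀ * (ENNReal.ofReal (c₁ ^ 2) * ENNReal.ofReal (P ^ 2) *
              ENNReal.ofReal (P ^ 2 * ((n : ℝ) + 1) ^ 7)) / K := by
          rw [← ENNReal.ofReal_pow hc₁, mul_assoc (ENNReal.ofReal (c₁ ^ 2))]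
          refine add_le_add le_rfl (ENNReal.div_le_div_right (mul_le_mul_right ?_ _) _)
          exact mul_le_mul_left (mul_le_mul_right hMB _) _
      _ ≤ _ := by
          rw [← ENNReal.ofReal_mul (by positivity), ← ENNReal.ofReal_mul (by positivity),
            ← ENNReal.ofReal_mul hc₀, ← ENNReal.ofReal_natCast K, ← ENNReal.ofReal_div_of_pos hKR,
            ← ENNReal.ofReal_add (by positivity) (by positivity)]
          refine ENNReal.ofReal_le_ofReal ?_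
          have hN1 : (1 : ℝ) ≤ (n : ℝ) + 1 := by linarith [(Nat.cast_nonneg n : (0 : ℝ) ≤ n)]
          have hle : P ^ 4 * ((n : ℝ) + 1) ^ 7 ≤ K := le_trans
            (mul_le_mul_of_nonneg_left (pow_le_pow_right₀ hN1 (by norm_num)) (by positivity)) hKge
          have h3 : c₀ * (c₁ ^ 2 * P ^ 2 * (P ^ 2 * ((n : ℝ) + 1) ^ 7)) / K ≤
              (c₀ + c₀ * c₁ ^ 2) * P ^ (1 / 20 : ℝ) * ((n : ℝ) + 1) := by
            rw [div_le_iff₀ hKR]
            calc c₀ * (c₁ ^ 2 * P ^ 2 * (P ^ 2 * ((n : ℝ) + 1) ^ 7))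
                = c₀ * c₁ ^ 2 * (P ^ 4 * ((n : ℝ) + 1) ^ 7) := by ring
              _ ≤ c₀ * c₁ ^ 2 * K := mul_le_mul_of_nonneg_left hle (by positivity)
              _ ≤ (c₀ + c₀ * c₁ ^ 2) * P ^ (1 / 20 : ℝ) * ((n : ℝ) + 1) * K := by
                  refine mul_le_mul_of_nonneg_right ?_ hKR.le
                  refine le_trans (le_add_of_nonneg_left hc₀) ?_
                  refine le_trans (le_mul_of_one_le_right (by positivity) hP20) ?_
                  exact le_mul_of_one_le_right (by positivity) hN1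
          linarith

/-- One round of the bootstrap. -/
lemma exists_step (hH : H.Connected) {q : ℝ} (hq0 : 0 < q) (hq1 : q ≤ 1) (D : ℕ)
    {θ A : ℝ} (hθ : 0 < θ) (hθ1 : θ ≤ 1 / 10000) {C : ℝ≥0∞} (hC : C ≠ ⊤)
    (hT : Cv.TailBound D q θ C) (hdec : ∀ u : FreeGroup (Fin k),
      Cv.hit q u ≤ ENNReal.ofReal (A * ((wlen u : ℝ) + 1) ^ (-(1 / θ)))) :
    ∃ S : ℝ, 1 ≤ S ∧ ∀ p, q / 2 ≤ p → p ≤ q → ∀ P : ℝ, 1 ≤ P → Cv.CountBd p P →
      (∀ u, Cv.count p u ≤ ENNReal.ofReal (S * P ^ (1 / 5 : ℝ) / ((wlen u : ℝ) + 1) ^ 8)) ∧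
      (∀ n, ∑ u ∈ sphere k n, Cv.count p u ≤
        ENNReal.ofReal (S * P ^ (1 / 5 : ℝ) * ((n : ℝ) + 1) ^ 3)) ∧
      ∑' u, Cv.count p u ^ 2 ≤ ENNReal.ofReal (S * P ^ (1 / 5 : ℝ)) := by
  classical
  obtain ⟨E, hE0, hE⟩ := Cv.exists_half_bounds hH hq0 hq1 D hθ hθ1 hC hT hdec
  obtain ⟨ℓ, J, hJ, htop⟩ := Cv.exists_top_bound hH D
  obtain ⟨Z, hZ1, hZ⟩ := exists_inv_sq_bound
  have hk : 1 ≤ k := le_trans one_le_two Cv.two_le
  have hb0 : ENNReal.ofReal (q / 2) ^ ℓ ≠ 0 :=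
    pow_ne_zero _ (ENNReal.ofReal_pos.2 (by linarith)).ne'
  obtain ⟨L, hL0, hL⟩ : ∃ L : ℝ, 0 ≤ L ∧ J / ENNReal.ofReal (q / 2) ^ ℓ = ENNReal.ofReal L :=
    ⟨_, ENNReal.toReal_nonneg, (ENNReal.ofReal_toReal (ENNReal.div_ne_top hJ hb0)).symm⟩
  refine ⟨1 + L * E * E * Z + (L * E * E * Z) ^ 2 * Z, le_add_of_le_of_nonneg
    (le_add_of_nonneg_right (by positivity)) (by positivity), fun p hqp hpq P hP hbd => ?_⟩
  obtain ⟨hf, hfs⟩ := hE p hqp hpq P hP hbd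
  have hp0 : 0 ≤ p := by linarith
  obtain ⟨R₀, hR0, hR⟩ : ∃ R₀ : ℝ, 1 ≤ R₀ ∧ R₀ = P ^ (1 / 20 : ℝ) :=
    ⟨_, Real.one_le_rpow hP (by norm_num), rfl⟩
  rw [← hR] at hf hfs
  obtain ⟨T, hTd⟩ : ∃ T : ℝ, T = L * E * E * Z := ⟨_, rfl⟩
  have hT0 : 0 ≤ T := hTd ▸ by positivity
  rw [← hTd]
  have hcount : ∀ ξ : ℕ → FreeGroup (Fin k), IsRay ξ → ∀ w, Cv.count p w ≤ ENNReal.ofReal L *
      ∑' m : {m : ℕ // 0 < m ∧ conf ξ w < m ∧ height ξ w < m},
        Cv.halfMean D p (ξ m) * Cv.halfMean D p (w⁻¹ * ξ m) := by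
    intro ξ hξ w
    rw [← hL, ENNReal.mul_comm_div, ← mul_div_assoc,
      ENNReal.le_div_iff_mul_le (.inl hb0) (.inl (ENNReal.pow_ne_top ENNReal.ofReal_ne_top)),
      mul_comm]
    exact (mul_le_mul_left (pow_le_pow_left' (ENNReal.ofReal_le_ofReal hqp) ℓ) _).trans
      (htop p hp0 (hpq.trans hq1) ξ hξ w)
  have hfle : ∀ c ≠ 1, Cv.halfMean D p c ≤ ENNReal.ofReal (E * R₀) := fun c hc =>
    (hf c hc).trans (ENNReal.ofReal_le_ofReal (div_le_self (by positivity)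
      (one_le_pow₀ (by linarith [(Nat.cast_nonneg (wlen c) : (0 : ℝ) ≤ wlen c)]))))
  have hR2 : R₀ * R₀ ≤ P ^ (1 / 5 : ℝ) := by
    rw [hR, ← Real.rpow_add (by linarith)]
    exact Real.rpow_le_rpow_of_exponent_le hP (by norm_num)
  have hξm : ∀ {ξ : ℕ → FreeGroup (Fin k)}, IsRay ξ → ∀ {m : ℕ}, 0 < m → ξ m ≠ 1 :=
    fun {ξ} hξ {m} hm e => by
      have := (hξ m).1
      rw [e, wlen_one] at this
      omega
  -- the largest count, through a ray passing the word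
  have hM : ∀ u, Cv.count p u ≤
      ENNReal.ofReal (T * (R₀ * R₀) / ((wlen u : ℝ) + 1) ^ 8) := by
    intro u
    obtain ⟨ξ, hξ, hu⟩ := exists_ray_through hk u
    have hconf : conf ξ u = wlen u := le_antisymm conf_le
      ((le_conf_iff hξ).2 (by rw [hu]; exact pre_refl))
    refine (hcount ξ hξ u).trans ?_
    obtain ⟨N, hN⟩ : ∃ N : ℝ, N = ((wlen u : ℝ) + 1) ^ 8 := ⟨_, rfl⟩
    have hN0 : 0 < N := hN ▸ by positivity
    have hterm : ∀ m : {m : ℕ // 0 < m ∧ conf ξ u < m ∧ height ξ u < m},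
        Cv.halfMean D p (ξ m) * Cv.halfMean D p (u⁻¹ * ξ m) ≤
          ENNReal.ofReal (E * R₀ * (E * R₀) / N / (((m : ℕ) : ℝ) + 1) ^ 2) := by
      intro ⟨m, hm0, hmc, hmh⟩
      have h2 : u⁻¹ * ξ m ≠ 1 := fun e => by
        have := congrArg wlen (inv_mul_eq_one.1 e)
        rw [(hξ m).1] at this
        omega
      refine (mul_le_mul' (hf _ (hξm hξ hm0)) (hfle _ h2)).trans ?_
      rw [(hξ m).1, ← ENNReal.ofReal_mul (by positivity)]
      refine ENNReal.ofReal_le_ofReal ?_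
      rw [div_mul_eq_mul_div, div_div]
      refine div_le_div_of_nonneg_left (by positivity) (by positivity) ?_
      rw [hN]
      calc ((wlen u : ℝ) + 1) ^ 8 * ((m : ℝ) + 1) ^ 2
          ≤ ((m : ℝ) + 1) ^ 8 * ((m : ℝ) + 1) ^ 2 := by
            gcongr
            omega
        _ = ((m : ℝ) + 1) ^ 10 := by ring
    refine (mul_le_mul_right ((ENNReal.tsum_le_tsum hterm).trans
      ((ENNReal.tsum_comp_le_tsum_of_injective Subtype.val_injective
        fun m : ℕ => ENNReal.ofReal (E * R₀ * (E * R₀) / N / ((m : ℝ) + 1) ^ 2)).trans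
          (hZ _ (by positivity)))) _).trans (le_of_eq ?_)
    rw [← ENNReal.ofReal_mul hL0, hTd, hN]
    congr 1
    ring
  -- sphere sums, through a fixed ray
  have hW : ∀ n, ∑ u ∈ sphere k n, Cv.count p u ≤
      ENNReal.ofReal (T * (R₀ * R₀) * ((n : ℝ) + 1) ^ 2) := by
    intro n
    obtain ⟨ξ, hξ, -⟩ := exists_ray_through hk (1 : FreeGroup (Fin k))
    let g := fun (w : FreeGroup (Fin k)) (m : ℕ) =>
      if 0 < m ∧ conf ξ w < m ∧ height ξ w < m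
      then Cv.halfMean D p (ξ m) * Cv.halfMean D p (w⁻¹ * ξ m) else 0
    have hstep : ∀ w, Cv.count p w ≤ ENNReal.ofReal L * ∑' m : ℕ, g w m := fun w => by
      refine (hcount ξ hξ w).trans (mul_le_mul_right ?_ _)
      refine (le_of_eq (tsum_congr fun m => ?_)).trans
        (ENNReal.tsum_comp_le_tsum_of_injective Subtype.val_injective (g w))
      simp only [g, if_pos m.2]
    refine (sum_le_sum fun w _ => hstep w).trans ?_
    rw [← mul_sum, ← Summable.tsum_finsetSum fun i _ => ENNReal.summable]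
    obtain ⟨N, hN⟩ : ∃ N : ℝ, N = ((n : ℝ) + 1) ^ 2 := ⟨_, rfl⟩
    have hterm : ∀ m : ℕ, ∑ w ∈ sphere k n, g w m ≤
        ENNReal.ofReal (E * R₀ * (E * R₀) * N / ((m : ℝ) + 1) ^ 2) := by
      intro m
      rcases Nat.eq_zero_or_pos m with rfl | hm
      · simp [g]
      simp only [g, ← sum_filter, ← mul_sum]
      obtain ⟨V, hVd⟩ : ∃ V, V = (sphere k n).filter
          fun w => 0 < m ∧ conf ξ w < m ∧ height ξ w < m := ⟨_, rfl⟩
      rw [← hVd]
      have hsub : V.image (fun w => w⁻¹ * ξ m) ⊆ (Icc 1 (m + n)).biUnion (sphere k) := by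
        intro v hv
        obtain ⟨w, hw, rfl⟩ := Finset.mem_image.1 hv
        rw [hVd, mem_filter, mem_sphere] at hw
        obtain ⟨hwn, -, hc, hh⟩ := hw
        refine mem_biUnion.2 ⟨_, mem_Icc.2 ?_, mem_sphere.2 rfl⟩
        have := height_eq hξ hc.le
        rw [height, hwn] at this hh
        rw [wdist] at this
        constructor <;> omega
      have hsum : ∑ w ∈ V, Cv.halfMean D p (w⁻¹ * ξ m) ≤
          ENNReal.ofReal (E * R₀ * ((m : ℝ) + n + 1) ^ 2) := by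
        rw [← sum_image (f := fun v => Cv.halfMean D p v) (g := fun w => w⁻¹ * ξ m)
          fun a _ b _ e => inv_injective (mul_right_cancel e)]
        refine (sum_le_sum_of_subset hsub).trans ?_
        rw [sum_biUnion fun i _ j _ hij => Finset.disjoint_left.2 fun a ha hb =>
          hij ((mem_sphere.1 ha).symm.trans (mem_sphere.1 hb))]
        refine (sum_le_card_nsmul _ _ (ENNReal.ofReal (E * R₀ * ((m : ℝ) + n + 1))) fun j hj => ?_).trans ?_
        · rw [mem_Icc] at hj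
          refine (hfs j hj.1).trans (ENNReal.ofReal_le_ofReal ?_)
          gcongr
          exact_mod_cast hj.2
        · rw [Nat.card_Icc, Nat.add_sub_cancel, nsmul_eq_mul, ← ENNReal.ofReal_natCast,
            ← ENNReal.ofReal_mul (by positivity)]
          refine ENNReal.ofReal_le_ofReal ?_
          push_cast
          calc ((m : ℝ) + n) * (E * R₀ * ((m : ℝ) + n + 1))
              ≤ ((m : ℝ) + n + 1) * (E * R₀ * ((m : ℝ) + n + 1)) :=
                mul_le_mul_of_nonneg_right (by linarith) (by positivity)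
            _ = _ := by ring
      refine (mul_le_mul' (hf _ (hξm hξ hm)) hsum).trans ?_
      rw [(hξ m).1, ← ENNReal.ofReal_mul (by positivity)]
      refine ENNReal.ofReal_le_ofReal ?_
      rw [hN, div_mul_eq_mul_div, div_le_div_iff₀ (by positivity) (by positivity)]
      have hmn : ((m : ℝ) + n + 1) ^ 2 ≤ (((m : ℝ) + 1) * ((n : ℝ) + 1)) ^ 2 := by
        gcongr
        nlinarith [(Nat.cast_nonneg m : (0 : ℝ) ≤ m), (Nat.cast_nonneg n : (0 : ℝ) ≤ n)]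
      have hm6 : ((m : ℝ) + 1) ^ 4 ≤ ((m : ℝ) + 1) ^ 10 :=
        pow_le_pow_right₀ (by linarith [(Nat.cast_nonneg m : (0 : ℝ) ≤ m)]) (by norm_num)
      calc E * R₀ * (E * R₀ * ((m : ℝ) + n + 1) ^ 2) * ((m : ℝ) + 1) ^ 2
          ≤ E * R₀ * (E * R₀ * (((m : ℝ) + 1) * ((n : ℝ) + 1)) ^ 2) * ((m : ℝ) + 1) ^ 2 := by
            gcongr
        _ = E * R₀ * (E * R₀) * ((n : ℝ) + 1) ^ 2 * ((m : ℝ) + 1) ^ 4 := by ring
        _ ≤ _ := mul_le_mul_of_nonneg_left hm6 (by positivity)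
    refine (mul_le_mul_right ((ENNReal.tsum_le_tsum hterm).trans (hZ _ (by rw [hN]; positivity))) _).trans
      (le_of_eq ?_)
    rw [← ENNReal.ofReal_mul hL0, hTd, hN]
    congr 1
    ring
  have hS1 : T ≤ 1 + T + T ^ 2 * Z := by nlinarith [sq_nonneg T]
  refine ⟨fun u => (hM u).trans (ENNReal.ofReal_le_ofReal ?_), fun n => (hW n).trans
    (ENNReal.ofReal_le_ofReal ?_), ?_⟩
  · gcongr
  · have : ((n : ℝ) + 1) ^ 2 ≤ ((n : ℝ) + 1) ^ 3 :=
      pow_le_pow_right₀ (by linarith [(Nat.cast_nonneg n : (0 : ℝ) ≤ n)]) (by norm_num)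
    gcongr
  · calc ∑' u, Cv.count p u ^ 2 ≤ ∑' n, ∑ u ∈ sphere k n, Cv.count p u ^ 2 := tsum_le_spheres _
      _ ≤ ∑' n : ℕ, ENNReal.ofReal (T ^ 2 * (R₀ * R₀) ^ 2 / ((n : ℝ) + 1) ^ 2) := by
          refine ENNReal.tsum_le_tsum fun n => ?_
          refine (sum_le_sum fun u hu => ?_).trans (le_of_eq_of_le (mul_sum (sphere k n)
            (Cv.count p) (ENNReal.ofReal (T * (R₀ * R₀) / ((n : ℝ) + 1) ^ 8))).symm
              ((mul_le_mul_right (hW n) _).trans ?_))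
          · rw [sq, ← mem_sphere.1 hu]
            exact mul_le_mul_left (hM u) _
          · rw [← ENNReal.ofReal_mul (by positivity)]
            refine ENNReal.ofReal_le_ofReal ?_
            rw [div_mul_eq_mul_div, div_le_div_iff₀ (by positivity) (by positivity)]
            calc T * (R₀ * R₀) * (T * (R₀ * R₀) * ((n : ℝ) + 1) ^ 2) * ((n : ℝ) + 1) ^ 2
                = T ^ 2 * (R₀ * R₀) ^ 2 * ((n : ℝ) + 1) ^ 4 := by ring
              _ ≤ _ := mul_le_mul_of_nonneg_left (pow_le_pow_right₀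
                  (by linarith [(Nat.cast_nonneg n : (0 : ℝ) ≤ n)]) (by norm_num)) (by positivity)
      _ ≤ ENNReal.ofReal (T ^ 2 * (R₀ * R₀) ^ 2 * Z) := hZ _ (by positivity)
      _ ≤ _ := by
          refine ENNReal.ofReal_le_ofReal ?_
          have h4 : (R₀ * R₀) ^ 2 ≤ P ^ (1 / 5 : ℝ) := by
            rw [hR, ← Real.rpow_add (by linarith), ← Real.rpow_natCast,
              ← Real.rpow_mul (by linarith)]
            exact Real.rpow_le_rpow_of_exponent_le hP (by norm_num)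
          calc T ^ 2 * (R₀ * R₀) ^ 2 * Z = T ^ 2 * Z * (R₀ * R₀) ^ 2 := by ring
            _ ≤ (1 + T + T ^ 2 * Z) * P ^ (1 / 5 : ℝ) := by
                gcongr
                linarith

/-- A tail bound and fast decay at the threshold bound the counts uniformly below it. -/
theorem exists_count_bound (hH : H.Connected) (hpc : 0 < pc H) (hpc1 : pc H ≤ 1) (D : ℕ) {θ A : ℝ}
    (hθ : 0 < θ) (hθ1 : θ ≤ 1 / 10000) {C : ℝ≥0∞} (hC : C ≠ ⊤)
    (hT : Cv.TailBound D (pc H) θ C)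
    (hdec : ∀ u : FreeGroup (Fin k),
      Cv.hit (pc H) u ≤ ENNReal.ofReal (A * ((wlen u : ℝ) + 1) ^ (-(1 / θ)))) :
    ∃ B : ℝ, 0 ≤ B ∧ ∀ p, pc H / 2 ≤ p → p < pc H →
      (∀ u : FreeGroup (Fin k),
        Cv.count p u ≤ ENNReal.ofReal (B * ((wlen u : ℝ) + 1) ^ (-(8 : ℝ)))) ∧
      ∀ n, ∑ u ∈ sphere k n, Cv.count p u ≤ ENNReal.ofReal (B * ((n : ℝ) + 1) ^ 3) := by
  classical
  obtain ⟨S, hS1, hS⟩ := Cv.exists_step hH hpc hpc1 D hθ hθ1 hC hT hdec
  obtain ⟨Q, hQ⟩ : ∃ Q : ℝ, Q = (2 * S) ^ (1 / (1 - 1 / 5) : ℝ) + 1 := ⟨_, rfl⟩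
  have hQ0 : 0 ≤ Q := hQ ▸ by positivity
  refine ⟨S * Q ^ (1 / 5 : ℝ), by positivity, fun p hqp hpq => ?_⟩
  let Ps : Set ℝ := {P | 1 ≤ P ∧ Cv.CountBd p P}
  have hsum := Cv.count_tsum_ne_top hH (by linarith) hpq
  obtain ⟨s, hs⟩ : ∃ s, s = ∑' u, Cv.count p u := ⟨_, rfl⟩
  rw [← hs] at hsum
  have hne : Ps.Nonempty := by
    refine ⟨max 1 (max s.toReal (s * s).toReal), le_max_left _ _, fun u => ?_, ?_, fun n => ?_⟩
    · refine (hs ▸ ENNReal.le_tsum u : Cv.count p u ≤ s).trans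
        (le_of_eq_of_le (ENNReal.ofReal_toReal hsum).symm ?_)
      exact ENNReal.ofReal_le_ofReal ((le_max_left _ _).trans (le_max_right _ _))
    · refine le_trans ?_ (ENNReal.ofReal_le_ofReal ((le_max_right _ _).trans (le_max_right _ _)))
      rw [ENNReal.ofReal_toReal (ENNReal.mul_ne_top hsum hsum), hs, ← ENNReal.tsum_mul_left]
      exact ENNReal.tsum_le_tsum fun u => by
        rw [sq]
        exact mul_le_mul_left (ENNReal.le_tsum u) _
    · refine (hs ▸ ENNReal.sum_le_tsum _ : ∑ u ∈ sphere k n, Cv.count p u ≤ s).trans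
        (le_of_eq_of_le (ENNReal.ofReal_toReal hsum).symm (ENNReal.ofReal_le_ofReal ?_))
      exact ((le_max_left _ _).trans (le_max_right _ _)).trans (le_mul_of_one_le_right
        (zero_le_one.trans (le_max_left _ _))
        (one_le_pow₀ (by linarith [(Nat.cast_nonneg n : (0 : ℝ) ≤ n)])))
  obtain ⟨x, hx⟩ : ∃ x, x = sInf Ps := ⟨_, rfl⟩
  have hbdd : BddBelow Ps := ⟨1, fun P hP => hP.1⟩
  have hx1 : 1 ≤ x := hx ▸ le_csInf hne fun P hP => hP.1
  obtain ⟨P, ⟨hP1, hP⟩, hPlt⟩ := exists_lt_of_csInf_lt hne (show sInf Ps < 2 * x by linarith)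
  have hmem : S * P ^ (1 / 5 : ℝ) ∈ Ps := by
    obtain ⟨h1, h2, h3⟩ := hS p hqp hpq.le P hP1 hP
    refine ⟨one_le_mul_of_one_le_of_one_le hS1 (Real.one_le_rpow hP1 (by norm_num)),
      fun u => (h1 u).trans (ENNReal.ofReal_le_ofReal (div_le_self (by positivity)
        (one_le_pow₀ (by linarith [(Nat.cast_nonneg (wlen u) : (0 : ℝ) ≤ wlen u)])))), h3, h2⟩
  have hself : x ≤ 2 * S * x ^ (1 / 5 : ℝ) := by
    refine (hx ▸ csInf_le hbdd hmem : x ≤ S * P ^ (1 / 5 : ℝ)).trans ?_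
    calc S * P ^ (1 / 5 : ℝ) ≤ S * (2 * x) ^ (1 / 5 : ℝ) := by gcongr
      _ ≤ S * (2 * x ^ (1 / 5 : ℝ)) := by
          rw [Real.mul_rpow zero_le_two (by linarith)]
          gcongr
          simpa using Real.rpow_le_rpow_of_exponent_le one_le_two
            (show (1 / 5 : ℝ) ≤ 1 by norm_num)
      _ = _ := by ring
  have hxQ : sInf Ps < Q := by
    have := self_bound (by linarith) (by linarith) (by norm_num) (by norm_num) hself
    rw [← hx, hQ]
    linarith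
  obtain ⟨P', ⟨hP'1, hP'⟩, hP'Q⟩ := exists_lt_of_csInf_lt hne hxQ
  obtain ⟨h1, h2, -⟩ := hS p hqp hpq.le P' hP'1 hP'
  have hle : P' ^ (1 / 5 : ℝ) ≤ Q ^ (1 / 5 : ℝ) :=
    Real.rpow_le_rpow (by linarith) hP'Q.le (by norm_num)
  refine ⟨fun u => (h1 u).trans (ENNReal.ofReal_le_ofReal ?_), fun n => (h2 n).trans
    (ENNReal.ofReal_le_ofReal ?_)⟩
  · rw [show (-(8 : ℝ)) = -((8 : ℕ) : ℝ) by norm_num, Real.rpow_neg (by positivity),
      Real.rpow_natCast, ← div_eq_mul_inv]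
    gcongr
  · gcongr

end Vale.Agent.P165.Quot.Cov
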