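import Vale.Agent.P165.Quot.Shift
import Vale.Agent.P165.Quot.Codes

/-!
Finitely many types of entries, a branch of deep points for each, and a fixed landing entry for
words ending in a given power of a letter.
-/

open Finset
open scoped ENNReal

namespace Vale.Agent.P165.Quot

variable {k : ℕ} {u v w c : FreeGroup (Fin k)} {a : Letter k}

/-- A power of a letter. -/
def lpow (a : Letter k) (n : ℕ) : FreeGroup (Fin k) := FreeGroup.mk (List.replicate n a)

@[simp] lemma toWord_lpow (a : Letter k) (n : ℕ) : (lpow a n).toWord = List.replicate n a :=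
  toWord_mk_of_reduced (isReduced_replicate n a)

@[simp] lemma wlen_lpow (a : Letter k) (n : ℕ) : wlen (lpow a n) = n := by simp [wlen]

lemma lastL_lpow (a : Letter k) {n : ℕ} (hn : 0 < n) : lastL (lpow a n) = some a := by
  cases n with
  | zero => simp at hn
  | succ n => simp [lastL, List.getLast?_replicate]

lemma headL_lpow (a : Letter k) {n : ℕ} (hn : 0 < n) : headL (lpow a n) = some a := by
  cases n with
  | zero => simp at hn
  | succ n => simp [headL, List.replicate_succ]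

lemma pfx_lpow (a : Letter k) {i n : ℕ} (hi : i ≤ n) : pfx (lpow a n) i = lpow a i := by
  simp [pfx, lpow, toWord_mk_of_reduced (isReduced_replicate n a), Nat.min_eq_left hi]

lemma concat_left_of_concat (h : Concat (u * v) w) (huv : Concat u v) : Concat u (v * w) := by
  unfold Concat at *
  have h1 := wlen_mul_le (u := v) (v := w)
  have h2 := wlen_mul_le (u := u) (v := v * w)
  rw [← mul_assoc] at h2 ⊢
  omega

/-- Moving along a word after a reduced prefix stays behind it. -/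
lemma pre_mul_pfx (h : Concat u v) (i : ℕ) :
    Pre u (u * pfx v i) ∧ wlen (u * pfx v i) = wlen u + wlen (pfx v i) := by
  have hc : Concat u (pfx v i) := by
    have h2 := pre_iff_concat.1 (pre_pfx (u := v) i)
    unfold Concat at *
    rw [mul_inv_cancel_left] at h2
    have h3 := wlen_mul_le (u := u) (v := pfx v i)
    have h4 := wlen_mul_le (u := u * pfx v i) (v := (pfx v i)⁻¹ * v)
    rw [mul_assoc, mul_inv_cancel_left] at h4
    omega
  exact ⟨pre_mul hc, hc⟩

namespace Cov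

variable {W Γ : Type*} [Group Γ] [MulAction Γ W] {H : SimpleGraph W} (Cv : Cov (Γ := Γ) H k)
  {D ρ₀ : ℕ}

/-- Every vertex has short walks to all classes along any word. -/
def WalkBound (ρ : ℕ) : Prop :=
  ∀ (x : W) (m : FreeGroup (Fin k)) (r : W), r ∈ Cv.reps →
    ∃ y ∈ Cv.cls (Cv.proj x * m) r, ∃ q : H.Walk x y, q.length ≤ ρ * (wlen m + 1) ∧
      ∀ z ∈ q.support, ∃ i ≤ wlen m, wdist (Cv.proj x * pfx m i) (Cv.proj z) ≤ ρ

/-- Points near a deep position of the cone are in the core. -/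
lemma mem_core_near {x : W} {d : ℕ} (h1 : Pre c u) (h2 : wlen c + D + d ≤ wlen u)
    (h3 : wdist u (Cv.proj x) ≤ d) : x ∈ Cv.core D c := by
  have h4 : Pre c (Cv.proj x) := pre_of_near h1 (by omega)
  refine Cv.mem_core_of_deep h4 ?_
  have h5 := wlen_mul_le (u := u) (v := u⁻¹ * Cv.proj x)
  have h6 := wlen_mul_le (u := Cv.proj x) (v := (Cv.proj x)⁻¹ * u)
  rw [mul_inv_cancel_left] at h5 h6
  rw [show wlen ((Cv.proj x)⁻¹ * u) = wdist u (Cv.proj x) from wdist_comm] at h6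
  omega

/-- Points near a short position are outside the core of a long word. -/
lemma not_mem_core_near {x : W} {d : ℕ} (h2 : wlen u + d < wlen c)
    (h3 : wdist u (Cv.proj x) ≤ d) : x ∉ Cv.core D c := by
  intro h
  have h4 := pre_length (Cv.core_subset h)
  have h5 := wlen_mul_le (u := u) (v := u⁻¹ * Cv.proj x)
  rw [mul_inv_cancel_left] at h5
  unfold wdist at h3
  omega

/-- Every entry is a translate of one of finitely many entries, by an element which carries the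
cone of the one onto the cone of the other. -/
theorem exists_types (D : ℕ) : ∃ T : Finset (FreeGroup (Fin k) × W),
    (∀ τ ∈ T, τ.1 ≠ 1 ∧ τ.2 ∈ Cv.entry D τ.1) ∧
    ∀ (c : FreeGroup (Fin k)) (x : W), c ≠ 1 → x ∈ Cv.entry D c → ∃ τ ∈ T,
      ∃ u : FreeGroup (Fin k), u * τ.1 = c ∧ lastL c = lastL τ.1 ∧ x ∈ Cv.cls u τ.2 := by
  classical
  let I := (Finset.univ : Finset (Letter k)) ×ˢ (finite_ball (k := k) Cv.R).toFinset ×ˢ Cv.reps
  let P : Letter k × FreeGroup (Fin k) × W → Prop := fun i => ∃ c x,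
    lastL c = some i.1 ∧ x ∈ Cv.entry D c ∧ x ∈ Cv.cls (c * i.2.1) i.2.2
  have hw : ∀ i : {i // P i}, ∃ c x,
    lastL c = some i.1.1 ∧ x ∈ Cv.entry D c ∧ x ∈ Cv.cls (c * i.1.2.1) i.1.2.2 := fun i => i.2
  choose c₀ x₀ h1 h2 h3 using hw
  refine ⟨((I.filter P).attach).image
    (fun i => (c₀ ⟨i.1, (mem_filter.1 i.2).2⟩, x₀ ⟨i.1, (mem_filter.1 i.2).2⟩)), ?_, ?_⟩
  · intro τ hτ
    obtain ⟨i, -, rfl⟩ := mem_image.1 hτ
    refine ⟨fun h => ?_, h2 _⟩
    have := h1 ⟨i.1, (mem_filter.1 i.2).2⟩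
    rw [lastL_eq_none.2 h] at this
    simp at this
  · intro c x hc hx
    obtain ⟨r, hr, hxr⟩ := Cv.exists_cls x
    obtain ⟨l, hl⟩ : ∃ l, lastL c = some l := Option.ne_none_iff_exists'.1 (fun h => hc (lastL_eq_none.1 h))
    let i : Letter k × FreeGroup (Fin k) × W := (l, c⁻¹ * Cv.proj x, r)
    have hP : P i := ⟨c, x, hl, hx, by simpa [i] using hxr⟩
    have hI : i ∈ I.filter P := mem_filter.2
      ⟨mem_product.2 ⟨mem_univ _, mem_product.2
        ⟨(Set.Finite.mem_toFinset _).2 (Cv.entry_near hx), hr⟩⟩, hP⟩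
    refine ⟨_, mem_image.2 ⟨⟨i, hI⟩, mem_attach _ _, rfl⟩, c * (c₀ ⟨i, hP⟩)⁻¹, by simp,
      hl.trans (h1 ⟨i, hP⟩).symm, ?_⟩
    obtain ⟨g₀, hg₀, hx₀⟩ := h3 ⟨i, hP⟩
    obtain ⟨g, hg, hgx⟩ := hxr
    refine ⟨g * g₀⁻¹, ?_, ?_⟩
    · rw [map_mul, map_inv, hg, hg₀, mul_inv_rev]
      change Cv.proj x * ((c⁻¹ * Cv.proj x)⁻¹ * (c₀ ⟨i, hP⟩)⁻¹) = _
      simp [mul_assoc]
    · rw [mul_smul, ← hx₀, inv_smul_smul]
      exact hgx

/-- The deep branch of an entry. -/
theorem exists_branch_walk (hρ : Cv.WalkBound ρ₀) (hD : ρ₀ < D) {x₀ : W} (hx₀ : x₀ ∈ Cv.entry D c) :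
    ∃ q : FreeGroup (Fin k), Concat c q ∧ 2 * D ≤ wlen q ∧ ∃ r ∈ Cv.reps, ∃ d ∈ Cv.cls (c * q) r,
      ∃ P : H.Walk x₀ d, ∀ z ∈ P.support, z ∈ Cv.core D c := by
  obtain ⟨hxc, z, hz, hzr⟩ := hx₀.1
  obtain ⟨q₁⟩ := hzr
  set s := c⁻¹ * Cv.proj z with hs
  have hzcone : z ∈ Cv.coneV c := by
    by_cases hn : q₁.Nil
    · exact hn.eq ▸ hxc
    · have := q₁.edges_subset_edgeSet (q₁.mk_penultimate_end_mem_edges hn)
      rw [SimpleGraph.edgeSet_inf, SimpleGraph.edgeSet_fromEdgeSet] at this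
      exact this.2.1 z (Sym2.mem_mk_right _ _)
  have hcs : Concat c s := pre_iff_concat.1 hzcone
  have hlen : wlen c + D ≤ wlen c + wlen s := by
    rw [← show wlen (c * s) = _ from hcs, hs, mul_inv_cancel_left]
    exact hz
  have hs1 : s ≠ 1 := by
    intro h
    rw [h, wlen_one] at hlen
    omega
  obtain ⟨ls, hls⟩ : ∃ l, lastL s = some l :=
    Option.ne_none_iff_exists'.1 (fun h => hs1 (lastL_eq_none.1 h))
  set m := lpow ls (2 * D) with hm
  have hsm : Concat s m := concat_iff.2 fun x hx h => by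
    rw [hm, headL_lpow ls (by omega), Option.some_inj] at h
    rw [hls, Option.some_inj] at hx
    exact opp_ne (h.symm.trans hx)
  obtain ⟨hcsm, hc_sm⟩ := concat_assoc hcs hsm hs1
  obtain ⟨r, hr⟩ := Cv.nonempty
  obtain ⟨y, hy, q₂, -, hq₂⟩ := hρ z m r hr
  have hpz : Cv.proj z = c * s := by rw [hs, mul_inv_cancel_left]
  rw [hpz, mul_assoc] at hy
  refine ⟨s * m, hc_sm, ?_, r, hr, y, hy, (q₁.mapLe inf_le_left).append q₂, fun w hw => ?_⟩
  · rw [show wlen (s * m) = _ from hsm, hm, wlen_lpow]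
    omega
  have hyd : y ∈ Cv.core D c := by
    refine Cv.mem_core_near (d := 0) (u := c * (s * m)) (pre_mul hc_sm) ?_ ?_
    · rw [show wlen (c * (s * m)) = _ from hc_sm, show wlen (s * m) = _ from hsm]
      omega
    · rw [Cv.proj_cls hr hy]; simp
  refine Cv.core_of_walk _ (fun w hw => ?_) hyd w hw
  rcases (SimpleGraph.Walk.mem_support_append_iff _ _).1 hw with hw | hw
  · rw [SimpleGraph.Walk.support_mapLe_eq_support] at hw
    rcases SimpleGraph.Walk.mem_support_iff_exists_mem_edges.1 hw with rfl | ⟨e, he, hwe⟩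
    · exact hzcone
    · have := q₁.edges_subset_edgeSet he
      rw [SimpleGraph.edgeSet_inf, SimpleGraph.edgeSet_fromEdgeSet] at this
      exact this.2.1 w hwe
  · obtain ⟨i, -, hd⟩ := hq₂ w hw
    rw [hpz] at hd
    obtain ⟨h1, h2⟩ := pre_mul_pfx hcsm i
    refine pre_of_near (u := c * s * pfx m i) (pre_trans (pre_mul hcs) h1) ?_
    rw [h2, show wlen (c * s) = _ from hcs]
    omega

/-- A landing entry for words ending in `M` letters `a`, reached near the segment from outside. -/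
theorem exists_landing (hρ : Cv.WalkBound ρ₀) (a : Letter k) {M : ℕ} (hM : 0 < M) :
    ∃ z₀ ∈ Cv.entry D (lpow a M), ∃ r ∈ Cv.reps, ∃ P : H.Walk r z₀,
      (∀ e ∈ P.edges, e ∈ Cv.outE D (lpow a M)) ∧
      ∀ w ∈ P.support, ∃ i ≤ M + D + ρ₀ + 1, wdist (lpow a i) (Cv.proj w) ≤ ρ₀ := by
  obtain ⟨r, hr⟩ := Cv.nonempty
  obtain ⟨y, hy, q, -, hq⟩ := hρ r (lpow a (M + D + ρ₀ + 1)) r hr
  have hp : Cv.proj r = 1 := Cv.proj_rep r hr
  have hy' : y ∈ Cv.core D (lpow a M) := by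
    refine Cv.mem_core_near (d := 0) (u := lpow a (M + D + ρ₀ + 1)) ?_ ?_ ?_
    · rw [← pfx_lpow a (show M ≤ M + D + ρ₀ + 1 by omega)]
      exact pre_pfx _
    · simp; omega
    · rw [Cv.proj_cls hr hy, hp, one_mul]; simp
  have hc : lpow a M ≠ 1 := fun h => by
    have := wlen_lpow a M
    rw [h, wlen_one] at this
    omega
  obtain ⟨e, he, P, -, hPE, hPs⟩ := Cv.exists_entry_on_walk q (Cv.not_mem_core_one hc hp) hy'
  refine ⟨e, he, r, hr, P, hPE, fun w hw => ?_⟩
  obtain ⟨i, hi, hd⟩ := hq w (hPs w hw)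
  rw [wlen_lpow] at hi
  rw [hp, one_mul, pfx_lpow a hi] at hd
  exact ⟨i, hi, hd⟩

end Cov

end Vale.Agent.P165.Quot
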