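import Vale.Agent.P165.Quot.Geom
import Vale.Agent.P165.Quot.ProbBasic

/-!
Changing the starting point and the target fibre by a bounded amount changes hitting probabilities
and expected counts by bounded factors; points near a cone are seen at the entries of its core.
-/

open Finset
open scoped ENNReal

namespace Vale.Agent.P165.Quot

variable {W : Type*} [DecidableEq W] {H : SimpleGraph W} {p : ℝ}

/-- Walks that cost a fixed power. -/
lemma pow_mul_connTo_le (h0 : 0 ≤ p) (h1 : p ≤ 1) {E : Set (Sym2 W)} {x y : W} (q : H.Walk x y)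
    (hq : ∀ e ∈ q.edges, e ∈ E) {ℓ : ℕ} (hℓ : q.length ≤ ℓ) (T : Set W) :
    ENNReal.ofReal p ^ ℓ * prob H p (connTo E y T) ≤ prob H p (connTo E x T) :=
  le_trans (mul_le_mul_left (pow_le_pow_of_le_one zero_le
    (ENNReal.ofReal_le_one.2 h1) hℓ) _) (walk_mul_le h0 h1 q hq T)

lemma pow_le_connTo (h0 : 0 ≤ p) (h1 : p ≤ 1) {E : Set (Sym2 W)} {x y : W} (q : H.Walk x y)
    (hq : ∀ e ∈ q.edges, e ∈ E) {ℓ : ℕ} (hℓ : q.length ≤ ℓ) {T : Set W} (hy : y ∈ T) :
    ENNReal.ofReal p ^ ℓ ≤ prob H p (connTo E x T) := by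
  simpa [prob_connTo_self h0 h1 E hy] using pow_mul_connTo_le h0 h1 q hq hℓ T

lemma pow_mul_mean_le (h0 : 0 ≤ p) (h1 : p ≤ 1) {E : Set (Sym2 W)} {x y : W} (q : H.Walk x y)
    (hq : ∀ e ∈ q.edges, e ∈ E) {ℓ : ℕ} (hℓ : q.length ≤ ℓ) (T : Set W) :
    ENNReal.ofReal p ^ ℓ * mean H p E y T ≤ mean H p E x T := by
  rw [mean, mean, ← ENNReal.tsum_mul_left]
  exact ENNReal.tsum_le_tsum fun z => pow_mul_connTo_le h0 h1 q hq hℓ _

namespace Cov

variable {Γ : Type*} {k : ℕ} [Group Γ] [MulAction Γ W] (Cv : Cov (Γ := Γ) H k)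

lemma smul_Fib (g : Γ) (u : FreeGroup (Fin k)) :
    (Cv.act g) '' Cv.Fib u = Cv.Fib (Cv.π g * u) := by
  ext x
  obtain ⟨y, rfl⟩ := (Cv.act g).surjective x
  rw [(Cv.act g).injective.mem_set_image]
  simp [Fib, Cv.proj_smul]

lemma smul_univ (g : Γ) : Sym2.map (Cv.act g) '' (Set.univ : Set (Sym2 W)) = Set.univ :=
  Set.eq_univ_of_forall fun e => by
    induction e with
    | h a b =>
      obtain ⟨a, rfl⟩ := (Cv.act g).surjective a
      obtain ⟨b, rfl⟩ := (Cv.act g).surjective b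
      exact ⟨s(a, b), trivial, rfl⟩

lemma prob_connFib_smul (p : ℝ) (g : Γ) (x : W) (u : FreeGroup (Fin k)) :
    prob H p (connTo Set.univ (g • x) (Cv.Fib (Cv.π g * u))) =
      prob H p (connTo Set.univ x (Cv.Fib u)) := by
  have := prob_connTo_iso (p := p) (Cv.act g) Set.univ x (Cv.Fib u)
  rwa [Cv.smul_univ, Cv.smul_Fib, Cv.act_apply] at this

lemma mean_connFib_smul (p : ℝ) (g : Γ) (x : W) (u : FreeGroup (Fin k)) :
    mean H p Set.univ (g • x) (Cv.Fib (Cv.π g * u)) = mean H p Set.univ x (Cv.Fib u) := by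
  have := mean_iso (p := p) (Cv.act g) Set.univ x (Cv.Fib u)
  rwa [Cv.smul_univ, Cv.smul_Fib, Cv.act_apply] at this

/-- Equivalent points in the same fibre see every fibre alike. -/
lemma prob_connFib_cls (p : ℝ) {a : FreeGroup (Fin k)} {r x y : W} (hx : x ∈ Cv.cls a r)
    (hy : y ∈ Cv.cls a r) (u : FreeGroup (Fin k)) :
    prob H p (connTo Set.univ x (Cv.Fib u)) = prob H p (connTo Set.univ y (Cv.Fib u)) := by
  obtain ⟨g, rfl, rfl⟩ := hx
  obtain ⟨g', hg', rfl⟩ := hy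
  rw [show Cv.Fib u = Cv.Fib (Cv.π g * ((Cv.π g)⁻¹ * u)) by rw [mul_inv_cancel_left],
    Cv.prob_connFib_smul p g, ← hg', Cv.prob_connFib_smul p g']

lemma mean_connFib_cls (p : ℝ) {a : FreeGroup (Fin k)} {r x y : W} (hx : x ∈ Cv.cls a r)
    (hy : y ∈ Cv.cls a r) (u : FreeGroup (Fin k)) :
    mean H p Set.univ x (Cv.Fib u) = mean H p Set.univ y (Cv.Fib u) := by
  obtain ⟨g, rfl, rfl⟩ := hx
  obtain ⟨g', hg', rfl⟩ := hy
  rw [show Cv.Fib u = Cv.Fib (Cv.π g * ((Cv.π g)⁻¹ * u)) by rw [mul_inv_cancel_left],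
    Cv.mean_connFib_smul p g, ← hg', Cv.mean_connFib_smul p g']

/-- A vertex sees a fibre at most as the sum over the representatives does. -/
lemma prob_le_hit (p : ℝ) (x : W) (u : FreeGroup (Fin k)) :
    prob H p (connTo Set.univ x (Cv.Fib u)) ≤ Cv.hit p ((Cv.proj x)⁻¹ * u) := by
  obtain ⟨g, r, hr, rfl⟩ := Cv.cover x
  have hg : Cv.proj (g • r) = Cv.π g := by rw [Cv.proj_smul, Cv.proj_rep r hr, mul_one]
  calc prob H p (connTo Set.univ (g • r) (Cv.Fib u))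
      = prob H p (connTo Set.univ r (Cv.Fib ((Cv.π g)⁻¹ * u))) := by
        rw [← Cv.prob_connFib_smul p g r, mul_inv_cancel_left]
    _ ≤ _ := hg ▸ Finset.single_le_sum (f := fun r => prob H p (connTo Set.univ r (Cv.Fib _)))
        (fun _ _ => zero_le) hr

lemma mean_le_count (p : ℝ) (x : W) (u : FreeGroup (Fin k)) :
    mean H p Set.univ x (Cv.Fib u) ≤ Cv.count p ((Cv.proj x)⁻¹ * u) := by
  obtain ⟨g, r, hr, rfl⟩ := Cv.cover x
  have hg : Cv.proj (g • r) = Cv.π g := by rw [Cv.proj_smul, Cv.proj_rep r hr, mul_one]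
  calc mean H p Set.univ (g • r) (Cv.Fib u)
      = mean H p Set.univ r (Cv.Fib ((Cv.π g)⁻¹ * u)) := by
        rw [← Cv.mean_connFib_smul p g r, mul_inv_cancel_left]
    _ ≤ _ := hg ▸ Finset.single_le_sum (f := fun r => mean H p Set.univ r (Cv.Fib _))
        (fun _ _ => zero_le) hr

lemma hitMin_le (p : ℝ) (x : W) (u : FreeGroup (Fin k)) :
    Cv.hitMin p ((Cv.proj x)⁻¹ * u) ≤ prob H p (connTo Set.univ x (Cv.Fib u)) := by
  obtain ⟨g, r, hr, rfl⟩ := Cv.cover x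
  have hg : Cv.proj (g • r) = Cv.π g := by rw [Cv.proj_smul, Cv.proj_rep r hr, mul_one]
  calc Cv.hitMin p ((Cv.proj (g • r))⁻¹ * u)
      ≤ prob H p (connTo Set.univ r (Cv.Fib ((Cv.proj (g • r))⁻¹ * u))) := Finset.inf'_le _ hr
    _ = _ := by rw [hg, ← Cv.prob_connFib_smul p g r, mul_inv_cancel_left]

/-- Moving both the starting point and the target fibre by a bounded amount. -/
theorem exists_hit_shift (hH : H.Connected) (ρ : ℕ) : ∃ ℓ : ℕ, ∀ (p : ℝ), 0 ≤ p → p ≤ 1 →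
    ∀ (x y : W) (u v : FreeGroup (Fin k)), wdist (Cv.proj x) (Cv.proj y) ≤ ρ → wdist u v ≤ ρ →
      ENNReal.ofReal p ^ ℓ * prob H p (connTo Set.univ x (Cv.Fib u)) ≤
        prob H p (connTo Set.univ y (Cv.Fib v)) := by
  obtain ⟨ℓ, hℓ⟩ := Cv.exists_connector hH ρ
  refine ⟨ℓ + ℓ, fun p h0 h1 x y u v hxy huv => ?_⟩
  obtain ⟨r, hr, hx⟩ := Cv.exists_cls x
  obtain ⟨y', hy', q, hq⟩ := hℓ y (Cv.proj x) r hr (by rwa [wdist_comm])
  have h2 : prob H p (connTo Set.univ y (Cv.Fib u)) * ENNReal.ofReal p ^ ℓ ≤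
      prob H p (connTo Set.univ y (Cv.Fib v)) := by
    refine connTo_trans h0 h1 _ y _ _ fun z hz => ?_
    obtain ⟨s, hs, -⟩ := Cv.exists_cls z
    obtain ⟨z', hz', q', hq'⟩ := hℓ z v s hs (by rw [show Cv.proj z = u from hz]; exact huv)
    exact pow_le_connTo h0 h1 q' (fun _ _ => Set.mem_univ _) hq' (Cv.proj_cls hs hz')
  refine le_trans (le_of_eq_of_le ?_
    (mul_le_mul_left (pow_mul_connTo_le h0 h1 q (fun _ _ => Set.mem_univ _) hq _) _)) h2
  rw [Cv.prob_connFib_cls p hx hy']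
  ring

/-- The same for expected counts, with a further factor for the classes. -/
theorem exists_count_shift (hH : H.Connected) (ρ : ℕ) : ∃ ℓ : ℕ, ∀ (p : ℝ), 0 ≤ p → p ≤ 1 →
    ∀ (x y : W) (u v : FreeGroup (Fin k)), wdist (Cv.proj x) (Cv.proj y) ≤ ρ → wdist u v ≤ ρ →
      ENNReal.ofReal p ^ ℓ * mean H p Set.univ x (Cv.Fib u) ≤
        (Cv.reps.card : ℝ≥0∞) * mean H p Set.univ y (Cv.Fib v) := by
  classical
  obtain ⟨ℓ, hℓ⟩ := Cv.exists_connector hH ρ
  refine ⟨ℓ + ℓ, fun p h0 h1 x y u v hxy huv => ?_⟩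
  obtain ⟨r, hr, hx⟩ := Cv.exists_cls x
  obtain ⟨y', hy', q, hq⟩ := hℓ y (Cv.proj x) r hr (by rwa [wdist_comm])
  rw [pow_add, mul_comm (ENNReal.ofReal p ^ ℓ), mul_assoc, Cv.mean_connFib_cls p hx hy']
  refine (mul_le_mul_right (pow_mul_mean_le h0 h1 q (fun _ _ => Set.mem_univ _) hq _) _).trans ?_
  -- move every point over `u` to one over `v`, at most once per class
  obtain ⟨r₀, hr₀⟩ := Cv.nonempty
  obtain ⟨g₀, hg₀⟩ := Cv.exists_lift u
  have key : ∀ s ∈ Cv.reps, ∃ h : Γ, Cv.π h = u⁻¹ * v ∧ ∃ q : H.Walk s (h • r₀), q.length ≤ ℓ := by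
    intro s hs
    obtain ⟨_, ⟨h, hh, rfl⟩, q, hq⟩ := hℓ s (u⁻¹ * v) r₀ hr₀
      (by rw [Cv.proj_rep s hs, wdist_one_left]; exact huv)
    exact ⟨h, hh, q, hq⟩
  choose h hh q' hq' using key
  calc ENNReal.ofReal p ^ ℓ * mean H p Set.univ y (Cv.Fib u)
      = ∑' z : Cv.Fib u, ENNReal.ofReal p ^ ℓ * prob H p (connTo Set.univ y {(z : W)}) :=
        ENNReal.tsum_mul_left.symm
    _ ≤ ∑' z : ↥(⋃ s ∈ Cv.reps, Cv.cls u s),
          ENNReal.ofReal p ^ ℓ * prob H p (connTo Set.univ y {(z : W)}) :=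
        ENNReal.tsum_mono_subtype (fun z => ENNReal.ofReal p ^ ℓ * prob H p (connTo Set.univ y {z}))
          (s := Cv.Fib u) fun z hz => by
          obtain ⟨s, hs, hzs⟩ := Cv.exists_cls z
          rw [show Cv.proj z = u from hz] at hzs
          exact Set.mem_biUnion hs hzs
    _ ≤ ∑ s ∈ Cv.reps, ∑' z : Cv.cls u s,
          ENNReal.ofReal p ^ ℓ * prob H p (connTo Set.univ y {(z : W)}) :=
        ENNReal.tsum_biUnion_le (fun z => ENNReal.ofReal p ^ ℓ * prob H p (connTo Set.univ y {z})) _ _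
    _ ≤ ∑ s ∈ Cv.reps, mean H p Set.univ y (Cv.Fib v) := sum_le_sum fun s hs => ?_
    _ = _ := by simp
  have hz : ∀ z : Cv.cls u s, ∃ g : Γ, Cv.π g = u ∧ g • s = z := fun z => z.2
  choose g hg hgz using hz
  let φ : Cv.cls u s → Cv.Fib v := fun z => ⟨(g z * h s hs) • r₀, by
    simp [Fib, Cv.proj_smul, Cv.proj_rep r₀ hr₀, hg, hh]⟩
  have hφ : Function.Injective φ := fun z z' hzz => by
    have e := congrArg Subtype.val hzz
    simp only [φ] at e
    have hone : (g z' * h s hs)⁻¹ * (g z * h s hs) = 1 :=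
      Cv.free _ r₀ (by rw [mul_smul, e, inv_smul_smul])
    rw [inv_mul_eq_one, mul_left_inj] at hone
    exact Subtype.ext ((hgz z).symm.trans (hone ▸ hgz z'))
  refine le_trans (ENNReal.tsum_le_tsum fun z => ?_)
    (ENNReal.tsum_comp_le_tsum_of_injective hφ fun w : Cv.Fib v =>
      prob H p (connTo Set.univ y {(w : W)}))
  let qw : H.Walk (z : W) (φ z : W) :=
    ((Cv.actWalk (g z) (q' s hs)).copy (hgz z) (mul_smul _ _ _).symm)
  have hqw : qw.reverse.length ≤ ℓ := by simpa [qw] using hq' s hs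
  simp only [prob_conn_symm Set.univ y]
  exact pow_mul_connTo_le h0 h1 qw.reverse (fun _ _ => Set.mem_univ _) hqw _

omit [DecidableEq W] in
lemma walkBall_finite [H.LocallyFinite] (x : W) : ∀ ℓ : ℕ,
    {z : W | ∃ q : H.Walk z x, q.length ≤ ℓ}.Finite := by
  intro ℓ
  induction ℓ with
  | zero =>
    refine (Set.finite_singleton x).subset fun z ⟨q, hq⟩ => ?_
    exact (SimpleGraph.Walk.eq_of_length_eq_zero (Nat.le_zero.1 hq))
  | succ ℓ ih =>
    refine ((Set.finite_singleton x).union (ih.biUnion fun z _ => (H.neighborSet z).toFinite)).subset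
      fun z ⟨q, hq⟩ => ?_
    cases q with
    | nil => exact .inl rfl
    | @cons _ b _ hab q =>
      exact .inr (Set.mem_biUnion (x := b) ⟨q, by simpa using hq⟩ hab.symm)

end Cov

end Vale.Agent.P165.Quot
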