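import Vale.Agent.P165.Quot.TubeDefs
import Vale.Agent.P165.Quot.Shift
import Vale.Agent.P165.Quot.Codes
import Vale.Agent.P165.Quot.Continue
import Vale.Agent.P165.Quot.Series

/-!
The code bound below and at the threshold, the critical exponent, and tubes of large total weight.
-/

open Finset
open scoped ENNReal

namespace Vale.Agent.P165.Quot

variable {W : Type*} [DecidableEq W] {H : SimpleGraph W}

omit [DecidableEq W] in
lemma inPart_univ (S : Finset (Sym2 W)) : inPart Set.univ S = S := by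
  ext e
  simp [mem_inPart]

/-- The connection inequality inside one finite set of edges. -/
lemma pr_connTo_mul_le {p : ℝ} (h0 : 0 ≤ p) (h1 : p ≤ 1) (U : Finset (Sym2 W)) (x : W)
    {B : Finset W} {T : Set W} {s : ℝ} (hs : ∀ u ∈ B, s ≤ pr p U (connTo Set.univ u T)) :
    pr p U (connTo Set.univ x (↑B : Set W)) * s ≤ pr p U (connTo Set.univ x T) := by
  classical
  let F : Set W → ℝ := fun C => P151.Fin.ind (∃ y ∈ T, y ∈ C)
  have hev : ∀ Q : Finset (Sym2 W) → Prop,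
      P151.Fin.ev (fun _ => p) U (fun S => P151.Fin.ind (Q S)) = pr p U Q := fun Q =>
    P151.Fin.pr_eq_uniform p Q
  have hF : ∀ u ∈ B, s ≤ P151.Fin.ev (fun _ => p) U fun S => F (cl {u} S) := by
    intro u hu
    rw [hev]
    exact (hs u hu).trans (le_of_eq (pr_congr fun S _ => by simp [connTo, inPart_univ]))
  have hKN := P151.KN.connection_fun_of_le_one (U := U) (fun _ => h0) (fun _ => h1) x
    (B := B) (F := F) (fun C C' hC => P151.Fin.ind_mono fun ⟨y, hy, hyC⟩ => ⟨y, hy, hC hyC⟩) hF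
  simp only [F, ← P151.Fin.ind_and, hev, P151.Fin.pr_eq_uniform] at hKN
  refine le_trans (le_of_eq_of_le ?_ hKN) (pr_mono h0 h1 fun S _ h => ?_)
  · congr 1
    refine pr_congr fun S _ => ?_
    simp only [connTo, inPart_univ]
    exact ⟨fun ⟨u, hu, huc⟩ => ⟨u, hu, (mem_cl_single.1 huc).symm⟩,
      fun ⟨u, hu, hr⟩ => ⟨u, hu, mem_cl_single.2 hr.symm⟩⟩
  · obtain ⟨-, y, hy, hyc⟩ := h
    exact ⟨y, hy, by rwa [inPart_univ]⟩

lemma pfx_of_pre {k : ℕ} {u v : FreeGroup (Fin k)} (h : Pre u v) : pfx v (wlen u) = u :=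
  FreeGroup.toWord_injective (by rw [toWord_pfx]; exact (List.prefix_iff_eq_take.1 h).symm)

/-- Products of a fixed number of members of a code are distinct. -/
lemma code_prod_injOn {k m : ℕ} {a : Letter k} {A : Finset (FreeGroup (Fin k))}
    (hA : PrefixFree (↑A : Set (FreeGroup (Fin k))))
    (hh : ∀ t ∈ A, headL t = some a ∧ lastL t = some a) :
    Set.InjOn (fun g : Fin m → FreeGroup (Fin k) => (List.ofFn g).prod)
      ↑(Fintype.piFinset fun _ : Fin m => A) := by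
  intro g hg g' hg' e
  rw [mem_coe, Fintype.mem_piFinset] at hg hg'
  have hmem : ∀ f : Fin m → FreeGroup (Fin k), (∀ i, f i ∈ A) →
      ∀ t ∈ List.ofFn f, t ∈ (↑A : Set (FreeGroup (Fin k))) := fun f hf t ht => by
    obtain ⟨i, rfl⟩ := (List.mem_ofFn' f t).1 ht
    exact hf i
  have h := (code_products (fun e => opp_ne e.symm) hA hh).2
  simp only at e
  exact List.ofFn_injective (((h _ _ (hmem g hg) (hmem g' hg')).1 (e ▸ pre_refl)).eq_of_length
    (by simp))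

namespace Cov

variable {Γ : Type*} {k : ℕ} [Group Γ] [MulAction Γ W] (Cv : Cov (Γ := Γ) H k)

lemma pr_connFib_smul_le {p : ℝ} (h0 : 0 ≤ p) (h1 : p ≤ 1) (g : Γ) (U : Finset (Sym2 W)) (r : W)
    (u : FreeGroup (Fin k)) :
    pr p U (connTo Set.univ r (Cv.Fib u)) ≤
      pr p (U.map (pairEmb (Cv.act g)))
        (connTo Set.univ (g • r) (Cv.Fib (Cv.π g * u))) := by
  rw [pr_image]
  refine pr_mono h0 h1 fun S _ => ?_
  rintro ⟨y, hy, h⟩
  refine ⟨g • y, ?_, ?_⟩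
  · simp [Fib, Cv.proj_smul, show Cv.proj y = u from hy]
  · have := (mem_cl_map (Cv.act g) Set.univ r y S).2 h
    rwa [Cv.smul_univ] at this

lemma hitMin_le_hit (p : ℝ) (u : FreeGroup (Fin k)) : Cv.hitMin p u ≤ Cv.hit p u := by
  obtain ⟨r, hr⟩ := Cv.nonempty
  exact (Finset.inf'_le _ hr).trans
    (Finset.single_le_sum (f := fun r => prob H p (connTo Set.univ r (Cv.Fib u)))
      (fun _ _ => zero_le) hr)

lemma hit_le_reps_card {p : ℝ} (h0 : 0 ≤ p) (h1 : p ≤ 1) (u : FreeGroup (Fin k)) :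
    Cv.hit p u ≤ Cv.reps.card :=
  (Finset.sum_le_card_nsmul _ _ 1 fun _ _ => prob_le_one h0 h1 _).trans (by simp)

lemma one_le_hitMin {p : ℝ} (h0 : 0 ≤ p) (h1 : p ≤ 1) : 1 ≤ Cv.hitMin p 1 :=
  Finset.le_inf' _ _ fun r hr =>
    (prob_connTo_self (H := H) h0 h1 Set.univ
      (show r ∈ Cv.Fib 1 from Cv.proj_rep r hr)).ge

lemma hitMin_le_one {p : ℝ} (h0 : 0 ≤ p) (h1 : p ≤ 1) (u : FreeGroup (Fin k)) :
    Cv.hitMin p u ≤ 1 := by
  obtain ⟨r, hr⟩ := Cv.nonempty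
  exact (Finset.inf'_le _ hr).trans (prob_le_one h0 h1 _)

lemma hitMin_mul_le {p : ℝ} (h0 : 0 ≤ p) (h1 : p ≤ 1) (u v : FreeGroup (Fin k)) :
    Cv.hitMin p u * Cv.hitMin p v ≤ Cv.hitMin p (u * v) := by
  refine Finset.le_inf' _ _ fun r hr => (mul_le_mul_left (Finset.inf'_le _ hr) _).trans ?_
  refine connTo_trans h0 h1 _ r _ _ fun z hz => ?_
  simpa [show Cv.proj z = u from hz] using Cv.hitMin_le p z (u * v)

lemma prod_hitMin_le {p : ℝ} (h0 : 0 ≤ p) (h1 : p ≤ 1) :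
    ∀ L : List (FreeGroup (Fin k)), (L.map (Cv.hitMin p)).prod ≤ Cv.hitMin p L.prod
  | [] => by simpa using Cv.one_le_hitMin h0 h1
  | w :: L => by
    simp only [List.map_cons, List.prod_cons]
    exact (mul_le_mul_right (prod_hitMin_le h0 h1 L) _).trans (Cv.hitMin_mul_le h0 h1 _ _)

/-- A walk along the word gives a lower bound exponential in its length. -/
lemma exists_pow_le_hitMin (hH : H.Connected) : ∃ ρ : ℕ, ∀ p, 0 ≤ p → p ≤ 1 →
    ∀ u : FreeGroup (Fin k), ENNReal.ofReal p ^ (ρ * (wlen u + 1)) ≤ Cv.hitMin p u := by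
  obtain ⟨ρ, hρ⟩ := Cv.exists_walk_along hH
  obtain ⟨r₀, hr₀⟩ := Cv.nonempty
  refine ⟨ρ, fun p h0 h1 u => Finset.le_inf' _ _ fun r hr => ?_⟩
  obtain ⟨y, hy, q, hq, -⟩ := hρ r u r₀ hr₀
  exact pow_le_connTo h0 h1 q (fun _ _ => Set.mem_univ _) hq
    (by simpa [Fib, Cv.proj_rep r hr] using Cv.proj_cls hr₀ hy)

lemma exists_wrap_le (hH : H.Connected) : ∃ ℓ : ℕ, ∀ p, 0 ≤ p → p ≤ 1 →
    ∀ d t e : FreeGroup (Fin k), wlen d = 2 → wlen e = 2 →
      ENNReal.ofReal p ^ ℓ * Cv.hit p t ≤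
        (Cv.reps.card : ℝ≥0∞) * Cv.hitMin p (d * t * e) := by
  obtain ⟨ℓ, hℓ⟩ := Cv.exists_hit_shift hH 2
  refine ⟨ℓ, fun p h0 h1 d t e hd he => ?_⟩
  obtain ⟨g, rfl⟩ := Cv.exists_lift d
  rw [hit, Finset.mul_sum]
  refine (Finset.sum_le_card_nsmul _ _ (Cv.hitMin p (Cv.π g * t * e)) fun r hr =>
    Finset.le_inf' _ _ fun r' hr' => ?_).trans (le_of_eq (nsmul_eq_mul _ _))
  rw [← Cv.prob_connFib_smul p g r t]
  refine hℓ p h0 h1 _ _ _ _ ?_ ?_
  · rw [Cv.proj_smul, Cv.proj_rep r hr, Cv.proj_rep r' hr', mul_one, wdist_comm, wdist_one_left]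
    omega
  · rw [wdist, inv_mul_cancel_left]
    omega

/-- A prefix-free set becomes a code at a bounded cost. -/
lemma exists_code (hH : H.Connected) (b : Letter k) : ∃ ℓ : ℕ, ∀ p, 0 < p → p ≤ 1 →
    ∀ t : ℝ, 0 < t → ∀ A : Finset (FreeGroup (Fin k)),
      PrefixFree (↑A : Set (FreeGroup (Fin k))) → ∃ B : Finset (FreeGroup (Fin k)),
        PrefixFree (↑B : Set (FreeGroup (Fin k))) ∧
        (∀ w ∈ B, headL w = some b ∧ lastL w = some b) ∧
        ∑ u ∈ A, Cv.hit p u ^ t ≤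
          ((Cv.reps.card : ℝ≥0∞) / ENNReal.ofReal p ^ ℓ) ^ t * ∑ w ∈ B, Cv.hitMin p w ^ t +
            (Cv.reps.card : ℝ≥0∞) ^ t := by
  classical
  obtain ⟨ℓ, hℓ⟩ := Cv.exists_wrap_le hH
  obtain ⟨Φ, hΦ, hΦA⟩ := exists_wrap Cv.two_le b b
  refine ⟨ℓ, fun p h0 h1 t ht A hA => ?_⟩
  set A₁ := A.erase 1 with hA₁
  have hA₁1 : (1 : FreeGroup (Fin k)) ∉ (↑A₁ : Set (FreeGroup (Fin k))) := by simp [hA₁]
  obtain ⟨hinj, hpf⟩ := hΦA ↑A₁ hA₁1 fun u hu v hv =>
    hA u (Finset.mem_of_mem_erase (Finset.mem_coe.1 hu)) v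
      (Finset.mem_of_mem_erase (Finset.mem_coe.1 hv))
  refine ⟨A₁.image Φ, by rwa [Finset.coe_image], fun w hw => ?_, ?_⟩
  · obtain ⟨u, hu, rfl⟩ := Finset.mem_image.1 hw
    obtain ⟨-, ha, hb, -⟩ := hΦ u (Finset.ne_of_mem_erase hu)
    exact ⟨ha, hb⟩
  calc ∑ u ∈ A, Cv.hit p u ^ t
      ≤ ∑ u ∈ insert 1 A₁, Cv.hit p u ^ t := Finset.sum_le_sum_of_subset (fun u hu => by
        rcases eq_or_ne u 1 with rfl | h
        · exact Finset.mem_insert_self _ _
        · exact Finset.mem_insert_of_mem (Finset.mem_erase.2 ⟨h, hu⟩))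
    _ = (∑ u ∈ A₁, Cv.hit p u ^ t) + Cv.hit p 1 ^ t := by
        rw [Finset.sum_insert (Finset.notMem_erase _ _), add_comm]
    _ ≤ _ := by
        refine add_le_add ?_ (ENNReal.rpow_le_rpow (Cv.hit_le_reps_card h0.le h1 _) ht.le)
        rw [Finset.sum_image hinj, Finset.mul_sum]
        refine Finset.sum_le_sum fun u hu => ?_
        obtain ⟨-, -, -, d, e, hd, he, hde, -⟩ := hΦ u (Finset.ne_of_mem_erase hu)
        rw [← ENNReal.mul_rpow_of_nonneg _ _ ht.le, hde, ← ENNReal.mul_div_right_comm]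
        refine ENNReal.rpow_le_rpow ?_ ht.le
        rw [ENNReal.le_div_iff_mul_le (.inl (pow_ne_zero _ (by simp [h0])))
          (.inl (ENNReal.pow_ne_top ENNReal.ofReal_ne_top)), mul_comm]
        exact hℓ p h0.le h1 d u e hd he

variable [H.LocallyFinite]

/-- Below the threshold the expected number of fibres met is finite. -/
lemma exists_sum_hit_le (hH : H.Connected) {p : ℝ} (h0 : 0 ≤ p) (h1 : p ≤ 1) (hp : p < pc H) :
    ∃ C : ℝ≥0∞, C ≠ ⊤ ∧ ∀ A : Finset (FreeGroup (Fin k)), ∑ u ∈ A, Cv.hit p u ≤ C := by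
  classical
  obtain ⟨C, hC⟩ := sharp_susceptibility hH Cv.quasiTransitive ⟨p, h0, h1⟩ hp
  refine ⟨(Cv.reps.card : ℝ≥0∞) * ENNReal.ofReal C, by finiteness, fun A => ?_⟩
  simp only [hit]
  rw [Finset.sum_comm]
  refine (Finset.sum_le_card_nsmul _ _ (ENNReal.ofReal C) fun r _ => ?_).trans
    (le_of_eq (nsmul_eq_mul _ _))
  simp only [prob, iSup_subtype']
  refine sum_iSup_le A _ fun f => ?_
  let U : Finset (Sym2 W) := A.biUnion fun u => (f u).1
  have hU : ↑U ⊆ H.edgeSet := by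
    intro e he
    obtain ⟨u, -, hu⟩ := Finset.mem_biUnion.1 (Finset.mem_coe.1 he)
    exact (f u).2 hu
  let Λ : Finset W := (reachable U r).filter fun z => Cv.proj z ∈ A
  let τ : W → ℝ := fun z => pr p U fun T => z ∈ cl {r} T
  have hstep : ∀ u ∈ A, pr p (f u).1 (connTo Set.univ r (Cv.Fib u)) ≤
      ∑ z ∈ Λ.filter (fun z => Cv.proj z = u), τ z := by
    intro u hu
    refine (pr_mono_set h0 h1 (Finset.subset_biUnion_of_mem (fun u => (f u).1) hu)
      (incr_connTo _ _ _)).trans (pr_le_sum h0 h1 _ (fun z T => z ∈ cl {r} T) ?_)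
    rintro S hS ⟨y, hy, hyc⟩
    rw [inPart_univ] at hyc
    have hy' : Cv.proj y = u := hy
    exact ⟨y, Finset.mem_filter.2 ⟨Finset.mem_filter.2 ⟨mem_reachable hS hyc, hy'.symm ▸ hu⟩, hy'⟩,
      hyc⟩
  refine (Finset.sum_le_sum fun u hu => ENNReal.ofReal_le_ofReal (hstep u hu)).trans ?_
  rw [← ENNReal.ofReal_sum_of_nonneg fun u _ => Finset.sum_nonneg fun z _ => pr_nonneg h0 h1 _ _,
    Finset.sum_fiberwise_of_maps_to (fun z hz => (Finset.mem_filter.1 hz).2)]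
  exact ENNReal.ofReal_le_ofReal ((hC r Λ).1 U hU)

/-- A code has total weight at most one below the threshold. -/
lemma sum_hitMin_code_le (hH : H.Connected) {p : ℝ} (h0 : 0 ≤ p) (h1 : p ≤ 1) (hp : p < pc H)
    {a : Letter k} {A : Finset (FreeGroup (Fin k))}
    (hA : PrefixFree (↑A : Set (FreeGroup (Fin k))))
    (hh : ∀ t ∈ A, headL t = some a ∧ lastL t = some a) : ∑ u ∈ A, Cv.hitMin p u ≤ 1 := by
  classical
  obtain ⟨C, hC, hCb⟩ := Cv.exists_sum_hit_le hH h0 h1 hp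
  have key : ∀ m : ℕ, (∑ u ∈ A, Cv.hitMin p u) ^ m ≤ C := by
    intro m
    rw [Finset.sum_pow']
    refine le_trans ?_ (hCb ((Fintype.piFinset fun _ : Fin m => A).image
      fun g => (List.ofFn g).prod))
    rw [Finset.sum_image (code_prod_injOn hA hh)]
    refine Finset.sum_le_sum fun g _ => le_trans (le_of_eq ?_)
      ((Cv.prod_hitMin_le h0 h1 _).trans (Cv.hitMin_le_hit p _))
    simp [List.map_ofFn, List.prod_ofFn]
  by_contra hlt
  push Not at hlt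
  have htop : ∑ u ∈ A, Cv.hitMin p u ≠ ⊤ :=
    ne_top_of_le_ne_top hC (by simpa using key 1)
  have h1' : 1 < (∑ u ∈ A, Cv.hitMin p u).toReal := by
    simpa using (ENNReal.toReal_lt_toReal ENNReal.one_ne_top htop).2 hlt
  obtain ⟨m, hm⟩ := pow_unbounded_of_one_lt C.toReal h1'
  have := ENNReal.toReal_mono hC (key m)
  rw [ENNReal.toReal_pow] at this
  linarith

include Cv in
lemma pc_pos_le_one (hH : H.Connected) : 0 < pc H ∧ pc H ≤ 1 := by
  have := Cv.infinite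
  have hpos := pc_pos hH Cv.quasiTransitive
  refine ⟨hpos, ?_⟩
  rw [pc] at hpos ⊢
  obtain ⟨x, hx⟩ : ({t : ℝ | ∃ p : unitInterval, (p : ℝ) = t ∧
      0 < bondMeasure H p
        {ω | ∃ C : (openGraph H ω).ConnectedComponent, C.supp.Infinite}} : Set ℝ).Nonempty := by
    by_contra hne
    rw [Set.not_nonempty_iff_eq_empty] at hne
    rw [hne, Real.sInf_empty] at hpos
    exact lt_irrefl _ hpos
  refine (csInf_le ⟨0, ?_⟩ hx).trans ?_
  · rintro _ ⟨q, rfl, -⟩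
    exact q.2.1
  · obtain ⟨q, rfl, -⟩ := hx
    exact q.2.2

/-- Up to and at the threshold, hitting probabilities over a prefix-free set have bounded sum. -/
theorem exists_code_bound (hH : H.Connected) : ∃ C : ℝ≥0∞, C ≠ ⊤ ∧
    ∀ p, 0 ≤ p → p ≤ pc H → ∀ A : Finset (FreeGroup (Fin k)),
      PrefixFree (↑A : Set (FreeGroup (Fin k))) → ∑ u ∈ A, Cv.hit p u ≤ C := by
  obtain ⟨hc0, hc1⟩ := Cv.pc_pos_le_one hH
  let b : Letter k := (⟨0, by have := Cv.two_le; omega⟩, true)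
  obtain ⟨ℓ, hℓ⟩ := Cv.exists_code hH b
  refine ⟨(Cv.reps.card : ℝ≥0∞) / ENNReal.ofReal (pc H / 2) ^ ℓ + Cv.reps.card,
    ENNReal.add_ne_top.2 ⟨ENNReal.div_ne_top (ENNReal.natCast_ne_top _)
      (pow_ne_zero _ (by simp [hc0])), ENNReal.natCast_ne_top _⟩, fun p h0 hp A hA => ?_⟩
  refine le_trans (Finset.sum_le_sum fun u _ => Finset.sum_le_sum fun r _ =>
    prob_mono_param h0 hp hc1 (incr_connTo _ _ _)) ?_
  have h := sum_prob_rpow_le_of_lt (H := H) (p := pc H) (A ×ˢ Cv.reps)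
    (fun i => connTo Set.univ i.2 (Cv.Fib i.1)) one_pos (show pc H / 2 < pc H by linarith)
    (C := (Cv.reps.card : ℝ≥0∞) / ENNReal.ofReal (pc H / 2) ^ ℓ + Cv.reps.card) ?_
  · simpa [Finset.sum_product] using h
  intro q hq hqp
  obtain ⟨B, hB, hBh, hBs⟩ := hℓ q (by linarith) (by linarith) 1 one_pos A hA
  simp only [ENNReal.rpow_one] at hBs
  simp only [ENNReal.rpow_one, Finset.sum_product]
  refine le_trans hBs (add_le_add ?_ le_rfl)
  refine le_trans (mul_le_mul_right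
    (Cv.sum_hitMin_code_le hH (by linarith) (by linarith) hqp hB hBh) _) ?_
  rw [mul_one]
  exact ENNReal.div_le_div_left (pow_le_pow_left' (ENNReal.ofReal_le_ofReal hq) _) _

include Cv in
theorem pc_pos_lt_one (hH : H.Connected) : 0 < pc H ∧ pc H < 1 := by
  obtain ⟨hc0, hc1⟩ := Cv.pc_pos_le_one hH
  refine ⟨hc0, lt_of_le_of_ne hc1 fun he => ?_⟩
  obtain ⟨C, hC, hCb⟩ := Cv.exists_code_bound hH
  obtain ⟨ρ, hρ⟩ := Cv.exists_pow_le_hitMin hH
  obtain ⟨n, hn⟩ := exists_nat_gt C.toReal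
  have hlow : ((sphere k n).card : ℝ≥0∞) ≤ C := by
    refine le_trans ?_ (hCb 1 zero_le_one he.ge (sphere k n)
      (prefixFree_of_length fun u hu => mem_sphere.1 (Finset.mem_coe.1 hu)))
    refine le_trans (le_of_eq ?_) (Finset.card_nsmul_le_sum _ _ 1 fun u _ => ?_)
    · simp
    · simpa using (hρ 1 zero_le_one le_rfl u).trans (Cv.hitMin_le_hit 1 u)
  have hcard : n < (sphere k n).card :=
    lt_of_lt_of_le (Nat.lt_pow_self (by have := Cv.two_le; omega))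
      (card_sphere_ge Cv.two_le n)
  have := ENNReal.toReal_mono hC hlow
  rw [ENNReal.toReal_natCast] at this
  have : (n : ℝ) < (sphere k n).card := by exact_mod_cast hcard
  linarith

theorem exists_good (hH : H.Connected) : ∃ t, 0 < t ∧ t ≤ 1 ∧ Cv.Good (pc H) t := by
  obtain ⟨hc0, hc1⟩ := Cv.pc_pos_le_one hH
  obtain ⟨ρ, hρ⟩ := Cv.exists_pow_le_hitMin hH
  set q : ℝ := pc H ^ ρ with hq
  have hq0 : 0 < q := pow_pos hc0 _
  obtain ⟨N, hN⟩ := exists_pow_lt_of_lt_one hq0 (show (1 / 2 : ℝ) < 1 by norm_num)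
  set t : ℝ := ((N + 1 : ℕ) : ℝ)⁻¹ with ht
  have ht0 : 0 < t := by positivity
  have ht1 : t ≤ 1 := inv_le_one_of_one_le₀ (by simp)
  have hqt : 1 / 2 ≤ q ^ t := by
    calc (1 / 2 : ℝ) = ((1 / 2 : ℝ) ^ (N + 1)) ^ t :=
          (Real.pow_rpow_inv_natCast (by norm_num) (Nat.succ_ne_zero N)).symm
      _ ≤ q ^ t := Real.rpow_le_rpow (by positivity)
          ((pow_le_pow_of_le_one (by norm_num) (by norm_num) N.le_succ).trans hN.le) ht0.le
  refine ⟨t, ht0, ht1, fun C hC => ?_⟩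
  obtain ⟨n, hn⟩ := pow_unbounded_of_one_lt (2 * C.toReal) (show (1 : ℝ) < 3 / 2 by norm_num)
  refine ⟨sphere k n, prefixFree_of_length fun u hu => mem_sphere.1 (Finset.mem_coe.1 hu), ?_⟩
  refine lt_of_lt_of_le ?_ (Finset.card_nsmul_le_sum _ _ (ENNReal.ofReal ((1 / 2) ^ (n + 1)))
    fun u hu => ?_)
  · rw [nsmul_eq_mul, ← ENNReal.ofReal_natCast, ← ENNReal.ofReal_mul (Nat.cast_nonneg _),
      ENNReal.lt_ofReal_iff_toReal_lt hC]
    have h3 : (3 : ℝ) ^ n ≤ (sphere k n).card := by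
      refine le_trans ?_ (Nat.cast_le.2 (card_sphere_ge Cv.two_le n))
      rw [Nat.cast_pow]
      refine pow_le_pow_left₀ (by norm_num) ?_ _
      exact_mod_cast (show 3 ≤ 2 * k - 1 by have := Cv.two_le; omega)
    calc C.toReal < (3 / 2) ^ n / 2 := by linarith
      _ = 3 ^ n * (1 / 2) ^ (n + 1) := by rw [pow_succ, div_pow, div_pow, one_pow]; ring
      _ ≤ _ := mul_le_mul_of_nonneg_right h3 (by positivity)
  · refine le_trans ?_ (ENNReal.rpow_le_rpow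
      ((hρ _ hc0.le hc1 u).trans (Cv.hitMin_le_hit _ u)) ht0.le)
    rw [← ENNReal.ofReal_pow hc0.le, ENNReal.ofReal_rpow_of_pos (pow_pos hc0 _),
      mem_sphere.1 hu, pow_mul, ← hq, ← Real.rpow_natCast_mul hq0.le, mul_comm,
      Real.rpow_mul_natCast hq0.le]
    exact ENNReal.ofReal_le_ofReal (pow_le_pow_left₀ (by norm_num) hqt _)

omit [H.LocallyFinite] in
lemma good_mono {p t u : ℝ} (h0 : 0 ≤ p) (h1 : p ≤ 1) (hu : 0 < u) (hut : u ≤ t) (_ht : t ≤ 1)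
    (h : Cv.Good p t) : Cv.Good p u := by
  intro C hC
  set K : ℝ≥0∞ := (Cv.reps.card : ℝ≥0∞) ^ (t - u)
  have hK : K ≠ ⊤ := ENNReal.rpow_ne_top_of_nonneg (by linarith) (ENNReal.natCast_ne_top _)
  obtain ⟨A, hA, hlt⟩ := h (K * C) (ENNReal.mul_ne_top hK hC)
  refine ⟨A, hA, lt_of_not_ge fun hle => not_le.2 hlt ?_⟩
  refine le_trans ?_ (mul_le_mul_right hle K)
  rw [Finset.mul_sum]
  refine Finset.sum_le_sum fun w _ => ?_
  rw [show t = (t - u) + u by ring, ENNReal.rpow_add_of_nonneg _ _ (by linarith) hu.le]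
  exact mul_le_mul_left (ENNReal.rpow_le_rpow (Cv.hit_le_reps_card h0 h1 w) (by linarith)) _

lemma not_good_one (hH : H.Connected) : ¬ Cv.Good (pc H) 1 := by
  intro h
  obtain ⟨C, hC, hb⟩ := Cv.exists_code_bound hH
  obtain ⟨A, hA, hlt⟩ := h C hC
  simp only [ENNReal.rpow_one] at hlt
  exact not_le.2 hlt (hb _ (Cv.pc_pos_le_one hH).1.le le_rfl A hA)

omit [H.LocallyFinite] in
/-- A negation of unboundedness is a bound. -/
lemma exists_bound_of_not_good {p t : ℝ} (h : ¬ Cv.Good p t) :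
    ∃ C : ℝ≥0∞, C ≠ ⊤ ∧ ∀ A : Finset (FreeGroup (Fin k)),
      PrefixFree (↑A : Set (FreeGroup (Fin k))) → ∑ u ∈ A, Cv.hit p u ^ t ≤ C := by
  simp only [Good] at h
  push Not at h
  exact h

omit [H.LocallyFinite] in
/-- Bounded regions chain along a product, the excursion staying the same. -/
lemma exists_chain {p : ℝ} (h0 : 0 ≤ p) (h1 : p ≤ 1) (B : Finset (FreeGroup (Fin k)))
    (κ : FreeGroup (Fin k) → ℝ) (ρ : ℕ) (hκ : ∀ w ∈ B, 0 ≤ κ w)
    (hB : ∀ w ∈ B, ∀ r ∈ Cv.reps, ∃ U : Finset (Sym2 W), ↑U ⊆ H.edgeSet ∧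
      (∀ e ∈ U, ∀ x ∈ e, wlen (Cv.proj x) ≤ ρ) ∧
      κ w ≤ pr p U (connTo Set.univ r (Cv.Fib w))) :
    ∀ L : List (FreeGroup (Fin k)), (∀ w ∈ L, w ∈ B) → ∀ r ∈ Cv.reps,
      ∃ U : Finset (Sym2 W), ↑U ⊆ H.edgeSet ∧
        (∀ e ∈ U, ∀ x ∈ e, ∃ j, wdist (L.take j).prod (Cv.proj x) ≤ ρ) ∧
        (L.map κ).prod ≤ pr p U (connTo Set.univ r (Cv.Fib L.prod)) := by
  classical
  intro L
  induction L with
  | nil =>
    intro _ r hr
    refine ⟨∅, by simp, by simp, le_of_eq ?_⟩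
    rw [pr_congr (R := fun _ => True) (fun S _ => iff_of_true
      ⟨r, by simpa [Fib] using Cv.proj_rep r hr, subset_cl _ _ rfl⟩ trivial), pr_true]
    rfl
  | cons w L ih =>
    intro hL r hr
    obtain ⟨hw, hL'⟩ := List.forall_mem_cons.1 hL
    obtain ⟨U₀, hU₀E, hU₀ρ, hU₀p⟩ := hB w hw r hr
    choose gf rf hrf hgr using Cv.cover
    choose V hVE hVρ hVp using fun z => ih hL' (rf z) (hrf z)
    let Z : Finset W := (reachable U₀ r).filter fun z => Cv.proj z = w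
    let U : Finset (Sym2 W) := U₀ ∪ Z.biUnion fun z => (V z).map (pairEmb (Cv.act (gf z)))
    have hπ : ∀ z ∈ Z, Cv.π (gf z) = w := fun z hz => by
      rw [← (Finset.mem_filter.1 hz).2]
      conv_rhs => rw [← hgr z, Cv.proj_smul, Cv.proj_rep _ (hrf z), mul_one]
    refine ⟨U, ?_, ?_, ?_⟩
    · intro e he
      rcases Finset.mem_union.1 (Finset.mem_coe.1 he) with he | he
      · exact hU₀E he
      · obtain ⟨z, -, he⟩ := Finset.mem_biUnion.1 he
        obtain ⟨e, he', rfl⟩ := Finset.mem_map.1 he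
        exact (pairEmb_mem _).2 (hVE z he')
    · intro e he x hx
      rcases Finset.mem_union.1 he with he | he
      · exact ⟨0, by simpa using hU₀ρ e he x hx⟩
      · obtain ⟨z, hz, he⟩ := Finset.mem_biUnion.1 he
        obtain ⟨e, he', rfl⟩ := Finset.mem_map.1 he
        rw [pairEmb_apply, Sym2.mem_map] at hx
        obtain ⟨y, hy, rfl⟩ := hx
        obtain ⟨j, hj⟩ := hVρ z e he' y hy
        refine ⟨j + 1, ?_⟩
        simpa [Cv.proj_smul, hπ z hz] using hj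
    · have hz : ∀ z ∈ Z, (L.map κ).prod ≤ pr p U (connTo Set.univ z (Cv.Fib (w * L.prod))) := by
        intro z hz
        refine (hVp z).trans ((Cv.pr_connFib_smul_le h0 h1 (gf z) _ _ _).trans ?_)
        rw [hgr z, hπ z hz]
        exact pr_mono_set h0 h1 ((Finset.subset_biUnion_of_mem
          (fun z => (V z).map (pairEmb (Cv.act (gf z)))) hz).trans Finset.subset_union_right)
          (incr_connTo _ _ _)
      have hreach : κ w ≤ pr p U (connTo Set.univ r (↑Z : Set W)) := by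
        refine (hU₀p.trans (pr_mono h0 h1 ?_)).trans
          (pr_mono_set h0 h1 Finset.subset_union_left (incr_connTo _ _ _))
        rintro S hS ⟨y, hy, hyc⟩
        exact ⟨y, Finset.mem_coe.2 (Finset.mem_filter.2
          ⟨mem_reachable ((inPart_subset _ S).trans hS) hyc, hy⟩), hyc⟩
      have hnn : 0 ≤ (L.map κ).prod := List.prod_nonneg fun a ha => by
        obtain ⟨v, hv, rfl⟩ := List.mem_map.1 ha
        exact hκ v (hL' v hv)
      simp only [List.map_cons, List.prod_cons]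
      exact (mul_le_mul_of_nonneg_right hreach hnn).trans (pr_connTo_mul_le h0 h1 U r hz)

omit [H.LocallyFinite] in
/-- An unbounded exponent gives a code with finite regions of total weight more than one. -/
lemma exists_code_regions (hH : H.Connected) {p t : ℝ} (h0 : 0 < p) (h1 : p ≤ 1) (ht0 : 0 < t)
    (ht1 : t ≤ 1) (hG : Cv.Good p t) (b : Letter k) :
    ∃ (B : Finset (FreeGroup (Fin k))) (κ : FreeGroup (Fin k) → ℝ) (ρ : ℕ),
      PrefixFree (↑B : Set (FreeGroup (Fin k))) ∧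
      (∀ w ∈ B, headL w = some b ∧ lastL w = some b) ∧ (∀ w, 0 < κ w ∧ κ w ≤ 1) ∧
      1 < ∑ w ∈ B, κ w ^ t ∧
      ∀ w ∈ B, ∀ r ∈ Cv.reps, ∃ U : Finset (Sym2 W), ↑U ⊆ H.edgeSet ∧
        (∀ e ∈ U, ∀ x ∈ e, wlen (Cv.proj x) ≤ ρ) ∧
        κ w ≤ pr p U (connTo Set.univ r (Cv.Fib w)) := by
  classical
  obtain ⟨ℓ, hwrap⟩ := Cv.exists_code hH b
  obtain ⟨ρ₁, hpow⟩ := Cv.exists_pow_le_hitMin hH
  set M : ℝ≥0∞ := ((Cv.reps.card : ℝ≥0∞) / ENNReal.ofReal p ^ ℓ) ^ t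
  set K : ℝ≥0∞ := (Cv.reps.card : ℝ≥0∞) ^ t
  have hM : M ≠ ⊤ := ENNReal.rpow_ne_top_of_nonneg ht0.le
    (ENNReal.div_ne_top (ENNReal.natCast_ne_top _) (pow_ne_zero _ (by simp [h0])))
  have hK : K ≠ ⊤ := ENNReal.rpow_ne_top_of_nonneg ht0.le (ENNReal.natCast_ne_top _)
  obtain ⟨A₀, hA₀, hAC⟩ := hG (M * 2 + K) (by finiteness)
  obtain ⟨B, hB, hBh, hBs⟩ := hwrap p h0 h1 t ht0 A₀ hA₀
  have h2 : 2 < ∑ w ∈ B, Cv.hitMin p w ^ t := lt_of_not_ge fun h =>
    not_le.2 hAC (hBs.trans (add_le_add (mul_le_mul_right h M) le_rfl))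
  have hfin : ∀ w, Cv.hitMin p w ≠ ⊤ := fun w =>
    ne_top_of_le_ne_top ENNReal.one_ne_top (Cv.hitMin_le_one h0.le h1 w)
  have hm0 : ∀ w, 0 < (Cv.hitMin p w).toReal := fun w => ENNReal.toReal_pos
    (ne_of_gt (lt_of_lt_of_le (ENNReal.pow_pos (ENNReal.ofReal_pos.2 h0) _) (hpow p h0.le h1 w)))
    (hfin w)
  have hm1 : ∀ w, (Cv.hitMin p w).toReal ≤ 1 := fun w => by
    simpa using ENNReal.toReal_mono ENNReal.one_ne_top (Cv.hitMin_le_one h0.le h1 w)
  have hreg : ∀ (w : B) (r : Cv.reps), ∃ U : Finset (Sym2 W), ↑U ⊆ H.edgeSet ∧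
      (Cv.hitMin p w.1).toReal / 2 ≤ pr p U (connTo Set.univ r.1 (Cv.Fib w.1)) := by
    intro w r
    have hlt : ENNReal.ofReal ((Cv.hitMin p w.1).toReal / 2) <
        prob H p (connTo Set.univ r.1 (Cv.Fib w.1)) := by
      calc ENNReal.ofReal ((Cv.hitMin p w.1).toReal / 2)
          < ENNReal.ofReal (Cv.hitMin p w.1).toReal :=
            (ENNReal.ofReal_lt_ofReal_iff (hm0 _)).2 (half_lt_self (hm0 _))
        _ = Cv.hitMin p w.1 := ENNReal.ofReal_toReal (hfin _)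
        _ ≤ _ := Finset.inf'_le _ r.2
    obtain ⟨U, hU, hUp⟩ := exists_lt_pr hlt
    exact ⟨U, hU, ((ENNReal.ofReal_lt_ofReal_iff_of_nonneg (half_pos (hm0 _)).le).1 hUp).le⟩
  choose U hUE hUp using hreg
  obtain ⟨ρ, hρ⟩ : ∃ ρ : ℕ, ∀ i : B × Cv.reps, ∀ e ∈ U i.1 i.2, ∀ x ∈ e,
      wlen (Cv.proj x) ≤ ρ := by
    refine ⟨Finset.univ.sup fun i : B × Cv.reps =>
      (U i.1 i.2).sup fun e => e.toFinset.sup fun x => wlen (Cv.proj x), fun i e he x hx => ?_⟩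
    have s1 := Finset.le_sup (f := fun x => wlen (Cv.proj x)) (Sym2.mem_toFinset.2 hx)
    have s2 := Finset.le_sup (f := fun e : Sym2 W => e.toFinset.sup fun x => wlen (Cv.proj x)) he
    have s3 := Finset.le_sup (f := fun i : B × Cv.reps =>
      (U i.1 i.2).sup fun e => e.toFinset.sup fun x => wlen (Cv.proj x)) (Finset.mem_univ i)
    exact s1.trans (s2.trans s3)
  refine ⟨B, fun w => (Cv.hitMin p w).toReal / 2, ρ, hB, hBh,
    fun w => ⟨half_pos (hm0 w), (half_le_self (hm0 w).le).trans (hm1 w)⟩, ?_, ?_⟩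
  swap
  · intro w hw r hr
    exact ⟨U ⟨w, hw⟩ ⟨r, hr⟩, hUE _ _, hρ (⟨w, hw⟩, ⟨r, hr⟩), hUp ⟨w, hw⟩ ⟨r, hr⟩⟩
  have hfin' : ∀ w ∈ B, Cv.hitMin p w ^ t ≠ ⊤ := fun w _ =>
    ENNReal.rpow_ne_top_of_nonneg ht0.le (hfin w)
  have h2' := (ENNReal.toReal_lt_toReal ENNReal.ofNat_ne_top (ENNReal.sum_ne_top.2 hfin')).2 h2
  rw [ENNReal.toReal_sum hfin', ENNReal.toReal_ofNat] at h2'
  simp only [← ENNReal.toReal_rpow] at h2'
  refine lt_of_lt_of_le (show (1 : ℝ) < (∑ w ∈ B, (Cv.hitMin p w).toReal ^ t) / 2 by linarith) ?_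
  rw [Finset.sum_div]
  refine Finset.sum_le_sum fun w _ => ?_
  rw [Real.div_rpow (hm0 w).le zero_le_two]
  exact div_le_div_of_nonneg_left (Real.rpow_nonneg (hm0 w).le _) (by positivity)
    (Real.rpow_le_self_of_one_le one_le_two ht1)

omit [H.LocallyFinite] in
/-- Tubes of any total weight, whatever the price `cost ρ` of a radius `ρ` is. -/
theorem exists_tubes (hH : H.Connected) {p t : ℝ} (h0 : 0 < p) (h1 : p ≤ 1) (ht0 : 0 < t)
    (ht1 : t ≤ 1) (hG : Cv.Good p t) (a : Letter k) (cost : ℕ → ℝ) :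
    ∃ (ρ n : ℕ) (A : Finset (FreeGroup (Fin k))) (κ : FreeGroup (Fin k) → ℝ),
      (∀ μ ∈ A, wlen μ = n ∧ headL μ = some a ∧ lastL μ = some a ∧ 0 < κ μ ∧ κ μ ≤ 1 ∧
        Cv.Tube p ρ μ⁻¹ (κ μ)) ∧
      cost ρ ≤ ∑ μ ∈ A, κ μ ^ t := by
  classical
  obtain ⟨B, κ, ρ, hB, hBh, hκ, hS, hU⟩ := Cv.exists_code_regions hH h0 h1 ht0 ht1 hG (opp a)
  have hκ0 : ∀ w, 0 < κ w := fun w => (hκ w).1
  have hκ1 : ∀ w, κ w ≤ 1 := fun w => (hκ w).2
  have hchain := Cv.exists_chain h0.le h1 B κ ρ (fun w _ => (hκ0 w).le) hU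
  set ℓmax := B.sup wlen
  obtain ⟨m, hm, hmS⟩ := exists_pow_div_gt hS ℓmax (cost ρ)
  set s := Fintype.piFinset fun _ : Fin m => B
  have hmem : ∀ g ∈ s, ∀ w ∈ List.ofFn g, w ∈ B := fun g hg w hw => by
    obtain ⟨i, rfl⟩ := (List.mem_ofFn' g w).1 hw
    exact Fintype.mem_piFinset.1 hg i
  have hcode := code_products (fun e => opp_ne e.symm) hB hBh
  let G : (Fin m → FreeGroup (Fin k)) → FreeGroup (Fin k) := fun g => ((List.ofFn g).prod)⁻¹
  have hlen : ∀ g ∈ s, wlen (G g) ∈ Finset.range (m * ℓmax + 1) := fun g hg => by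
    rw [Finset.mem_range, Nat.lt_succ_iff, wlen_inv, (hcode.1 _ (hmem g hg)).1]
    refine (List.sum_le_card_nsmul _ ℓmax fun x hx => ?_).trans (by simp)
    obtain ⟨w, hw, rfl⟩ := List.mem_map.1 hx
    exact Finset.le_sup (hmem g hg w hw)
  obtain ⟨n, -, hn⟩ : ∃ n ∈ Finset.range (m * ℓmax + 1),
      (∑ w ∈ B, κ w ^ t) ^ m / (m * ℓmax + 1) ≤
        ∑ g ∈ s.filter (fun g => wlen (G g) = n), ∏ i, κ (g i) ^ t := by
    refine Finset.exists_le_of_sum_le (by simp) (le_of_eq ?_)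
    rw [Finset.sum_fiberwise_of_maps_to hlen, Finset.sum_pow', Finset.sum_const,
      Finset.card_range, nsmul_eq_mul]
    push_cast
    field_simp
    rfl
  set s' := s.filter fun g => wlen (G g) = n with hs'
  have hinj : Set.InjOn G ↑s' := fun g hg g' hg' e =>
    code_prod_injOn hB hBh (Finset.mem_filter.1 hg).1 (Finset.mem_filter.1 hg').1
      (inv_injective e)
  let κ' : FreeGroup (Fin k) → ℝ := fun μ => ∏ i, κ (Function.invFunOn G (↑s') μ i)
  have hκ' : ∀ g ∈ s', κ' (G g) = ∏ i, κ (g i) := fun g hg => by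
    simp only [κ', hinj.leftInvOn_invFunOn (Finset.mem_coe.2 hg)]
  refine ⟨ρ, n, s'.image G, κ', fun μ hμ => ?_, ?_⟩
  · obtain ⟨g, hg, rfl⟩ := Finset.mem_image.1 hμ
    obtain ⟨hgs, hgn⟩ := Finset.mem_filter.1 hg
    obtain ⟨hh, hl⟩ := (hcode.1 _ (hmem g hgs)).2
      (List.length_pos_iff.1 (by simpa using hm))
    refine ⟨hgn, by rw [headL_inv, hl]; simp, by rw [lastL_inv, hh]; simp, ?_, ?_, ?_⟩
    · rw [hκ' g hg]; exact Finset.prod_pos fun i _ => hκ0 _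
    · rw [hκ' g hg]; exact Finset.prod_le_one (fun i _ => (hκ0 _).le) fun i _ => hκ1 _
    · intro r hr
      obtain ⟨V, hVE, hVρ, hVp⟩ := hchain _ (hmem g hgs) r hr
      refine ⟨V, hVE, fun e he x hx => ?_, ?_⟩
      · obtain ⟨j, hj⟩ := hVρ e he x hx
        have hpre : Pre ((List.ofFn g).take j).prod (List.ofFn g).prod :=
          (hcode.2 _ _ (fun w hw => hmem g hgs w (List.mem_of_mem_take hw)) (hmem g hgs)).2
            (List.take_prefix j _)
        refine ⟨wlen ((List.ofFn g).take j).prod, ?_, ?_⟩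
        · rw [inv_inv]; exact pre_length hpre
        · rw [inv_inv, pfx_of_pre hpre]; exact hj
      · rw [hκ' g hg, inv_inv]
        simpa [List.map_ofFn, List.prod_ofFn] using hVp
  · refine hmS.le.trans (hn.trans (le_of_eq ?_))
    rw [Finset.sum_image hinj]
    refine Finset.sum_congr rfl fun g hg => ?_
    rw [hκ' g hg, Real.finsetProd_rpow _ _ fun i _ => (hκ0 _).le]

end Vale.Agent.P165.Quot.Cov
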