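import Vale.Agent.P165.Quot.Stage
import Vale.Agent.P165.Quot.Series
import Vale.Agent.P165.Quot.Pressure

/-!
Iterating the stage along a stopping line of blocks: the reached part of a core is dominated by
hitting probabilities at many prefix-free extensions.
-/

open Finset
open scoped ENNReal

namespace Vale.Agent.P165.Quot

variable {k : ℕ}

/-- Extending a word by one whose first letter does not cancel. -/
lemma chain_ext {X Y : FreeGroup (Fin k)} {l h l' : Letter k} (hx : lastL X = some l)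
    (hy : headL Y = some h) (hy' : lastL Y = some l') (hne : h ≠ opp l) :
    Concat X Y ∧ lastL (X * Y) = some l' ∧ headL (X * Y) = headL X := by
  have hc : Concat X Y := concat_iff.2 fun z hz => by
    rw [hx, Option.some_inj] at hz
    subst hz
    rw [hy]
    simpa using hne
  refine ⟨hc, by rw [lastL_concat hc (fun h1 => by simp [h1, headL] at hy), hy'],
    headL_concat hc (fun h1 => by simp [h1, lastL] at hx)⟩

/-- Iterating a step which keeps a fraction of the points and rarely fails. -/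
lemma chain_iterate {G ι : Type*} [Monoid G] (blk : ι → G) (κ : ι → ℝ)
    (F : G → ℕ → ℝ≥0∞) (Ok : G → Prop) {Λ : ℝ} (hΛ : 0 ≤ Λ)
    (hκ : ∀ i, 0 < κ i ∧ κ i ≤ 1 / 2)
    (hstep : ∀ c, Ok c → ∀ i, Ok (c * blk i) ∧ ∀ X : ℝ, 0 < X →
      F c ⌈X⌉₊ * ENNReal.ofReal (1 - Λ / X) ≤ F (c * blk i) ⌈κ i * X⌉₊) :
    ∀ (L : List ι) (c : G) (X : ℝ), 0 < X → Ok c →
      F c ⌈X⌉₊ * ENNReal.ofReal (1 - Λ / X * (1 / (L.map κ).prod - 1)) ≤
        F (c * (L.map blk).prod) ⌈(L.map κ).prod * X⌉₊ := by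
  intro L
  induction L with
  | nil => intro c X _ _; simp
  | cons i L ih =>
    intro c X hX hc
    obtain ⟨hc', hs⟩ := hstep c hc i
    obtain ⟨hκ0, hκ1⟩ := hκ i
    simp only [List.map_cons, List.prod_cons, ← mul_assoc]
    refine le_trans ?_ ((mul_le_mul_left (hs X hX) _).trans (le_trans
      (ih _ _ (mul_pos hκ0 hX) hc') (le_of_eq (by ring_nf))))
    rw [mul_assoc]
    refine mul_le_mul_right ?_ _
    set P := (L.map κ).prod
    have hP : 0 < P := List.prod_pos fun x hx => by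
      obtain ⟨j, -, rfl⟩ := List.mem_map.1 hx
      exact (hκ j).1
    have hP1 : P ≤ 1 := by
      simp only [P]
      clear * - hκ
      induction L with
      | nil => simp
      | cons j L ih =>
        simp only [List.map_cons, List.prod_cons]
        exact (mul_le_mul (hκ j).2 ih (List.prod_nonneg fun x hx => by
          obtain ⟨i, -, rfl⟩ := List.mem_map.1 hx; exact (hκ i).1.le) (by norm_num)).trans
          (by norm_num)
    set d := Λ / X with hd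
    have hd0 : 0 ≤ d := div_nonneg hΛ hX.le
    set s := Λ / (κ i * X) * (1 / P - 1) with hs'
    have hs0 : 0 ≤ s := mul_nonneg (div_nonneg hΛ (mul_pos hκ0 hX).le)
      (by rw [sub_nonneg, le_div_iff₀ hP]; linarith)
    have hsum : d + s ≤ d * (1 / (κ i * P) - 1) := by
      have e : s = d * (1 / (κ i * P) - 1 / κ i) := by
        rw [hs', hd]; field_simp
      rw [e, ← mul_one_add]
      refine mul_le_mul_of_nonneg_left ?_ hd0
      have : 2 ≤ 1 / κ i := by rw [le_div_iff₀ hκ0]; linarith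
      linarith
    rcases le_or_gt (1 - d * (1 / (κ i * P) - 1)) 0 with h | h
    · rw [ENNReal.ofReal_of_nonpos h]
      exact zero_le
    · rw [← ENNReal.ofReal_mul (by linarith)]
      exact ENNReal.ofReal_le_ofReal (by nlinarith)

lemma prefix_map_iff' {α β : Type*} {f : α → β} (hf : Function.Injective f) {a b : List α}
    (h : a.map f <+: b.map f) : a <+: b := by
  rw [List.prefix_iff_eq_take] at h ⊢
  rw [List.length_map, ← List.map_take] at h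
  exact List.map_injective_iff.2 hf h

namespace Cov

variable {W Γ : Type*} [Group Γ] [MulAction Γ W] {H : SimpleGraph W} [DecidableEq W]
  (Cv : Cov (Γ := Γ) H k) {D : ℕ}

lemma exists_hit_near (hH : H.Connected) {p : ℝ} (hp : 0 < p) (hp1 : p ≤ 1) (ρ : ℕ) :
    ∃ C : ℝ≥0∞, C ≠ ⊤ ∧ ∀ u v, wdist u v ≤ ρ → Cv.hit p u ≤ C * Cv.hit p v := by
  obtain ⟨ℓ, hℓ⟩ := Cv.exists_hit_shift hH ρ
  have hpow : ENNReal.ofReal p ^ ℓ ≠ 0 := pow_ne_zero _ (ENNReal.ofReal_pos.2 hp).ne'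
  refine ⟨(ENNReal.ofReal p ^ ℓ)⁻¹, ENNReal.inv_ne_top.2 hpow, fun u v huv => ?_⟩
  rw [hit, hit, mul_sum]
  refine sum_le_sum fun r _ => ?_
  have := mul_le_mul_right (hℓ p hp.le hp1 r r u v (by simp) huv) (ENNReal.ofReal p ^ ℓ)⁻¹
  rwa [← mul_assoc, ENNReal.inv_mul_cancel hpow (by simp), one_mul] at this

lemma sum_manyIn_one_le_hit {p : ℝ} (h0 : 0 ≤ p) (h1 : p ≤ 1) (E : Set (Sym2 W))
    (u : FreeGroup (Fin k)) (x₀ : W) {K : ℕ} (hK : 0 < K) :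
    ∑ r ∈ Cv.reps, prob H p (manyIn E r (Cv.cls u x₀) K) ≤ Cv.hit p (u * Cv.proj x₀) := by
  refine sum_le_sum fun r _ => prob_mono h0 h1 ?_
  rintro S - ⟨Y, hY, hY'⟩
  obtain ⟨y, hy⟩ := card_pos.1 (hK.trans_le hY)
  obtain ⟨⟨g, hg, hgy⟩, hcl⟩ := hY' y hy
  refine ⟨y, ?_, cl_mono subset_rfl ?_ hcl⟩
  · simp [Fib, ← hgy, Cv.proj_smul, hg]
  · intro e he
    exact mem_inPart.2 ⟨(mem_inPart.1 he).1, trivial⟩

/-- The event of many reached landings of a word ending in the landing power. -/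
noncomputable def landP (D : ℕ) (p : ℝ) (z₀ : W) (e₀ : FreeGroup (Fin k)) (r : W)
    (c : FreeGroup (Fin k)) (K : ℕ) : ℝ≥0∞ :=
  prob H p (manyIn (Cv.outE D c) r (Cv.cls (c * e₀⁻¹) z₀) K)

/-- The reached part of a core is shared among the classes of its entries. -/
theorem halfTail_le_classes {p : ℝ} (h0 : 0 ≤ p) (h1 : p ≤ 1) {J : ℕ}
    (τ : Fin J → FreeGroup (Fin k) × W) {c : FreeGroup (Fin k)}
    (hτ : ∀ y ∈ Cv.entry D c, ∃ j, lastL c = lastL (τ j).1 ∧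
      y ∈ Cv.cls (c * (τ j).1⁻¹) (τ j).2) {K : ℕ} (hK : 0 < K) :
    Cv.halfTail D p c K ≤ ∑ j, if lastL c = lastL (τ j).1 then
      ∑ r ∈ Cv.reps, prob H p (manyIn (Cv.outE D c) r (Cv.cls (c * (τ j).1⁻¹) (τ j).2)
        ⌈(K : ℝ) / J⌉₊) else 0 := by
  classical
  rw [halfTail]
  calc ∑ r ∈ Cv.reps, prob H p (manyIn (Cv.outE D c) r (Cv.entry D c) K)
      ≤ ∑ r ∈ Cv.reps, ∑ j : Fin J, prob H p (fun S => lastL c = lastL (τ j).1 ∧
          manyIn (Cv.outE D c) r (Cv.cls (c * (τ j).1⁻¹) (τ j).2) ⌈(K : ℝ) / J⌉₊ S) := by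
        refine sum_le_sum fun r _ => ?_
        refine le_trans (prob_mono h0 h1 ?_) ((prob_exists_le h0 h1).trans
          (le_of_eq (tsum_fintype _)))
        rintro S - ⟨Y, hY, hY'⟩
        obtain ⟨y₀, hy₀⟩ := card_pos.1 (hK.trans_le hY)
        have hcls := fun (y : W) (hy : y ∈ Y) => hτ y (hY' y hy).1
        have : Nonempty (Fin J) := ⟨(hcls y₀ hy₀).choose⟩
        choose! jf hjf hjf' using hcls
        obtain ⟨j, -, hj⟩ := exists_max_image (univ : Finset (Fin J))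
          (fun j => (Y.filter fun y => jf y = j).card) univ_nonempty
        have hJ : (0 : ℝ) < J := by exact_mod_cast Fin.pos j
        have hle : (K : ℝ) / J ≤ ((Y.filter fun y => jf y = j).card : ℝ) := by
          rw [div_le_iff₀ hJ]
          have : Y.card ≤ J * (Y.filter fun y => jf y = j).card := by
            calc Y.card = ∑ i : Fin J, (Y.filter fun y => jf y = i).card :=
                  card_eq_sum_card_fiberwise fun y _ => mem_univ _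
              _ ≤ _ := (sum_le_card_nsmul _ _ _ fun i _ => hj i (mem_univ i)).trans (by simp)
          calc (K : ℝ) ≤ (Y.card : ℝ) := by exact_mod_cast hY
            _ ≤ (J : ℝ) * _ := by exact_mod_cast this
            _ = _ := mul_comm _ _
        obtain ⟨y₁, hy₁⟩ := card_pos.1 (Nat.cast_pos.1 (lt_of_lt_of_le
          (div_pos (by exact_mod_cast hK) hJ) hle))
        refine ⟨j, (mem_filter.1 hy₁).2 ▸ hjf y₁ (mem_filter.1 hy₁).1,
          Y.filter (fun y => jf y = j), Nat.ceil_le.2 hle, fun y hy => ?_⟩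
        obtain ⟨hyY, rfl⟩ := mem_filter.1 hy
        exact ⟨hjf' y hyY, (hY' y hyY).2⟩
    _ = ∑ j : Fin J, ∑ r ∈ Cv.reps, prob H p (fun S => lastL c = lastL (τ j).1 ∧
          manyIn (Cv.outE D c) r (Cv.cls (c * (τ j).1⁻¹) (τ j).2) ⌈(K : ℝ) / J⌉₊ S) := sum_comm
    _ ≤ _ := sum_le_sum fun j _ => by
        split_ifs with h
        · exact sum_le_sum fun r _ => prob_mono h0 h1 fun S _ hS => hS.2
        · refine le_of_eq (sum_eq_zero fun r _ => le_antisymm (prob_le fun U _ => ?_) zero_le)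
          simp [pr, h]

/-- Running the line after a first stage. -/
theorem exists_line_bound {ι : Type*} [Fintype ι] [DecidableEq ι] (hH : H.Connected) {p t : ℝ}
    (hp : 0 < p) (hp1 : p ≤ 1) (ht : 0 < t) {e₀ : FreeGroup (Fin k)} {a hd : Letter k} (z₀ : W)
    (hhd : hd ≠ opp a)
    (blk : ι → FreeGroup (Fin k)) (hinj : Function.Injective blk) {N : ℕ}
    (hblk : ∀ i, headL (blk i) = some hd ∧ lastL (blk i) = some a ∧ wlen (blk i) = N)
    (κ : ι → ℝ) {m Λ : ℝ} (hm : 0 < m) (hmle : ∀ i, m ≤ κ i) (hκ : ∀ i, κ i ≤ 1 / 2)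
    (hsum : 1 ≤ ∑ i, κ i ^ t) (hΛ : 0 ≤ Λ)
    (hstep : ∀ r c, lastL c = some a → ∀ i, ∀ X : ℝ, 0 < X →
      Cv.landP D p z₀ e₀ r c ⌈X⌉₊ * ENNReal.ofReal (1 - Λ / X) ≤
        Cv.landP D p z₀ e₀ r (c * blk i) ⌈κ i * X⌉₊)
    (v₀ : FreeGroup (Fin k)) {h₀ : Letter k} (hv₀ : headL v₀ = some h₀) (hv₀' : lastL v₀ = some a)
    (c₀ q : FreeGroup (Fin k)) (x₀ : W) (e : Letter k) (he : h₀ ≠ opp e) {κ₀ J : ℝ} (hκ₀ : 0 < κ₀)
    (hJ : 0 < J) {L₀ : ℕ}
    (hfirst : ∀ u : FreeGroup (Fin k), lastL (u * c₀) = lastL c₀ → ∀ (r : W) (K : ℕ), 0 < K →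
      prob H p (manyIn (Cv.outE D (u * c₀)) r (Cv.cls u x₀) K) *
          ENNReal.ofReal (1 - 4 * L₀ / (κ₀ * K)) ≤
        Cv.landP D p z₀ e₀ r (u * c₀ * q * gen e * v₀) ⌈κ₀ * K / 2⌉₊) :
    ∃ C : ℝ≥0∞, C ≠ ⊤ ∧
      ∀ (c : FreeGroup (Fin k)) (K : ℕ), lastL c = lastL c₀ → 0 < K →
        Concat (c * q) (gen e) → ∃ V : Finset (FreeGroup (Fin k)),
          PrefixFree (↑V : Set (FreeGroup (Fin k))) ∧ (K : ℝ≥0∞) ^ t ≤ C * V.card ∧
          ∀ v ∈ V, Concat (c * q * gen e) v ∧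
            ∑ r ∈ Cv.reps, prob H p (manyIn (Cv.outE D c) r (Cv.cls (c * c₀⁻¹) x₀)
              ⌈(K : ℝ) / J⌉₊) ≤ C * Cv.hit p (c * q * gen e * v) := by
  classical
  obtain ⟨Cz, hCz, hCz'⟩ := Cv.exists_hit_near hH hp hp1 (wdist (Cv.proj z₀) e₀)
  obtain ⟨Cs, hCs, hCs'⟩ := Cv.exists_hit_near hH hp hp1 (wdist (Cv.proj x₀) (c₀ * q * gen e))
  set Λ' := max Λ 1 with hΛ'def
  have hΛ'0 : 0 < Λ' := lt_max_of_lt_right one_pos
  set K₁ : ℝ := J * max (16 * L₀ / κ₀) (8 * Λ' / (m * κ₀)) with hK₁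
  set cf : ℝ := κ₀ / 2 / J * m / (4 * Λ') with hcf
  have hcf0 : 0 < cf := by positivity
  have hκ0' : ∀ i, 0 < κ i ∧ κ i ≤ 1 / 2 := fun i => ⟨lt_of_lt_of_le hm (hmle i), hκ i⟩
  have hcode := code_products (A := Set.range blk) (a := hd) (b := a)
    (fun h => hhd (by rw [h, opp_opp]))
    (prefixFree_of_length (n := N) (by rintro _ ⟨i, rfl⟩; exact (hblk i).2.2))
    (by rintro _ ⟨i, rfl⟩; exact ⟨(hblk i).1, (hblk i).2.1⟩)
  have hmem : ∀ l : List ι, ∀ x ∈ l.map blk, x ∈ Set.range blk := fun l x hx => by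
    obtain ⟨i, -, rfl⟩ := List.mem_map.1 hx; exact ⟨i, rfl⟩
  have hcv : ∀ l : List ι, Concat v₀ (l.map blk).prod ∧
      headL (v₀ * (l.map blk).prod) = some h₀ := fun l => by
    rcases l with _ | ⟨i, l⟩
    · simpa [concat_one_right] using hv₀
    · obtain ⟨p1, p2⟩ := (hcode.1 _ (hmem (i :: l))).2 (by simp)
      obtain ⟨c1, -, c3⟩ := chain_ext hv₀' p1 p2 hhd
      exact ⟨c1, c3.trans hv₀⟩
  have hpre : ∀ l l' : List ι, Pre (v₀ * (l.map blk).prod) (v₀ * (l'.map blk).prod) →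
      l <+: l' := fun l l' h => by
    rw [pre_mul_iff (hcv l).1 (hcv l').1] at h
    exact prefix_map_iff' hinj ((hcode.2 _ _ (hmem l) (hmem l')).1 h)
  refine ⟨max (Cs + 2 * Cz) (ENNReal.ofReal (max (K₁ ^ t) ((cf ^ t)⁻¹))),
    max_ne_top (ENNReal.add_ne_top.2 ⟨hCs, ENNReal.mul_ne_top (by simp) hCz⟩)
      ENNReal.ofReal_ne_top, fun c K hc hK hcq => ?_⟩
  have hK0 : (0 : ℝ) < K := by exact_mod_cast hK
  have hX0 : 0 < (K : ℝ) / J := div_pos hK0 hJ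
  rcases lt_or_ge (K : ℝ) K₁ with hsmall | hlarge
  · refine ⟨{1}, prefixFree_of_length (n := 0) (by simp), ?_, fun v hv => ?_⟩
    · rw [card_singleton, Nat.cast_one, mul_one]
      refine le_trans ?_ (le_max_right _ _)
      rw [← ENNReal.ofReal_natCast, ENNReal.ofReal_rpow_of_pos hK0]
      exact ENNReal.ofReal_le_ofReal ((Real.rpow_le_rpow hK0.le hsmall.le ht.le).trans
        (le_max_left _ _))
    · rw [mem_singleton.1 hv, mul_one]
      refine ⟨concat_one_right, (Cv.sum_manyIn_one_le_hit hp.le hp1 _ _ _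
        (Nat.ceil_pos.2 hX0)).trans ((hCs' _ _ (le_of_eq ?_)).trans
        (mul_le_mul_left ((le_add_right le_rfl).trans (le_max_left _ _)) _))⟩
      rw [show c * q * gen e = c * c₀⁻¹ * (c₀ * q * gen e) by simp [mul_assoc], wdist_mul_left]
  set X₁ := κ₀ / 2 * ((K : ℝ) / J) with hX₁
  have hX₁0 : 0 < X₁ := mul_pos (by positivity) hX0
  set X := X₁ * m / (4 * Λ') with hXdef
  have hKJ : max (16 * (L₀ : ℝ) / κ₀) (8 * Λ' / (m * κ₀)) ≤ (K : ℝ) / J := by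
    rw [le_div_iff₀ hJ, mul_comm]
    exact hlarge
  have hX1 : 1 ≤ X := by
    have := (le_max_right _ _).trans hKJ
    rw [div_le_iff₀ (by positivity)] at this
    rw [hXdef, hX₁, le_div_iff₀ (by positivity)]
    linarith
  obtain ⟨Ls, hLs1, hLs2, hLs3⟩ := exists_stopping_line hm hmle hκ ht hsum hX1
  refine ⟨Ls.image fun l => v₀ * (l.map blk).prod, ?_, ?_, fun v hv => ?_⟩
  · intro x hx y hy hxy
    simp only [coe_image, Set.mem_image, mem_coe] at hx hy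
    obtain ⟨l, hl, rfl⟩ := hx
    obtain ⟨l', hl', rfl⟩ := hy
    rw [hLs1 l hl l' hl' (hpre l l' hxy)]
  · rw [card_image_of_injOn fun l hl l' hl' h => hLs1 l hl l' hl' (hpre l l' (by
      rw [h]; exact pre_refl))]
    calc (K : ℝ≥0∞) ^ t = ENNReal.ofReal ((K : ℝ) ^ t) := by
          rw [← ENNReal.ofReal_natCast, ENNReal.ofReal_rpow_of_pos hK0]
      _ ≤ ENNReal.ofReal ((cf ^ t)⁻¹ * (Ls.card : ℝ)) := ENNReal.ofReal_le_ofReal (by
          rw [le_inv_mul_iff₀ (Real.rpow_pos_of_pos hcf0 t), ← Real.mul_rpow hcf0.le hK0.le]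
          refine le_trans (le_of_eq ?_) hLs3
          rw [hcf, hXdef, hX₁]
          ring_nf)
      _ ≤ _ := by
          rw [ENNReal.ofReal_mul (by positivity), ENNReal.ofReal_natCast]
          exact mul_le_mul_left ((ENNReal.ofReal_le_ofReal (le_max_right _ _)).trans
            (le_max_right _ _)) _
  obtain ⟨l, hl, rfl⟩ := mem_image.1 hv
  have hce : lastL (c * q * gen e) = some e := by
    rw [lastL_concat hcq (fun h => by simpa [h] using wlen_gen (x := e)), lastL_gen]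
  refine ⟨concat_iff.2 fun z hz => ?_, ?_⟩
  · rw [hce, Option.some_inj] at hz
    subst hz
    rw [(hcv l).2]
    simpa using he
  set c₁ := c * q * gen e * v₀ with hc₁
  have hok : lastL c₁ = some a := (chain_ext hce hv₀ hv₀' he).2.1
  have hokstep : ∀ c', lastL c' = some a → ∀ i, lastL (c' * blk i) = some a := fun c' hc' i =>
    (chain_ext hc' (hblk i).1 (hblk i).2.1 hhd).2.1
  have hpr : (0 : ℝ) < (l.map κ).prod := List.prod_pos fun x hx => by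
    obtain ⟨j, -, rfl⟩ := List.mem_map.1 hx; exact (hκ0' j).1
  have hlo := (hLs2 l hl).1
  rw [hXdef, div_div_eq_mul_div, div_le_iff₀ (by positivity)] at hlo
  have h6 : Λ / X₁ * (1 / (l.map κ).prod) ≤ 1 / 4 := by
    rw [div_mul_div_comm, mul_one, div_le_iff₀ (by positivity)]
    have := le_max_left Λ 1
    rw [← hΛ'def] at this
    nlinarith
  have h5 : Λ / X₁ * (1 / (l.map κ).prod - 1) ≤ 1 / 4 := by
    have : 0 ≤ Λ / X₁ := by positivity
    linarith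
  have hfin : ∀ r, prob H p (manyIn (Cv.outE D c) r (Cv.cls (c * c₀⁻¹) x₀) ⌈(K : ℝ) / J⌉₊) ≤
      2 * Cv.landP D p z₀ e₀ r (c₁ * (l.map blk).prod) ⌈(l.map κ).prod * X₁⌉₊ := by
    intro r
    have s1 := hfirst (c * c₀⁻¹) (by rw [inv_mul_cancel_right]; exact hc) r ⌈(K : ℝ) / J⌉₊
      (Nat.ceil_pos.2 hX0)
    rw [inv_mul_cancel_right] at s1
    have hKc : (K : ℝ) / J ≤ (⌈(K : ℝ) / J⌉₊ : ℝ) := Nat.le_ceil _
    have s2 : prob H p (manyIn (Cv.outE D c) r (Cv.cls (c * c₀⁻¹) x₀) ⌈(K : ℝ) / J⌉₊) *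
        ENNReal.ofReal (3 / 4) ≤ Cv.landP D p z₀ e₀ r c₁ ⌈X₁⌉₊ := by
      refine le_trans (mul_le_mul_right (ENNReal.ofReal_le_ofReal ?_) _)
        (s1.trans (prob_manyIn_anti hp.le hp1 _ _ _ (Nat.ceil_mono ?_)))
      · have := (le_max_left _ _).trans (hKJ.trans hKc)
        rw [div_le_iff₀ hκ₀] at this
        have h4 : 4 * (L₀ : ℝ) / (κ₀ * ⌈(K : ℝ) / J⌉₊) ≤ 1 / 4 := by
          have : (0 : ℝ) < ⌈(K : ℝ) / J⌉₊ := hX0.trans_le hKc
          rw [div_le_iff₀ (by positivity)]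
          linarith
        linarith
      · rw [hX₁]
        nlinarith
    have s3 : Cv.landP D p z₀ e₀ r c₁ ⌈X₁⌉₊ * ENNReal.ofReal (3 / 4) ≤
        Cv.landP D p z₀ e₀ r (c₁ * (l.map blk).prod) ⌈(l.map κ).prod * X₁⌉₊ :=
      le_trans (mul_le_mul_right (ENNReal.ofReal_le_ofReal (by linarith)) _)
        (chain_iterate blk κ (Cv.landP D p z₀ e₀ r) (fun c => lastL c = some a) hΛ hκ0'
          (fun c' hc' i => ⟨hokstep c' hc' i, hstep r c' hc' i⟩) l c₁ X₁ hX₁0 hok)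
    have s4 := (mul_le_mul_left s2 (ENNReal.ofReal (3 / 4))).trans s3
    rw [mul_assoc, ← ENNReal.ofReal_mul (by norm_num)] at s4
    calc prob H p (manyIn (Cv.outE D c) r (Cv.cls (c * c₀⁻¹) x₀) ⌈(K : ℝ) / J⌉₊)
        = prob H p (manyIn (Cv.outE D c) r (Cv.cls (c * c₀⁻¹) x₀) ⌈(K : ℝ) / J⌉₊) *
            ENNReal.ofReal (3 / 4 * (3 / 4)) * ENNReal.ofReal (16 / 9) := by
          rw [mul_assoc, ← ENNReal.ofReal_mul (by norm_num)]
          norm_num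
      _ ≤ Cv.landP D p z₀ e₀ r (c₁ * (l.map blk).prod) ⌈(l.map κ).prod * X₁⌉₊ * 2 := by
          refine mul_le_mul' s4 ?_
          rw [show (2 : ℝ≥0∞) = ENNReal.ofReal 2 by simp]
          exact ENNReal.ofReal_le_ofReal (by norm_num)
      _ = _ := mul_comm _ _
  refine (sum_le_sum fun r _ => hfin r).trans ?_
  rw [← mul_sum]
  refine le_trans (mul_le_mul_right ((Cv.sum_manyIn_one_le_hit hp.le hp1 _ _ _
    (Nat.ceil_pos.2 (mul_pos hpr hX₁0))).trans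
      (hCz' _ (c * q * gen e * (v₀ * (l.map blk).prod)) (le_of_eq ?_))) _) ?_
  · rw [hc₁, show c * q * gen e * (v₀ * (l.map blk).prod) =
      c * q * gen e * v₀ * (l.map blk).prod * e₀⁻¹ * e₀ by simp [mul_assoc], wdist_mul_left]
  · rw [← mul_assoc]
    exact mul_le_mul_left (le_trans (le_add_left le_rfl) (le_max_left _ _)) _

/-- The step of one block, in the form used along the line. -/
theorem exists_block_step {ρ₀ : ℕ} (hρ : Cv.WalkBound ρ₀) (hD : ρ₀ < D) {a : Letter k} {M : ℕ}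
    (hM : ρ₀ < M) {z₀ r₀ : W} (hz₀ : z₀ ∈ Cv.entry D (lpow a M)) (hr₀ : r₀ ∈ Cv.reps)
    (P₀ : H.Walk r₀ z₀) (hP₀ : ∀ e ∈ P₀.edges, e ∈ Cv.outE D (lpow a M))
    (hP₀' : ∀ w ∈ P₀.support, ∃ i ≤ M + D + ρ₀ + 1, wdist (lpow a i) (Cv.proj w) ≤ ρ₀)
    {q : FreeGroup (Fin k)} (hq : Concat (lpow a M) q) (hq2 : 2 * D ≤ wlen q) {rd d : W}
    (hrd : rd ∈ Cv.reps) (hd : d ∈ Cv.cls (lpow a M * q) rd) (P : H.Walk z₀ d)
    (hP : ∀ w ∈ P.support, w ∈ Cv.core D (lpow a M)) (n₁ n₂ : ℕ) :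
    ∃ ℓ : ℕ, ∀ (ρ n : ℕ) (m₁ b : FreeGroup (Fin k)) (A : Finset (FreeGroup (Fin k))),
      wlen m₁ = n₁ → wlen b = n₂ → ρ ≤ n₁ → ρ + Cv.R * (P.length + 1) < n₂ + M →
      (∀ μ : A, headL (q * m₁ * (μ : FreeGroup (Fin k)) * b * lpow a M) = headL q ∧
        lastL (q * m₁ * (μ : FreeGroup (Fin k)) * b * lpow a M) = some a ∧
        wlen (q * m₁ * (μ : FreeGroup (Fin k)) * b * lpow a M) = wlen q + n₁ + n + n₂ + M) →
      ∀ p : ℝ, 0 < p → p < 1 → ∀ κ : FreeGroup (Fin k) → ℝ,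
      (∀ μ : A, wlen (μ : FreeGroup (Fin k)) = n ∧ 0 < κ μ ∧ Cv.Tube p ρ (μ : FreeGroup (Fin k))⁻¹ (κ μ)) →
      ∀ m : ℝ, 0 < m → (∀ μ : A, m ≤ p ^ ℓ * κ μ / 2) →
      ∃ Λ : ℝ, 0 ≤ Λ ∧ ∀ r c, lastL c = some a → ∀ μ : A, ∀ X : ℝ, 0 < X →
        Cv.landP D p z₀ (lpow a M) r c ⌈X⌉₊ * ENNReal.ofReal (1 - Λ / X) ≤
          Cv.landP D p z₀ (lpow a M) r (c * (q * m₁ * (μ : FreeGroup (Fin k)) * b * lpow a M))
            ⌈p ^ ℓ * κ μ / 2 * X⌉₊ := by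
  classical
  have haM : lastL (lpow a M) = some a := lastL_lpow a (by omega)
  have hc0 : lpow a M ≠ 1 := fun h => by simp [h, lastL] at haM
  obtain ⟨ℓ, hℓ⟩ := Cv.exists_stage_step hρ hD hc0 hz₀ hq2 hrd hd P hP a hM hr₀ P₀ hP₀ hP₀' n₁ n₂
  refine ⟨ℓ, fun ρ n m₁ b A hm₁ hb h1 h2 hblk p hp hp1 κ hκ m hm hmle => ?_⟩
  have h : ∀ μ : A, ∃ L : ℕ, _ := fun μ => by
    obtain ⟨hn, hκ0, hT⟩ := hκ μ
    refine hℓ ρ m₁ μ b hm₁ hb h1 h2 ?_ p hp hp1 (κ μ) hκ0 hT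
    obtain ⟨e1, e2, e3⟩ := hblk μ
    have c : Concat (lpow a M) (q * m₁ * (μ : FreeGroup (Fin k)) * b * lpow a M) :=
      concat_iff.2 fun z hz => e1 ▸ concat_iff.1 hq z hz
    rw [show lpow a M * q * m₁ * (μ : FreeGroup (Fin k)) * b * lpow a M = lpow a M * (q * m₁ * (μ : FreeGroup (Fin k)) * b * lpow a M) by
      simp [mul_assoc], show wlen (lpow a M * (q * m₁ * (μ : FreeGroup (Fin k)) * b * lpow a M)) = _ from c, e3,
      wlen_lpow, hn]
    omega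
  choose L hL using h
  set Lm := (Finset.univ : Finset A).sup L with hLm
  refine ⟨2 * Lm / m, by positivity, fun r c hc μ X hX => ?_⟩
  have hK : 0 < ⌈X⌉₊ := Nat.ceil_pos.2 hX
  have h := hL μ (c * (lpow a M)⁻¹) (by rw [inv_mul_cancel_right]; exact hc.trans haM.symm) r _ hK
  rw [show c * (lpow a M)⁻¹ * (lpow a M * q * m₁ * (μ : FreeGroup (Fin k)) * b * lpow a M) =
      c * (q * m₁ * (μ : FreeGroup (Fin k)) * b * lpow a M) by simp [mul_assoc],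
    show c * (lpow a M)⁻¹ * (lpow a M * q * m₁ * (μ : FreeGroup (Fin k)) * b) =
      c * (q * m₁ * (μ : FreeGroup (Fin k)) * b * lpow a M) * (lpow a M)⁻¹ by simp [mul_assoc],
    inv_mul_cancel_right] at h
  obtain ⟨-, hκ0, -⟩ := hκ μ
  have hXK : X ≤ (⌈X⌉₊ : ℝ) := Nat.le_ceil X
  refine le_trans (mul_le_mul_right (ENNReal.ofReal_le_ofReal (sub_le_sub_left ?_ _)) _)
    (h.trans (prob_manyIn_anti hp.le hp1.le _ _ _ (Nat.ceil_mono ?_)))
  · have h0 : 0 < p ^ ℓ * κ μ / 2 := hm.trans_le (hmle μ)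
    have hLμ : (L μ : ℝ) ≤ Lm := by exact_mod_cast le_sup (f := L) (mem_univ μ)
    have e : 4 * (L μ : ℝ) / (p ^ ℓ * κ μ * ⌈X⌉₊) = 2 * L μ / (p ^ ℓ * κ μ / 2 * ⌈X⌉₊) := by
      field_simp
      ring
    rw [e, div_div]
    have := hmle μ
    gcongr
  · have : 0 ≤ p ^ ℓ * κ μ := by positivity
    nlinarith

/-- The first stage from an entry type, followed by a side letter. -/
theorem exists_first_step {ρ₀ : ℕ} (hρ : Cv.WalkBound ρ₀) (hD : ρ₀ < D) {a : Letter k} {M : ℕ}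
    (hM : ρ₀ < M) {z₀ r₀ : W} (hr₀ : r₀ ∈ Cv.reps)
    (P₀ : H.Walk r₀ z₀) (hP₀ : ∀ e ∈ P₀.edges, e ∈ Cv.outE D (lpow a M))
    (hP₀' : ∀ w ∈ P₀.support, ∃ i ≤ M + D + ρ₀ + 1, wdist (lpow a i) (Cv.proj w) ≤ ρ₀)
    {c₀ : FreeGroup (Fin k)} (hc₀ : c₀ ≠ 1) {x₀ : W} (hx₀ : x₀ ∈ Cv.entry D c₀)
    {q : FreeGroup (Fin k)} (hq : Concat c₀ q) (hq2 : 2 * D ≤ wlen q) {rd d : W}
    (hrd : rd ∈ Cv.reps) (hd : d ∈ Cv.cls (c₀ * q) rd) (P : H.Walk x₀ d)
    (hP : ∀ w ∈ P.support, w ∈ Cv.core D c₀) (n₁ n₂ : ℕ) :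
    ∃ ℓ : ℕ, ∀ (ρ : ℕ) (e : Letter k) (w μ b : FreeGroup (Fin k)) (h : Letter k),
      Concat (c₀ * q) (gen e) → headL w = some h → h ≠ opp e → wlen (gen e * w) = n₁ →
      wlen b = n₂ → ρ ≤ n₁ → ρ + Cv.R * (P.length + 1) < n₂ + M →
      headL (w * μ * b * lpow a M) = some h →
      wlen (w * μ * b * lpow a M) + 1 = n₁ + wlen μ + n₂ + M →
      ∀ p : ℝ, 0 < p → p < 1 → ∀ κ : ℝ, 0 < κ → Cv.Tube p ρ μ⁻¹ κ →
      ∃ L₀ : ℕ, ∀ u : FreeGroup (Fin k), lastL (u * c₀) = lastL c₀ → ∀ (r : W) (K : ℕ), 0 < K →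
        prob H p (manyIn (Cv.outE D (u * c₀)) r (Cv.cls u x₀) K) *
            ENNReal.ofReal (1 - 4 * L₀ / (p ^ ℓ * κ * K)) ≤
          Cv.landP D p z₀ (lpow a M) r (u * c₀ * q * gen e * (w * μ * b * lpow a M))
            ⌈p ^ ℓ * κ * K / 2⌉₊ := by
  obtain ⟨ℓ, hℓ⟩ := Cv.exists_stage_step hρ hD hc₀ hx₀ hq2 hrd hd P hP a hM hr₀ P₀ hP₀ hP₀' n₁ n₂
  refine ⟨ℓ, fun ρ e w μ b h hce hwh hhe hwn hb h1 h2 hhead hlen p hp hp1 κ hκ hT => ?_⟩
  have hcl : lastL (c₀ * q * gen e) = some e := by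
    rw [lastL_concat hce (fun h => by simpa [h] using wlen_gen (x := e)), lastL_gen]
  have hc : Concat (c₀ * q * gen e) (w * μ * b * lpow a M) := concat_iff.2 fun z hz => by
    rw [hcl, Option.some_inj] at hz
    subst hz
    rw [hhead]
    simpa using hhe
  obtain ⟨L₀, hL₀⟩ := hℓ ρ (gen e * w) μ b hwn hb h1 h2 (by
    rw [show c₀ * q * (gen e * w) * μ * b * lpow a M = c₀ * q * gen e * (w * μ * b * lpow a M) by
      simp [mul_assoc], show wlen (_ * (w * μ * b * lpow a M)) = _ from hc,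
      show wlen (_ * gen e) = _ from hce, show wlen (c₀ * q) = _ from hq, wlen_gen]
    omega) p hp hp1 κ hκ hT
  refine ⟨L₀, fun u hu r K hK => ?_⟩
  have := hL₀ u hu r K hK
  rw [landP]
  rwa [show u * c₀ * q * gen e * (w * μ * b * lpow a M) =
      u * (c₀ * q * (gen e * w) * μ * b * lpow a M) by simp [mul_assoc],
    show u * (c₀ * q * (gen e * w) * μ * b * lpow a M) * (lpow a M)⁻¹ =
      u * (c₀ * q * (gen e * w) * μ * b) by simp [mul_assoc]]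

/-- At a parameter where the sums of `t`-th powers are unbounded there are branches with exponent
`t`. -/
theorem exists_half_branches [H.LocallyFinite] (hH : H.Connected) {ρ₀ : ℕ}
    (hρ : Cv.WalkBound ρ₀) (hD : ρ₀ < D) {p t : ℝ} (hp : 0 < p) (hp1 : p < 1) (ht : 0 < t)
    (ht1 : t ≤ 1) (hG : Cv.Good p t) : Cv.HalfBranches D p t := by
  classical
  have hk := Cv.two_le
  let a : Letter k := (⟨0, by omega⟩, true)
  set M := ρ₀ + 1 with hMdef
  have hM : ρ₀ < M := by omega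
  have haM : lastL (lpow a M) = some a := lastL_lpow a (by omega)
  have hhM : headL (lpow a M) = some a := headL_lpow a (by omega)
  have haa : a ≠ opp a := fun h => opp_ne h.symm
  obtain ⟨z₀, hz₀, r₀, hr₀, P₀, hP₀, hP₀'⟩ := Cv.exists_landing (D := D) hρ a (by omega : 0 < M)
  obtain ⟨qs, hqs, hqs2, rs, hrs, ds, hds, Ps, hPs⟩ := Cv.exists_branch_walk hρ hD hz₀
  have hqs1 : qs ≠ 1 := fun h => by rw [h, wlen_one] at hqs2; omega
  obtain ⟨lqs, hlqs⟩ := Option.ne_none_iff_exists'.1 (fun h => hqs1 (lastL_eq_none.1 h))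
  obtain ⟨hqsh, hhqs⟩ := Option.ne_none_iff_exists'.1 (fun h => hqs1 (headL_eq_none.1 h))
  have hqsa : hqsh ≠ opp a := fun h => concat_iff.1 hqs a haM (by rw [hhqs, h])
  obtain ⟨T, hT1, hT2⟩ := Cv.exists_types D
  have hbr := fun τ : T => Cv.exists_branch_walk hρ hD (hT1 τ.1 τ.2).2
  choose qt hqt hqt2 rt hrt dt hdt Pt hPt using hbr
  set PL := Ps.length + (Finset.univ : Finset T).sup fun τ => (Pt τ).length with hPL
  let n₁ : ℕ → ℕ := fun ρ => ρ + 3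
  let n₂ : ℕ → ℕ := fun ρ => ρ + Cv.R * (PL + 1) + 3
  have hblock := fun ρ => Cv.exists_block_step hρ hD hM hz₀ hr₀ P₀ hP₀ hP₀' hqs hqs2 hrs hds Ps
    hPs (n₁ ρ) (n₂ ρ)
  choose ℓ hℓ using hblock
  have hfirst := fun (τ : T) (ρ : ℕ) => Cv.exists_first_step hρ hD hM hr₀ P₀ hP₀ hP₀'
    (hT1 τ.1 τ.2).1 (hT1 τ.1 τ.2).2 (hqt τ) (hqt2 τ) (hrt τ) (hdt τ) (Pt τ) (hPt τ)
    (n₁ ρ + 1) (n₂ ρ)
  choose ℓ0 hℓ0 using hfirst
  obtain ⟨ρ, n, A, κ, hA, hcost⟩ := Cv.exists_tubes hH hp hp1.le ht ht1 hG a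
    (fun ρ => ((p ^ ℓ ρ / 2) ^ t)⁻¹)
  have hpl : 0 < p ^ ℓ ρ ∧ p ^ ℓ ρ ≤ 1 := ⟨pow_pos hp _, pow_le_one₀ hp.le hp1.le⟩
  have hκpos : ∀ μ : A, 0 < κ μ := fun μ => (hA μ.1 μ.2).2.2.2.1
  set κb : A → ℝ := fun μ => p ^ ℓ ρ * κ μ / 2 with hκb
  have hκb0 : ∀ μ, 0 < κb μ ∧ κb μ ≤ 1 / 2 := fun μ => by
    obtain ⟨-, -, -, h1, h2, -⟩ := hA μ.1 μ.2
    obtain ⟨h3, h4⟩ := hpl
    simp only [hκb]
    refine ⟨by positivity, ?_⟩
    nlinarith
  have hsum : 1 ≤ ∑ μ : A, κb μ ^ t := by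
    have hz : ∀ μ : A, κb μ ^ t = (p ^ ℓ ρ / 2) ^ t * κ μ ^ t := fun μ => by
      rw [← Real.mul_rpow (by positivity) (hκpos μ).le]
      simp only [hκb]
      ring_nf
    simp only [hz, ← mul_sum]
    rw [Finset.sum_coe_sort A (fun μ => κ μ ^ t)]
    have hpos : 0 < (p ^ ℓ ρ / 2) ^ t := Real.rpow_pos_of_pos (by linarith [hpl.1]) t
    have := mul_le_mul_of_nonneg_left hcost hpos.le
    rwa [mul_inv_cancel₀ hpos.ne'] at this
  have hAne : A.Nonempty := by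
    rcases A.eq_empty_or_nonempty with h | h
    · subst h; simp at hsum; linarith
    · exact h
  set m := A.attach.inf' hAne.attach κb
  have hm0 : 0 < m := (lt_inf'_iff _).2 fun μ _ => (hκb0 μ).1
  have hmle : ∀ μ, m ≤ κb μ := fun μ => inf'_le _ (mem_attach _ μ)
  obtain ⟨f1, -, hf1, -⟩ := exists_letter hk a (opp lqs) a
  obtain ⟨m₁, hm₁, hm₁h, hm₁l⟩ := exists_word hk f1 a (show 3 ≤ n₁ ρ by simp only [n₁]; omega)
  obtain ⟨b, hb, hbh, hbl⟩ := exists_word hk a a (show 3 ≤ n₂ ρ by simp only [n₂]; omega)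
  have hblk : ∀ μ : A, headL (qs * m₁ * (μ : FreeGroup (Fin k)) * b * lpow a M) = headL qs ∧
      lastL (qs * m₁ * (μ : FreeGroup (Fin k)) * b * lpow a M) = some a ∧
      wlen (qs * m₁ * (μ : FreeGroup (Fin k)) * b * lpow a M) = wlen qs + n₁ ρ + n + n₂ ρ + M := fun μ => by
    obtain ⟨h1, h2, h3, -, -, -⟩ := hA μ.1 μ.2
    obtain ⟨c1, l1, e1⟩ := chain_ext hlqs hm₁h hm₁l hf1
    obtain ⟨c2, l2, e2⟩ := chain_ext l1 h2 h3 haa
    obtain ⟨c3, l3, e3⟩ := chain_ext l2 hbh hbl haa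
    obtain ⟨c4, l4, e4⟩ := chain_ext l3 hhM haM haa
    refine ⟨by rw [e4, e3, e2, e1], l4, ?_⟩
    unfold Concat at c1 c2 c3 c4
    rw [wlen_lpow] at c4
    omega
  have hbd : ∀ P : ℕ, P ≤ PL → ρ + Cv.R * (P + 1) < n₂ ρ + M := fun P hP => by
    have := Nat.mul_le_mul_left Cv.R (Nat.succ_le_succ hP)
    simp only [n₂, Nat.succ_eq_add_one] at this ⊢
    omega
  obtain ⟨Λ, hΛ, hstep⟩ := hℓ ρ ρ n m₁ b A hm₁ hb (by simp only [n₁]; omega)
    (hbd _ (Nat.le_add_right _ _)) hblk p hp hp1 κ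
    (fun μ => ⟨(hA μ.1 μ.2).1, hκpos μ, (hA μ.1 μ.2).2.2.2.2.2⟩) m hm0 hmle
  obtain ⟨μ₀, hμ₀⟩ := hAne
  obtain ⟨hμ1, hμ2, hμ3, hμ4, -, hμ6⟩ := hA μ₀ hμ₀
  -- one bound for every type and side letter
  have hper : ∀ (τ : T) (e : Letter k), ∃ C : ℝ≥0∞, C ≠ ⊤ ∧
      ∀ (c : FreeGroup (Fin k)) (K : ℕ), lastL c = lastL τ.1.1 → 0 < K →
        Concat (c * qt τ) (gen e) → ∃ V : Finset (FreeGroup (Fin k)),
          PrefixFree (↑V : Set (FreeGroup (Fin k))) ∧ (K : ℝ≥0∞) ^ t ≤ C * V.card ∧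
          ∀ v ∈ V, Concat (c * qt τ * gen e) v ∧
            ∑ r ∈ Cv.reps, prob H p (manyIn (Cv.outE D c) r (Cv.cls (c * τ.1.1⁻¹) τ.1.2)
              ⌈(K : ℝ) / (T.card : ℝ)⌉₊) ≤ C * Cv.hit p (c * qt τ * gen e * v) := by
    intro τ e
    by_cases hce : Concat (τ.1.1 * qt τ) (gen e)
    swap
    · refine ⟨0, by simp, fun c K hc _ hcq => absurd ?_ hce⟩
      refine concat_iff.2 fun z hz h => concat_iff.1 hcq z ?_ h
      have hq : qt τ ≠ 1 := fun h1 => by have := hqt2 τ; rw [h1, wlen_one] at this; omega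
      rw [lastL_concat (hqt τ) hq] at hz
      rw [lastL_concat ?_ hq, hz]
      exact concat_iff.2 fun y hy => concat_iff.1 (hqt τ) y (hc.symm.trans hy)
    obtain ⟨h, -, hne, -⟩ := exists_letter hk a (opp e) a
    obtain ⟨w, hw1, hw2, hw3⟩ := exists_word hk h a (show 3 ≤ n₁ ρ by simp only [n₁]; omega)
    obtain ⟨c1, -, -⟩ := chain_ext (lastL_gen (x := e)) hw2 hw3 hne
    obtain ⟨c2, l2, e2⟩ := chain_ext hw3 hμ2 hμ3 haa
    obtain ⟨c3, l3, e3⟩ := chain_ext l2 hbh hbl haa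
    obtain ⟨c4, l4, e4⟩ := chain_ext l3 hhM haM haa
    have hlen : wlen (w * μ₀ * b * lpow a M) + 1 = n₁ ρ + 1 + wlen μ₀ + n₂ ρ + M := by
      unfold Concat at c2 c3 c4
      rw [wlen_lpow] at c4
      omega
    obtain ⟨L₀, hL₀⟩ := hℓ0 τ ρ ρ e w μ₀ b h hce hw2 hne
      (by rw [show wlen (gen e * w) = _ from c1, wlen_gen, hw1]; omega) hb
      (by simp only [n₁]; omega)
      (hbd _ (le_trans (le_sup (f := fun τ => (Pt τ).length) (mem_univ τ)) (Nat.le_add_left _ _)))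
      (by rw [e4, e3, e2, hw2]) hlen p hp hp1 (κ μ₀) hμ4 hμ6
    exact Cv.exists_line_bound hH hp hp1.le ht (e₀ := lpow a M) z₀ hqsa
      (fun μ : A => qs * m₁ * (μ : FreeGroup (Fin k)) * b * lpow a M)
      (fun μ ν h => Subtype.ext (mul_left_cancel (mul_right_cancel (mul_right_cancel h))))
      (fun μ => ⟨(hblk μ).1.trans hhqs, (hblk μ).2⟩) κb hm0 hmle (fun μ => (hκb0 μ).2) hsum hΛ
      hstep (w * μ₀ * b * lpow a M) (by rw [e4, e3, e2, hw2]) l4 τ.1.1 (qt τ) τ.1.2 e hne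
      (mul_pos (pow_pos hp _) hμ4) (by exact_mod_cast card_pos.2 ⟨τ.1, τ.2⟩) hL₀
  choose Cc hCc hCc' using hper
  let τf : Fin T.card → T := T.equivFin.symm
  refine ⟨T.card, fun j => qt (τf j), ∑ i : T × Letter k, Cc i.1 i.2,
    ENNReal.sum_ne_top.2 fun i _ => hCc i.1 i.2, fun c K hc hK => ?_⟩
  refine ⟨_, Cv.halfTail_le_classes hp.le hp1.le (fun j => (τf j).1) (fun y hy => ?_) hK,
    fun j hj => ?_⟩
  · obtain ⟨τ, hτ, u, hu, hl, hyu⟩ := hT2 c y hc hy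
    refine ⟨T.equivFin ⟨τ, hτ⟩, ?_⟩
    simp only [τf, Equiv.symm_apply_apply]
    exact ⟨hl, by rwa [← hu, mul_inv_cancel_right]⟩
  by_cases h : lastL c = lastL (τf j).1.1
  swap
  · simp [h] at hj
  refine ⟨concat_iff.2 fun z hz => concat_iff.1 (hqt _) z (h.symm.trans hz), fun e he => ?_⟩
  obtain ⟨V, hV1, hV2, hV3⟩ := hCc' (τf j) e c K h hK he
  have hsle : Cc (τf j) e ≤ ∑ i : T × Letter k, Cc i.1 i.2 :=
    single_le_sum (f := fun i : T × Letter k => Cc i.1 i.2) (fun _ _ => zero_le)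
      (mem_univ (τf j, e))
  refine ⟨V, hV1, hV2.trans (mul_le_mul_left hsle _), fun v hv => ⟨(hV3 v hv).1, ?_⟩⟩
  simp only [h, if_true]
  exact (hV3 v hv).2.trans (mul_le_mul_left hsle _)

end Cov

end Vale.Agent.P165.Quot
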