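import Mathlib

/-!
Vocabulary for reduced words in a free group of finite rank: length, distance in the tree,
prefixes, reduced concatenation, relative cones, spheres, rays and heights.
-/

namespace Vale.Agent.P165.Quot

/-- A letter: a generator or the inverse of one. -/
abbrev Letter (k : ℕ) := Fin k × Bool

variable {k : ℕ}

/-- The opposite letter. -/
def opp (x : Letter k) : Letter k := (x.1, !x.2)

/-- The group element of a letter. -/
def gen (x : Letter k) : FreeGroup (Fin k) := FreeGroup.mk [x]

/-- The length of the reduced word. -/
def wlen (u : FreeGroup (Fin k)) : ℕ := u.toWord.length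

/-- The distance in the Cayley tree. -/
def wdist (u v : FreeGroup (Fin k)) : ℕ := wlen (u⁻¹ * v)

/-- The reduced word of `u` begins the reduced word of `v`. -/
def Pre (u v : FreeGroup (Fin k)) : Prop := u.toWord <+: v.toWord

/-- No member of the set is a proper initial segment of another one. -/
def PrefixFree (A : Set (FreeGroup (Fin k))) : Prop :=
  ∀ u ∈ A, ∀ v ∈ A, Pre u v → u = v

/-- The product `u * v` is formed without cancellation. -/
def Concat (u v : FreeGroup (Fin k)) : Prop := wlen (u * v) = wlen u + wlen v

/-- The last letter of a word, if there is one. -/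
def lastL (u : FreeGroup (Fin k)) : Option (Letter k) := u.toWord.getLast?

/-- The first letter of a word, if there is one. -/
def headL (u : FreeGroup (Fin k)) : Option (Letter k) := u.toWord.head?

/-- The words which may follow the letter `l` without cancellation. -/
def rel (l : Letter k) : Set (FreeGroup (Fin k)) := {t | headL t ≠ some (opp l)}

/-- The initial segment of length `i`. -/
def pfx (u : FreeGroup (Fin k)) (i : ℕ) : FreeGroup (Fin k) := FreeGroup.mk (u.toWord.take i)

/-- A sequence of words growing by one letter at a time from the empty word. -/
def IsRay (ξ : ℕ → FreeGroup (Fin k)) : Prop :=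
  ∀ m, wlen (ξ m) = m ∧ Pre (ξ m) (ξ (m + 1))

/-- The length of the common part of a word with a ray. -/
noncomputable def conf (ξ : ℕ → FreeGroup (Fin k)) (u : FreeGroup (Fin k)) : ℕ :=
  open scoped Classical in Nat.findGreatest (fun j => Pre (ξ j) u) (wlen u)

/-- The height of a word seen from the end of a ray. -/
noncomputable def height (ξ : ℕ → FreeGroup (Fin k)) (u : FreeGroup (Fin k)) : ℤ :=
  2 * (conf ξ u : ℤ) - wlen u

/-- The finitely many words of length `n`. -/
noncomputable def sphere (k n : ℕ) : Finset (FreeGroup (Fin k)) :=
  open scoped Classical in
    ((List.replicate n ()).foldr (fun _ A => Finset.image₂ (fun x u => gen x * u) Finset.univ A)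
      {1}).filter fun u => wlen u = n

end Vale.Agent.P165.Quot
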