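import Vale.Agent.P165.Quot.Prob
import Vale.Agent.P165.Quot.WordDefs

/-!
Graphs with a free cofinite action of a group mapped onto a free group: the projection, fibres,
cones over reduced words, their cores, and the basic connection quantities.
-/

open scoped ENNReal

namespace Vale.Agent.P165.Quot

variable {W Γ : Type*} {k : ℕ}

/-- The data of a graph with a free cofinite action of a group with a map onto a free group, with
a choice of orbit representatives and an adjacency bound in the tree. -/
structure Cov [Group Γ] [MulAction Γ W] (H : SimpleGraph W) (k : ℕ) where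
  /-- the map onto the free group -/
  π : Γ →* FreeGroup (Fin k)
  two_le : 2 ≤ k
  surj : Function.Surjective π
  adj_smul : ∀ (g : Γ) x y, H.Adj (g • x) (g • y) ↔ H.Adj x y
  free : ∀ (g : Γ) (x : W), g • x = x → g = 1
  /-- orbit representatives -/
  reps : Finset W
  nonempty : reps.Nonempty
  /-- the projection to the free group -/
  proj : W → FreeGroup (Fin k)
  proj_smul : ∀ (g : Γ) x, proj (g • x) = π g * proj x
  proj_rep : ∀ r ∈ reps, proj r = 1
  cover : ∀ x, ∃ (g : Γ), ∃ r ∈ reps, g • r = x
  rep_inj : ∀ r ∈ reps, ∀ r' ∈ reps, ∀ g : Γ, g • r = r' → r = r'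
  /-- the bound on the jump of an edge -/
  R : ℕ
  jump : ∀ x y, H.Adj x y → wdist (proj x) (proj y) ≤ R

namespace Cov

variable [Group Γ] [MulAction Γ W] {H : SimpleGraph W} (Cv : Cov (Γ := Γ) H k)

/-- The fibre over a word. -/
def Fib (u : FreeGroup (Fin k)) : Set W := {x | Cv.proj x = u}

/-- The vertices over the cone of a word. -/
def coneV (c : FreeGroup (Fin k)) : Set W := {x | Pre c (Cv.proj x)}

/-- The pairs inside a set of vertices. -/
def pairsIn (A : Set W) : Set (Sym2 W) := {e | ∀ x ∈ e, x ∈ A}

/-- The points of the cone of `c` which reach depth `D` inside it. -/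
def core (D : ℕ) (c : FreeGroup (Fin k)) : Set W :=
  {x | x ∈ Cv.coneV c ∧ ∃ z, wlen c + D ≤ wlen (Cv.proj z) ∧
    (H ⊓ SimpleGraph.fromEdgeSet (pairsIn (Cv.coneV c))).Reachable x z}

/-- The edges not inside the core of `c`. -/
def outE (D : ℕ) (c : FreeGroup (Fin k)) : Set (Sym2 W) := (pairsIn (Cv.core D c))ᶜ

/-- The points of the core with a neighbour outside it. -/
def entry (D : ℕ) (c : FreeGroup (Fin k)) : Set W :=
  {x | x ∈ Cv.core D c ∧ ∃ y, H.Adj x y ∧ y ∉ Cv.core D c}

/-- The translates of a vertex by the elements with trivial image, moved to a given word. -/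
def cls (u : FreeGroup (Fin k)) (r : W) : Set W := {x | ∃ g : Γ, Cv.π g = u ∧ g • r = x}

/-- The vertices over words within distance `ρ` of `u`. -/
def nearV (ρ : ℕ) (u : FreeGroup (Fin k)) : Set W := {x | wdist u (Cv.proj x) ≤ ρ}

variable [DecidableEq W]

/-- The probability that a representative meets the fibre over `u`, summed over representatives. -/
noncomputable def hit (p : ℝ) (u : FreeGroup (Fin k)) : ℝ≥0∞ :=
  ∑ r ∈ Cv.reps, prob H p (connTo Set.univ r (Cv.Fib u))

/-- The least such probability over the representatives. -/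
noncomputable def hitMin (p : ℝ) (u : FreeGroup (Fin k)) : ℝ≥0∞ :=
  Cv.reps.inf' Cv.nonempty fun r => prob H p (connTo Set.univ r (Cv.Fib u))

/-- The expected number of connected points in the fibre over `u`, summed over representatives. -/
noncomputable def count (p : ℝ) (u : FreeGroup (Fin k)) : ℝ≥0∞ :=
  ∑ r ∈ Cv.reps, mean H p Set.univ r (Cv.Fib u)

/-- The probability of at least `K` entry points of the core of `c` reached from outside. -/
noncomputable def halfTail (D : ℕ) (p : ℝ) (c : FreeGroup (Fin k)) (K : ℕ) : ℝ≥0∞ :=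
  ∑ r ∈ Cv.reps, prob H p (manyIn (Cv.outE D c) r (Cv.entry D c) K)

/-- The expected number of entry points of the core of `c` reached from outside. -/
noncomputable def halfMean (D : ℕ) (p : ℝ) (c : FreeGroup (Fin k)) : ℝ≥0∞ :=
  ∑ r ∈ Cv.reps, mean H p (Cv.outE D c) r (Cv.entry D c)

end Cov

end Vale.Agent.P165.Quot
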