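import Vale.Agent.P165.Quot.Prob
import Mathlib

/-!
The finite probability steps: concentration under local dependence, composition of two stages,
and exploration of a cluster inside a region.
-/

open Finset
open scoped ENNReal

namespace Vale.Agent.P165.Quot

section General

variable {α : Type*} [DecidableEq α]

/-- Conditioning on one of two disjoint coordinate sets. -/
lemma sum_wt_mul_le_pr {p : ℝ} (h0 : 0 ≤ p) (h1 : p ≤ 1) {U₁ U₂ : Finset α}
    (hd : Disjoint U₁ U₂) (Q : Finset α → Prop) (s : Finset (Finset α))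
    (hs : ∀ a ∈ s, a ⊆ U₁) :
    ∑ a ∈ s, wt p U₁ a * pr p U₂ (fun b => Q (a ∪ b)) ≤ pr p (U₁ ∪ U₂) Q := by
  classical
  have hkey : ∀ a ∈ s, wt p U₁ a * pr p U₂ (fun b => Q (a ∪ b)) =
      pr p (U₁ ∪ U₂) (fun S => S ∩ U₁ = a ∧ Q (a ∪ S ∩ U₂)) := by
    intro a ha
    rw [pr_split p hd (fun T => T = a) fun b => Q (a ∪ b)]
    have h : U₁.powerset.filter (fun T => T = a) = {a} := by
      ext T
      simp only [mem_filter, mem_powerset, mem_singleton]
      exact ⟨fun h => h.2, fun h => ⟨h ▸ hs a ha, h⟩⟩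
    have hwt : pr p U₁ (fun T => T = a) = wt p U₁ a := by simp [pr, h]
    rw [hwt]
  rw [sum_congr rfl hkey]
  refine sum_pr_le h0 h1 s _ ?_ fun a _ b _ S _ h1 h2 => h1.1.symm.trans h2.1
  intro a _ S hS ⟨ha, hQ⟩
  rwa [← ha, ← inter_union_distrib_left, inter_eq_left.2 hS] at hQ

/-- Events of disjoint coordinate sets are independent. -/
lemma pr_and_of_disjoint (p : ℝ) {U L M : Finset α} (hd : Disjoint L M)
    (A B : Finset α → Prop) (hA : ∀ S, S ⊆ U → (A S ↔ A (S ∩ L)))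
    (hB : ∀ S, S ⊆ U → (B S ↔ B (S ∩ M))) :
    pr p U (fun S => A S ∧ B S) = pr p U A * pr p U B := by
  classical
  set U₁ := U ∩ L with hU₁
  set U₂ := U \ U₁ with hU₂
  have e₁ : ∀ S, S ⊆ U → S ∩ U₁ ∩ L = S ∩ L := fun S hS => by
    ext x
    simp only [hU₁, mem_inter]
    have := @hS x
    tauto
  have e₂ : ∀ S, S ⊆ U → S ∩ U₂ ∩ M = S ∩ M := fun S hS => by
    ext x
    simp only [hU₂, hU₁, mem_inter, mem_sdiff]
    have := @hS x
    have := @Finset.disjoint_left.1 hd x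
    tauto
  have hA' : ∀ S, S ⊆ U → (A S ↔ A (S ∩ U₁)) := fun S hS => by
    rw [hA S hS, hA (S ∩ U₁) (inter_subset_left.trans hS), e₁ S hS]
  have hB' : ∀ S, S ⊆ U → (B S ↔ B (S ∩ U₂)) := fun S hS => by
    rw [hB S hS, hB (S ∩ U₂) (inter_subset_left.trans hS), e₂ S hS]
  have hsp := pr_split p (disjoint_sdiff (s := U₁) (t := U)) A B
  rw [union_sdiff_of_subset inter_subset_left] at hsp
  rw [pr_congr hA', pr_congr hB', pr_marginal p inter_subset_left,
    pr_marginal p sdiff_subset, ← hsp]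
  exact pr_congr fun S hS => and_congr (hA' S hS) (hB' S hS)

/-- Concentration for a count of local events each meeting at most `L` others. -/
theorem pr_count_ge {ι : Type*} {p : ℝ} (h0 : 0 ≤ p) (h1 : p ≤ 1)
    (U : Finset α) (s : Finset ι) (loc : ι → Finset α) (A : ι → Finset α → Prop)
    (hloc : ∀ i ∈ s, ∀ S ⊆ U, (A i S ↔ A i (S ∩ loc i))) {L : ℕ}
    (hdep : ∀ i ∈ s, ∀ t : Finset ι, t ⊆ s → (∀ j ∈ t, ¬ Disjoint (loc i) (loc j) ∨ j = i) →
      t.card ≤ L)
    {μ : ℝ} (hμ0 : 0 < μ) (hμ : μ ≤ ∑ i ∈ s, pr p U (A i)) :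
    1 - 4 * L / μ ≤
      pr p U (fun S => ∃ t : Finset ι, t ⊆ s ∧ μ / 2 ≤ (t.card : ℝ) ∧ ∀ i ∈ t, A i S) := by
  classical
  set E : (Finset α → ℝ) → ℝ := fun f => ∑ S ∈ U.powerset, wt p U S * f S with hE
  set I : ι → Finset α → ℝ := fun i S => if A i S then 1 else 0 with hI
  set X : Finset α → ℝ := fun S => ∑ i ∈ s, I i S with hX
  set a : ι → ℝ := fun i => pr p U (A i) with ha
  set m := ∑ i ∈ s, a i with hm
  have hm0 : 0 < m := hμ0.trans_le hμ
  have ha' : ∀ i, E (I i) = a i := fun i => by simp [hE, hI, ha, pr, sum_filter, mul_ite]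
  have hpair : ∀ i j, E (fun S => I i S * I j S) = pr p U (fun S => A i S ∧ A j S) := fun i j => by
    simp only [hE, hI, pr, sum_filter]
    exact sum_congr rfl fun S _ => by by_cases u : A i S <;> by_cases v : A j S <;> simp [u, v]
  have hEX : E X = m := by
    simp only [hE, hX, hm, mul_sum]
    rw [sum_comm]
    exact sum_congr rfl fun i _ => ha' i
  set D : ι → Finset ι := fun i => s.filter fun j => ¬ Disjoint (loc i) (loc j) ∨ j = i with hD
  have hDcard : ∀ i ∈ s, (D i).card ≤ L := fun i hi =>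
    hdep i hi (D i) (filter_subset _ _) fun j hj => (mem_filter.1 hj).2
  have hXX : E (fun S => X S * X S) ≤ m * m + L * m := by
    have hexp : E (fun S => X S * X S) = ∑ i ∈ s, ∑ j ∈ s, E (fun S => I i S * I j S) := by
      calc E (fun S => X S * X S)
          = ∑ S ∈ U.powerset, ∑ i ∈ s, ∑ j ∈ s, wt p U S * (I i S * I j S) := by
            refine sum_congr rfl fun S _ => ?_
            simp only [hX]
            rw [sum_mul_sum, mul_sum]
            exact sum_congr rfl fun i _ => mul_sum _ _ _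
        _ = _ := by
            rw [sum_comm]
            exact sum_congr rfl fun i _ => sum_comm
    have hrow : ∀ i ∈ s, ∑ j ∈ s, E (fun S => I i S * I j S) ≤ a i * m + L * a i := by
      intro i hi
      have hai : 0 ≤ a i := pr_nonneg h0 h1 _ _
      calc ∑ j ∈ s, E (fun S => I i S * I j S)
          ≤ ∑ j ∈ s, (a i * a j + if j ∈ D i then a i else 0) := by
            refine sum_le_sum fun j hj => ?_
            rw [hpair]
            have haj : 0 ≤ a j := pr_nonneg h0 h1 _ _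
            by_cases hjD : j ∈ D i
            · rw [if_pos hjD]
              exact (pr_mono h0 h1 fun S _ h => h.1).trans
                (le_add_of_nonneg_left (mul_nonneg hai haj))
            · rw [if_neg hjD, add_zero]
              have hnd : Disjoint (loc i) (loc j) := by
                by_contra hc
                exact hjD (mem_filter.2 ⟨hj, Or.inl hc⟩)
              exact (pr_and_of_disjoint p hnd (A i) (A j) (hloc i hi) (hloc j hj)).le
        _ = a i * m + (D i).card * a i := by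
            rw [sum_add_distrib, ← mul_sum, ← sum_filter, sum_const, nsmul_eq_mul, ← hm]
            rw [filter_mem_eq_inter, inter_eq_right.2 (filter_subset _ _)]
        _ ≤ _ := add_le_add le_rfl (mul_le_mul_of_nonneg_right (Nat.cast_le.2 (hDcard i hi)) hai)
    rw [hexp]
    refine (sum_le_sum hrow).trans (le_of_eq ?_)
    rw [sum_add_distrib, ← sum_mul, ← mul_sum, ← hm]
  have hvar : E (fun S => (X S - m) ^ 2) ≤ L * m := by
    have hsq : E (fun S => (X S - m) ^ 2) = E (fun S => X S * X S) - 2 * m * E X + m * m := by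
      have hw : m * m = ∑ S ∈ U.powerset, wt p U S * (m * m) := by
        rw [← sum_mul, wt_sum, one_mul]
      conv_rhs => rw [hw]
      simp only [hE, mul_sum, ← sum_sub_distrib, ← sum_add_distrib]
      exact sum_congr rfl fun S _ => by ring
    rw [hsq, hEX]
    linarith
  set bad : Finset α → Prop := fun S => X S ≤ m / 2 with hbad
  have hbadle : (m / 2) ^ 2 * pr p U bad ≤ L * m := by
    refine le_trans ?_ hvar
    simp only [hE, pr, sum_filter, mul_sum]
    refine sum_le_sum fun S _ => ?_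
    by_cases hb : bad S
    · rw [if_pos hb, mul_comm]
      refine mul_le_mul_of_nonneg_left ?_ (wt_nonneg h0 h1 _ _)
      simp only [hbad] at hb
      nlinarith
    · rw [if_neg hb, mul_zero]
      exact mul_nonneg (wt_nonneg h0 h1 _ _) (sq_nonneg _)
  have hbad' : pr p U bad ≤ 4 * L / μ := by
    rw [le_div_iff₀ hμ0]
    have h4 : m * pr p U bad ≤ 4 * L := by nlinarith
    nlinarith [pr_nonneg h0 h1 U bad]
  have hcompl := pr_compl p U bad
  refine le_trans (by linarith : 1 - 4 * (L : ℝ) / μ ≤ pr p U fun S => ¬ bad S) ?_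
  refine pr_mono h0 h1 fun S _ hS => ⟨s.filter fun i => A i S, filter_subset _ _, ?_,
    fun i hi => (mem_filter.1 hi).2⟩
  have hcard : X S = ((s.filter fun i => A i S).card : ℝ) := by simp [hX, hI]
  simp only [hbad, not_le] at hS
  linarith

end General

variable {W : Type*} [DecidableEq W] {H : SimpleGraph W} {p : ℝ}

omit [DecidableEq W] in
/-- The event of many connected points looks only at the edges of its region. -/
lemma manyIn_inPart {E : Set (Sym2 W)} {x : W} {T : Set W} {K : ℕ} {S S' : Finset (Sym2 W)}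
    (h : inPart E S = inPart E S') : manyIn E x T K S ↔ manyIn E x T K S' := by
  unfold manyIn
  rw [h]

/-- A stage in fresh edges composed with what was revealed before. -/
theorem prob_manyIn_compose (h0 : 0 ≤ p) (h1 : p ≤ 1) {E₁ E₂ : Set (Sym2 W)} (hE : E₁ ⊆ E₂)
    (x : W) (T₁ T₂ : Set W) {K K' : ℕ} {δ : ℝ}
    (h : ∀ Y : Finset W, ↑Y ⊆ T₁ → Y.card = K → ∃ U : Finset (Sym2 W), ↑U ⊆ H.edgeSet ∧
      ↑U ⊆ E₂ \ E₁ ∧ 1 - δ ≤ pr p U (manyFrom E₂ Y T₂ K')) :
    prob H p (manyIn E₁ x T₁ K) * ENNReal.ofReal (1 - δ) ≤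
      prob H p (manyIn E₂ x T₂ K') := by
  classical
  simp only [prob, ENNReal.iSup_mul]
  refine iSup₂_le fun U₀ hU₀ => ?_
  set U₁ := U₀.filter (fun e => e ∈ E₁) with hU₁
  have hU₁E : ↑U₁ ⊆ E₁ := fun e he => (mem_filter.1 (mem_coe.1 he)).2
  have hmarg : pr p U₀ (manyIn E₁ x T₁ K) = pr p U₁ (manyIn E₁ x T₁ K) := by
    rw [← pr_marginal p (filter_subset _ _) (manyIn E₁ x T₁ K)]
    refine pr_congr fun S hS => manyIn_inPart ?_
    ext e
    have := @hS e
    simp only [mem_inPart, mem_inter, mem_filter]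
    tauto
  rw [hmarg]
  set G := U₁.powerset.filter (manyIn E₁ x T₁ K) with hG
  have hY : ∀ S ∈ G, ∃ (Y : Finset W) (V : Finset (Sym2 W)),
      (∀ y ∈ Y, y ∈ cl {x} (inPart E₁ S)) ∧ ↑V ⊆ H.edgeSet ∧ ↑V ⊆ E₂ \ E₁ ∧
        1 - δ ≤ pr p V (manyFrom E₂ Y T₂ K') := by
    intro S hS
    obtain ⟨Y, hK, hY⟩ := (mem_filter.1 hS).2
    obtain ⟨Y', hY', hcard⟩ := exists_subset_card_eq hK
    obtain ⟨V, hV1, hV2, hV3⟩ := h Y' (fun y hy => (hY y (hY' hy)).1) hcard
    exact ⟨Y', V, fun y hy => (hY y (hY' hy)).2, hV1, hV2, hV3⟩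
  choose Y V hYc hV1 hV2 hV3 using hY
  set U₂ := G.attach.biUnion fun S => V S.1 S.2 with hU₂
  have hU₂E : ∀ e ∈ U₂, e ∈ H.edgeSet ∧ e ∈ E₂ \ E₁ := by
    intro e he
    obtain ⟨S, -, he⟩ := mem_biUnion.1 he
    exact ⟨hV1 _ _ (mem_coe.2 he), hV2 _ _ (mem_coe.2 he)⟩
  have hd : Disjoint U₁ U₂ :=
    Finset.disjoint_left.2 fun e he h' => (hU₂E e h').2.2 (hU₁E (mem_coe.2 he))
  have hedge : ↑(U₁ ∪ U₂) ⊆ H.edgeSet := by
    intro e he
    rcases mem_union.1 (mem_coe.1 he) with he | he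
    · exact hU₀ (mem_coe.2 (filter_subset _ _ he))
    · exact (hU₂E e he).1
  have hstep : ∀ S ∈ G, (1 - δ) ≤ pr p U₂ (fun b => manyIn E₂ x T₂ K' (S ∪ b)) := by
    intro S hS
    refine (hV3 S hS).trans ((pr_mono_set h0 h1 (?_ : V S hS ⊆ U₂)
      (incr_manyFrom E₂ (Y S hS) T₂ K')).trans (pr_mono h0 h1 ?_))
    · exact subset_biUnion_of_mem (fun S : {x // x ∈ G} => V S.1 S.2) (mem_attach G ⟨S, hS⟩)
    rintro b - ⟨Z, hZ, hZc⟩
    refine ⟨Z, hZ, fun z hz => ⟨(hZc z hz).1, cl_trans (X := {x}) ?_ ?_ (hZc z hz).2⟩⟩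
    · intro y hy
      refine cl_mono subset_rfl ?_ (hYc S hS y hy)
      intro e he
      rw [mem_inPart] at he ⊢
      exact ⟨mem_union_left _ he.1, hE he.2⟩
    · exact inPart_mono subset_union_right
  have hreal : pr p U₁ (manyIn E₁ x T₁ K) * (1 - δ) ≤
      pr p (U₁ ∪ U₂) (manyIn E₂ x T₂ K') := by
    refine le_trans ?_ (sum_wt_mul_le_pr h0 h1 hd _ G fun a ha =>
      mem_powerset.1 (mem_filter.1 ha).1)
    rw [pr, sum_mul]
    exact sum_le_sum fun a ha => mul_le_mul_of_nonneg_left (hstep a ha) (wt_nonneg h0 h1 _ _)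
  refine le_trans ?_ (le_iSup₂_of_le (U₁ ∪ U₂) hedge (ENNReal.ofReal_le_ofReal hreal))
  rw [← ENNReal.ofReal_mul (pr_nonneg h0 h1 _ _)]

omit [DecidableEq W] in
/-- A vertex of an explored cluster is joined to the start by a walk in the region. -/
lemma exists_walk_inPart {E : Set (Sym2 W)} {S : Finset (Sym2 W)} (hS : ↑S ⊆ H.edgeSet)
    {x y : W} (hy : y ∈ cl {x} (inPart E S)) :
    ∃ q : H.Walk x y, ∀ e ∈ q.edges, e ∈ E := by
  obtain ⟨q⟩ := mem_cl_single.1 hy
  have hle : SimpleGraph.fromEdgeSet (↑(inPart E S) : Set (Sym2 W)) ≤ H := by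
    intro a b hab
    rw [SimpleGraph.fromEdgeSet_adj] at hab
    exact hS (mem_coe.2 (inPart_subset _ _ (mem_coe.1 hab.1)))
  refine ⟨q.mapLe hle, fun e he => ?_⟩
  rw [SimpleGraph.Walk.edges_mapLe_eq_edges] at he
  have := q.edges_subset_edgeSet he
  rw [SimpleGraph.edgeSet_fromEdgeSet] at this
  exact (mem_inPart.1 (mem_coe.1 this.1)).2

/-- Exploration of the cluster inside `E`: a connection to `T` leaves it at a point of `Ent`
through edges not looked at. -/
theorem prob_connTo_le_explore (h0 : 0 ≤ p) (h1 : p ≤ 1) (E : Set (Sym2 W)) (x : W)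
    (T Ent : Set W)
    (hexit : ∀ u v : W, ∀ q : H.Walk x u, (∀ e ∈ q.edges, e ∈ E) → H.Adj u v → s(u, v) ∉ E →
      u ∈ Ent)
    (hT : ∀ y ∈ T, ∀ q : H.Walk x y, ¬ ∀ e ∈ q.edges, e ∈ E)
    {b : ℝ≥0∞} (hb : ∀ u ∈ Ent, prob H p (connTo Set.univ u T) ≤ b) (K : ℕ) :
    prob H p (connTo Set.univ x T) ≤ prob H p (manyIn E x Ent (K + 1)) +
      b * ∑ i ∈ range K, prob H p (manyIn E x Ent (i + 1)) := by
  classical
  refine iSup₂_le fun U hU => ?_
  have hmany : ∀ i, ENNReal.ofReal (pr p U (manyIn E x Ent i)) ≤ prob H p (manyIn E x Ent i) :=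
    fun i => le_iSup₂_of_le U hU le_rfl
  have hins : ∀ S : Finset (Sym2 W), inPart Set.univ S = S := fun S => by ext e; simp [mem_inPart]
  set V₀ := insert x (U.biUnion fun e => e.toFinset) with hV₀
  have hclV : ∀ S ⊆ U, cl {x} S ⊆ (↑V₀ : Set W) := fun S hS =>
    cl_subset (by simp [hV₀]) fun y z _ hyz =>
      mem_coe.2 (mem_insert_of_mem (mem_biUnion.2 ⟨s(y, z), hS hyz, by simp⟩))
  set 𝒞 := V₀.powerset.filter (fun c => (c.filter (· ∈ Ent)).card ≤ K) with h𝒞
  set J : Finset W → Finset (Sym2 W) := fun c => U.filter (fun e => e ∈ E ∧ ∃ y ∈ c, y ∈ e) with hJ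
  set IsC : Finset W → Finset (Sym2 W) → Prop :=
    fun c S => cl {x} (inPart E S) = (↑c : Set W) with hIsC
  have hloc : ∀ c, ∀ S ⊆ U, IsC c S ↔ cl {x} (S ∩ J c) = (↑c : Set W) := by
    intro c S hS
    have hsub : cl {x} (S ∩ J c) ⊆ cl {x} (inPart E S) := cl_mono subset_rfl fun e he =>
      mem_inPart.2 ⟨(mem_inter.1 he).1, (mem_filter.1 (mem_inter.1 he).2).2.1⟩
    constructor
    · intro hc
      refine subset_antisymm (hsub.trans hc.le) fun w hw => ?_
      have : cl {x} (inPart E S) ⊆ cl {x} (S ∩ J c) ∩ (↑c : Set W) := by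
        refine cl_subset (Set.singleton_subset_iff.2 ⟨subset_cl _ _ rfl, hc ▸ subset_cl _ _ rfl⟩) ?_
        intro y z ⟨hy, hyc⟩ hyz
        refine ⟨cl_step hy (mem_inter.2 ⟨(mem_inPart.1 hyz).1, mem_filter.2
          ⟨hS (mem_inPart.1 hyz).1, (mem_inPart.1 hyz).2, y, hyc, Sym2.mem_mk_left y z⟩⟩),
          hc ▸ cl_step (hc.symm ▸ hyc) hyz⟩
      exact (this (hc.symm ▸ hw)).1
    · intro hc
      refine subset_antisymm (cl_subset (hc ▸ subset_cl _ _) fun y z hy hyz => ?_) (hc ▸ hsub)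
      exact hc ▸ cl_step (hc.symm ▸ hy) (mem_inter.2 ⟨(mem_inPart.1 hyz).1, mem_filter.2
        ⟨hS (mem_inPart.1 hyz).1, (mem_inPart.1 hyz).2, y, hy, Sym2.mem_mk_left y z⟩⟩)
  set idx := 𝒞.sigma (fun c => c.filter (· ∈ Ent)) with hidx
  have hcover : pr p U (connTo Set.univ x T) ≤ pr p U (manyIn E x Ent (K + 1)) +
      ∑ i ∈ idx, pr p U (fun S => cl {x} (S ∩ J i.1) = (↑i.1 : Set W) ∧
        connTo Set.univ i.2 T (S ∩ (U \ J i.1))) := by
    have hle : pr p U (connTo Set.univ x T) ≤ pr p U (fun S => manyIn E x Ent (K + 1) S ∨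
        ∃ i ∈ idx, cl {x} (S ∩ J i.1) = (↑i.1 : Set W) ∧
          connTo Set.univ i.2 T (S ∩ (U \ J i.1))) := by
      refine pr_mono h0 h1 fun S hS ⟨y, hyT, hy⟩ => ?_
      rw [hins] at hy
      have hSE : ↑S ⊆ H.edgeSet := fun e he => hU (mem_coe.2 (hS (mem_coe.1 he)))
      set c := V₀.filter (fun w => w ∈ cl {x} (inPart E S)) with hcdef
      have hc : IsC c S := by
        ext w
        simp only [hcdef, coe_filter, Set.mem_ofPred_eq]
        exact ⟨fun h => ⟨mem_coe.1 (hclV S hS (cl_mono subset_rfl (inPart_subset _ _) h)), h⟩,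
          fun h => h.2⟩
      by_cases hbig : K < (c.filter (· ∈ Ent)).card
      · exact Or.inl ⟨c.filter (· ∈ Ent), hbig, fun w hw =>
          ⟨(mem_filter.1 hw).2, (mem_filter.1 (mem_filter.1 hw).1).2⟩⟩
      refine Or.inr ?_
      have hc𝒞 : c ∈ 𝒞 := mem_filter.2 ⟨mem_powerset.2 (filter_subset _ _), not_lt.1 hbig⟩
      have hcc : ∀ {w}, w ∈ c ↔ w ∈ cl {x} (inPart E S) := fun {w} => by
        rw [← mem_coe, ← hc]
      set Z : Set W := ↑c ∪ {w | ∃ u ∈ c, u ∈ Ent ∧ w ∈ cl {u} (S ∩ (U \ J c))} with hZ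
      have hsub : cl {x} S ⊆ Z := by
        refine cl_subset (Set.singleton_subset_iff.2 (Or.inl (mem_coe.2 (hcc.2 (subset_cl _ _ rfl))))) ?_
        intro u w hu huw
        by_cases hwc : w ∈ c
        · exact Or.inl hwc
        by_cases huc : u ∈ c
        · have hnE : s(u, w) ∉ E := fun he =>
            hwc (hcc.2 (cl_step (hcc.1 huc) (mem_inPart.2 ⟨huw, he⟩)))
          obtain ⟨q, hq⟩ := exists_walk_inPart hSE (hcc.1 huc)
          have hent : u ∈ Ent := hexit u w q hq (hSE (mem_coe.2 huw)) hnE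
          exact Or.inr ⟨u, huc, hent, cl_step (subset_cl _ _ rfl)
            (mem_inter.2 ⟨huw, mem_sdiff.2 ⟨hS huw, fun h => hnE (mem_filter.1 h).2.1⟩⟩)⟩
        · rcases hu with hu | ⟨v, hv, hvE, hu⟩
          · exact absurd hu huc
          refine Or.inr ⟨v, hv, hvE, cl_step hu (mem_inter.2 ⟨huw, mem_sdiff.2 ⟨hS huw, fun h => ?_⟩⟩)⟩
          obtain ⟨-, -, z, hz, hze⟩ := mem_filter.1 h
          rcases Sym2.mem_iff.1 hze with rfl | rfl
          · exact huc hz
          · exact hwc hz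
      rcases hsub hy with hyc | ⟨u, hu, huE, hyu⟩
      · obtain ⟨q, hq⟩ := exists_walk_inPart hSE (hcc.1 hyc)
        exact absurd hq (hT y hyT q)
      exact ⟨⟨c, u⟩, mem_sigma.2 ⟨hc𝒞, mem_filter.2 ⟨hu, huE⟩⟩, (hloc c S hS).1 hc,
        y, hyT, by rw [hins]; exact hyu⟩
    refine hle.trans ?_
    have := pr_or_and p U (manyIn E x Ent (K + 1)) (fun S => ∃ i ∈ idx,
      cl {x} (S ∩ J i.1) = (↑i.1 : Set W) ∧ connTo Set.univ i.2 T (S ∩ (U \ J i.1)))
    have h2 := pr_le_sum h0 h1 (U := U) (Q := fun S => ∃ i ∈ idx,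
      cl {x} (S ∩ J i.1) = (↑i.1 : Set W) ∧ connTo Set.univ i.2 T (S ∩ (U \ J i.1))) idx
      (fun i S => cl {x} (S ∩ J i.1) = (↑i.1 : Set W) ∧
        connTo Set.univ i.2 T (S ∩ (U \ J i.1))) fun S _ h => h
    have h3 := pr_nonneg h0 h1 U (fun S => manyIn E x Ent (K + 1) S ∧ ∃ i ∈ idx,
      cl {x} (S ∩ J i.1) = (↑i.1 : Set W) ∧ connTo Set.univ i.2 T (S ∩ (U \ J i.1)))
    linarith
  have hterm : ∀ i ∈ idx, ENNReal.ofReal (pr p U (fun S => cl {x} (S ∩ J i.1) = (↑i.1 : Set W) ∧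
      connTo Set.univ i.2 T (S ∩ (U \ J i.1)))) ≤ ENNReal.ofReal (pr p U (IsC i.1)) * b := by
    intro i hi
    have hsp := pr_split p (disjoint_sdiff (s := J i.1) (t := U))
      (fun T' => cl {x} T' = (↑i.1 : Set W)) (connTo Set.univ i.2 T)
    rw [union_sdiff_of_subset (filter_subset _ _)] at hsp
    rw [hsp, pr_congr (hloc i.1), pr_marginal p (filter_subset _ _) (fun T' => cl {x} T' = (↑i.1 : Set W)),
      ENNReal.ofReal_mul (pr_nonneg h0 h1 _ _)]
    gcongr
    exact (le_iSup₂_of_le (U \ J i.1) (fun e he => hU (mem_coe.2 (sdiff_subset (mem_coe.1 he))))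
      le_rfl).trans (hb i.2 (mem_filter.1 (mem_sigma.1 hi).2).2)
  have hcount : ∑ c ∈ 𝒞, ((c.filter (· ∈ Ent)).card : ℝ) * pr p U (IsC c) ≤
      ∑ i ∈ range K, pr p U (manyIn E x Ent (i + 1)) := by
    have hsplit : ∀ c ∈ 𝒞, ((c.filter (· ∈ Ent)).card : ℝ) * pr p U (IsC c) =
        ∑ i ∈ range K, if i < (c.filter (· ∈ Ent)).card then pr p U (IsC c) else 0 := by
      intro c hc
      have hf : (range K).filter (fun i => i < (c.filter (· ∈ Ent)).card)
          = range (c.filter (· ∈ Ent)).card := by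
        ext i
        simp only [mem_filter, mem_range]
        have := (mem_filter.1 hc).2
        omega
      rw [← sum_filter, hf, sum_const, card_range, nsmul_eq_mul]
    rw [sum_congr rfl hsplit, sum_comm]
    refine sum_le_sum fun i _ => ?_
    rw [← sum_filter]
    refine sum_pr_le h0 h1 _ IsC ?_ fun c _ d _ S _ hc hd => coe_injective (hc.symm.trans hd)
    intro c hc S _ hS
    obtain ⟨-, hi⟩ := mem_filter.1 hc
    refine ⟨c.filter (· ∈ Ent), hi, fun w hw => ⟨(mem_filter.1 hw).2, ?_⟩⟩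
    rw [show cl {x} (inPart E S) = (↑c : Set W) from hS]
    exact mem_coe.2 (mem_filter.1 hw).1
  have hnn : ∀ i : (_ : Finset W) × W, 0 ≤ pr p U (IsC i.1) := fun i => pr_nonneg h0 h1 _ _
  calc ENNReal.ofReal (pr p U (connTo Set.univ x T))
      ≤ ENNReal.ofReal (pr p U (manyIn E x Ent (K + 1))) +
          ∑ i ∈ idx, ENNReal.ofReal (pr p U (fun S => cl {x} (S ∩ J i.1) = (↑i.1 : Set W) ∧
            connTo Set.univ i.2 T (S ∩ (U \ J i.1)))) := by
        rw [← ENNReal.ofReal_sum_of_nonneg fun i _ => pr_nonneg h0 h1 _ _,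
          ← ENNReal.ofReal_add (pr_nonneg h0 h1 _ _) (sum_nonneg fun i _ => pr_nonneg h0 h1 _ _)]
        exact ENNReal.ofReal_le_ofReal hcover
    _ ≤ prob H p (manyIn E x Ent (K + 1)) + ∑ i ∈ idx, ENNReal.ofReal (pr p U (IsC i.1)) * b :=
        add_le_add (hmany _) (sum_le_sum hterm)
    _ ≤ _ := by
        refine add_le_add le_rfl ?_
        rw [← Finset.sum_mul, mul_comm]
        refine mul_le_mul_right ?_ b
        rw [← ENNReal.ofReal_sum_of_nonneg fun i _ => hnn i, hidx, sum_sigma]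
        simp only [sum_const, nsmul_eq_mul]
        refine (ENNReal.ofReal_le_ofReal hcount).trans ?_
        rw [ENNReal.ofReal_sum_of_nonneg fun i _ => pr_nonneg h0 h1 _ _]
        exact sum_le_sum fun i _ => hmany _

end Vale.Agent.P165.Quot
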