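import Vale.Agent.P165.Quot.TubeDefs
import Vale.Agent.P165.Quot.Shift
import Vale.Agent.P165.Quot.Finite
import Vale.Agent.P165.Quot.Series
import Vale.Agent.P165.Quot.Rays

/-!
Polynomial decay of hitting probabilities from the tail bound, by exploring the clusters at the
middle initial segments of a word.
-/

open Finset
open scoped ENNReal

namespace Vale.Agent.P165.Quot.Cov

variable {W Γ : Type*} {k : ℕ} [Group Γ] [MulAction Γ W] {H : SimpleGraph W} [DecidableEq W]
  (Cv : Cov (Γ := Γ) H k)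

/-- The largest hitting probability of a fibre at distance at least `n`. -/
noncomputable def hitFrom (p : ℝ) (n : ℕ) : ℝ≥0∞ :=
  ⨆ (u : FreeGroup (Fin k)) (_ : n ≤ wlen u), Cv.hit p u

lemma hit_le_hitFrom (p : ℝ) {n : ℕ} {u : FreeGroup (Fin k)} (h : n ≤ wlen u) :
    Cv.hit p u ≤ Cv.hitFrom p n :=
  le_iSup₂_of_le u h le_rfl

lemma hitFrom_antitone (p : ℝ) : Antitone (Cv.hitFrom p) := fun _ _ hmn =>
  iSup₂_le fun _ hu => Cv.hit_le_hitFrom p (le_trans hmn hu)

lemma hit_le_card_reps {p : ℝ} (h0 : 0 ≤ p) (h1 : p ≤ 1) (u : FreeGroup (Fin k)) :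
    Cv.hit p u ≤ Cv.reps.card :=
  (sum_le_card_nsmul _ _ 1 fun _ _ => prob_le_one h0 h1 _).trans_eq (by simp)

lemma hitFrom_ne_top {p : ℝ} (h0 : 0 ≤ p) (h1 : p ≤ 1) (n : ℕ) : Cv.hitFrom p n ≠ ⊤ :=
  ne_top_of_le_ne_top (ENNReal.natCast_ne_top _) (iSup₂_le fun u _ => Cv.hit_le_card_reps h0 h1 u)

omit [DecidableEq W] in
/-- A core point reached inside `outE` is an entry. -/
lemma mem_entry_of_walk {D : ℕ} {c : FreeGroup (Fin k)} (hc : c ≠ 1) {r y : W}
    (hr : Cv.proj r = 1) (q : H.Walk r y) (hq : ∀ e ∈ q.edges, e ∈ Cv.outE D c)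
    (hy : y ∈ Cv.core D c) : y ∈ Cv.entry D c := by
  refine ⟨hy, ?_⟩
  cases hq' : q.reverse with
  | nil => exact absurd hy (Cv.not_mem_core_one hc hr)
  | @cons _ z _ h q'' =>
    refine ⟨z, h, fun hz => ?_⟩
    have hmem : s(y, z) ∈ q.edges := by
      rw [← List.mem_reverse, ← SimpleGraph.Walk.edges_reverse, hq']
      simp
    rcases Cv.mem_outE.1 (hq _ hmem) with h' | h'
    exacts [h' hy, h' hz]

/-- Exploration at one initial segment of a word. -/
lemma hit_le_explore {D : ℕ} {p : ℝ} (h0 : 0 ≤ p) (h1 : p ≤ 1) (w : FreeGroup (Fin k)) {i : ℕ}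
    (hi : 0 < i) (hiD : i + D + Cv.R < wlen w) (K : ℕ) :
    Cv.hit p w ≤ Cv.halfTail D p (pfx w i) (K + 1) +
      Cv.hitFrom p (wlen w - i - Cv.R) *
        ∑ j ∈ range K, Cv.halfTail D p (pfx w i) (j + 1) := by
  classical
  set c := pfx w i
  set b := Cv.hitFrom p (wlen w - i - Cv.R)
  have hic : wlen c = i := wlen_pfx (by omega)
  have hc : c ≠ 1 := fun e => by
    rw [e, wlen_one] at hic
    omega
  have hpre : Pre c w := pre_pfx i
  have hcw : wlen w = wlen c + wdist c w := by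
    have h := pre_iff_concat.1 hpre
    rwa [Concat, mul_inv_cancel_left] at h
  have key : ∀ r ∈ Cv.reps, prob H p (connTo Set.univ r (Cv.Fib w)) ≤
      prob H p (manyIn (Cv.outE D c) r (Cv.entry D c) (K + 1)) +
        b * ∑ j ∈ range K, prob H p (manyIn (Cv.outE D c) r (Cv.entry D c) (j + 1)) := by
    intro r hr
    refine prob_connTo_le_explore h0 h1 _ r _ _
      (fun u v q hq huv hout => Cv.entry_of_exit hc (Cv.proj_rep r hr) q hq huv hout)
      (fun y hy q hq => ?_) (fun u hu => ?_) K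
    · have hyw : Cv.proj y = w := hy
      have hcore : y ∈ Cv.core D c :=
        Cv.mem_core_of_deep (show Pre c (Cv.proj y) by rw [hyw]; exact hpre)
          (by rw [hyw]; omega)
      have hnear := Cv.entry_near (Cv.mem_entry_of_walk hc (Cv.proj_rep r hr) q hq hcore)
      rw [hyw] at hnear
      omega
    · refine (Cv.prob_le_hit p u w).trans (Cv.hit_le_hitFrom p ?_)
      have hn := Cv.entry_near hu
      have htri := wdist_triangle (u := c) (v := Cv.proj u) (w := w)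
      have e : wdist (Cv.proj u) w = wlen ((Cv.proj u)⁻¹ * w) := rfl
      omega
  refine (sum_le_sum key).trans_eq ?_
  rw [sum_add_distrib, ← mul_sum, sum_comm]
  rfl

/-- A tail bound with exponent `1 - θ` gives decay with exponent `1 / θ`. -/
theorem exists_decay [H.LocallyFinite] (_hH : H.Connected) (D : ℕ) {p θ : ℝ} (hp : 0 < p)
    (hp1 : p ≤ 1) (hθ : 0 < θ) (hθ1 : θ < 1) {C : ℝ≥0∞} (hC : C ≠ ⊤)
    (hT : Cv.TailBound D p θ C) :
    ∃ A : ℝ, ∀ u : FreeGroup (Fin k),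
      Cv.hit p u ≤ ENNReal.ofReal (A * ((wlen u : ℝ) + 1) ^ (-(1 / θ))) := by
  classical
  set a : ℕ → ℝ := fun n => (Cv.hitFrom p n).toReal with ha
  have ha0 : ∀ n, 0 ≤ a n := fun n => ENNReal.toReal_nonneg
  have hfin : ∀ n, Cv.hitFrom p n ≠ ⊤ := fun n => Cv.hitFrom_ne_top hp.le hp1 n
  have hanti : Antitone a := fun m n hmn =>
    ENNReal.toReal_mono (hfin m) (Cv.hitFrom_antitone p hmn)
  set Cr := C.toReal
  set n₀ := 3 * (D + Cv.R) + 6 with hn₀
  set C' := 6 * (Cr + Cr / θ) with hC'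
  have hCr : 0 ≤ Cr := ENNReal.toReal_nonneg
  have main : ∀ w : FreeGroup (Fin k), n₀ ≤ wlen w →
      (wlen w : ℝ) * (Cv.hit p w).toReal ≤ C' * a (wlen w / 3 - Cv.R) ^ (1 - θ) := by
    intro w hw
    set n := wlen w
    set β := a (n / 3 - Cv.R) with hβ
    rcases (ha0 (n / 3 - Cv.R)).eq_or_lt with h | hβ0
    · have hz : (Cv.hit p w).toReal ≤ β :=
        ENNReal.toReal_mono (hfin _) (Cv.hit_le_hitFrom p (by omega))
      rw [hβ, ← h] at hz
      rw [le_antisymm hz ENNReal.toReal_nonneg, mul_zero, hC']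
      positivity
    set K := ⌊1 / β⌋₊
    set I := Icc (n / 3 + 1) (2 * n / 3) with hI
    have hsub : I ⊆ Icc 1 n := fun i hi => by
      simp only [hI, mem_Icc] at hi ⊢
      omega
    have hT2 : ∀ j : ℕ, 0 < j → ∑ i ∈ I, Cv.halfTail D p (pfx w i) j ≤
        ENNReal.ofReal (Cr * (j : ℝ) ^ (-(1 - θ))) := by
      intro j hj
      refine ((sum_le_sum_of_subset hsub).trans (hT.2.1 w j hj)).trans_eq ?_
      rw [ENNReal.ofReal_mul hCr, ENNReal.ofReal_toReal hC,
        ← ENNReal.ofReal_rpow_of_pos (by exact_mod_cast hj), ENNReal.ofReal_natCast]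
    have hsum : (I.card : ℝ≥0∞) * Cv.hit p w ≤
        ENNReal.ofReal (Cr * ((K + 1 : ℕ) : ℝ) ^ (-(1 - θ))) +
          ENNReal.ofReal β * ∑ j ∈ range K, ENNReal.ofReal (Cr * ((j + 1 : ℕ) : ℝ) ^ (-(1 - θ))) := by
      calc (I.card : ℝ≥0∞) * Cv.hit p w = ∑ _i ∈ I, Cv.hit p w := by rw [sum_const, nsmul_eq_mul]
        _ ≤ ∑ i ∈ I, (Cv.halfTail D p (pfx w i) (K + 1) +
            ENNReal.ofReal β * ∑ j ∈ range K, Cv.halfTail D p (pfx w i) (j + 1)) := by
          refine sum_le_sum fun i hi => ?_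
          simp only [hI, mem_Icc] at hi
          refine (Cv.hit_le_explore (D := D) hp.le hp1 w (i := i) (by omega) (by omega) K).trans ?_
          gcongr
          rw [hβ, ha, ENNReal.ofReal_toReal (hfin _)]
          exact Cv.hitFrom_antitone p (by omega)
        _ ≤ _ := by
          rw [sum_add_distrib, ← mul_sum, sum_comm]
          gcongr with j hj
          · exact hT2 _ (Nat.succ_pos K)
          · exact hT2 _ (Nat.succ_pos j)
    have hreal : (I.card : ℝ) * (Cv.hit p w).toReal ≤ Cr * ((K + 1 : ℕ) : ℝ) ^ (-(1 - θ)) +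
        β * ∑ j ∈ range K, Cr * ((j + 1 : ℕ) : ℝ) ^ (-(1 - θ)) := by
      rw [← ENNReal.toReal_natCast, ← ENNReal.toReal_mul]
      refine ENNReal.toReal_le_of_le_ofReal (by positivity) (hsum.trans_eq ?_)
      rw [ENNReal.ofReal_add (by positivity) (by positivity), ENNReal.ofReal_mul hβ0.le,
        ENNReal.ofReal_sum_of_nonneg fun j _ => by positivity]
    have hK1 : ((K + 1 : ℕ) : ℝ) ^ (-(1 - θ)) ≤ β ^ (1 - θ) := by
      have h1 : 1 / β ≤ ((K + 1 : ℕ) : ℝ) := by
        push_cast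
        exact (Nat.lt_floor_add_one _).le
      refine (Real.rpow_le_rpow_of_nonpos (by positivity) h1 (by linarith)).trans_eq ?_
      rw [one_div, Real.inv_rpow hβ0.le, ← Real.rpow_neg hβ0.le, neg_neg]
    have hK2 : β * ∑ j ∈ range K, Cr * ((j + 1 : ℕ) : ℝ) ^ (-(1 - θ)) ≤
        Cr / θ * β ^ (1 - θ) := by
      have h1 := sum_range_rpow_le (a := 1 - θ) (by linarith) (by linarith) K
      rw [sub_sub_cancel] at h1
      have h2 : β * (K : ℝ) ^ θ ≤ β ^ (1 - θ) := by
        have h3 : (K : ℝ) ^ θ ≤ (1 / β) ^ θ :=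
          Real.rpow_le_rpow (Nat.cast_nonneg _) (Nat.floor_le (by positivity)) hθ.le
        refine (mul_le_mul_of_nonneg_left h3 hβ0.le).trans_eq ?_
        rw [one_div, Real.inv_rpow hβ0.le, Real.rpow_sub hβ0, Real.rpow_one, div_eq_mul_inv]
      push_cast
      rw [← mul_sum]
      calc β * (Cr * ∑ j ∈ range K, ((j : ℝ) + 1) ^ (-(1 - θ)))
          ≤ β * (Cr * ((K : ℝ) ^ θ / θ)) :=
            mul_le_mul_of_nonneg_left (mul_le_mul_of_nonneg_left h1 hCr) hβ0.le
        _ = Cr / θ * (β * (K : ℝ) ^ θ) := by ring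
        _ ≤ _ := mul_le_mul_of_nonneg_left h2 (div_nonneg hCr hθ.le)
    have hcard : (n : ℝ) ≤ 6 * (I.card : ℝ) := by
      have : n ≤ 6 * I.card := by
        rw [hI, Nat.card_Icc]
        omega
      exact_mod_cast this
    calc (n : ℝ) * (Cv.hit p w).toReal ≤ 6 * ((I.card : ℝ) * (Cv.hit p w).toReal) := by
          rw [← mul_assoc]
          exact mul_le_mul_of_nonneg_right hcard ENNReal.toReal_nonneg
      _ ≤ C' * β ^ (1 - θ) := by
          rw [hC']
          have := mul_le_mul_of_nonneg_left hK1 hCr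
          linarith
  obtain ⟨A, hA⟩ := decay_induction hθ hθ1 ha0 hanti (n₀ := n₀) (R := Cv.R) (C := C')
    fun n hn => by
      have hn0 : (0 : ℝ) < n := by exact_mod_cast (show 0 < n by omega)
      have hC'0 : 0 ≤ C' := by rw [hC']; positivity
      rw [mul_comm, ← le_div_iff₀ hn0]
      refine ENNReal.toReal_le_of_le_ofReal ?_ (iSup₂_le fun u hu => ?_)
      · exact div_nonneg (mul_nonneg hC'0 (Real.rpow_nonneg (ha0 _) _)) hn0.le
      rw [← ENNReal.ofReal_toReal (ne_top_of_le_ne_top (hfin 0) (Cv.hit_le_hitFrom p (Nat.zero_le _)))]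
      refine ENNReal.ofReal_le_ofReal ?_
      rw [le_div_iff₀ hn0, mul_comm]
      refine (mul_le_mul_of_nonneg_right (Nat.cast_le.2 hu) ENNReal.toReal_nonneg).trans
        ((main u (le_trans hn hu)).trans (mul_le_mul_of_nonneg_left ?_ hC'0))
      exact Real.rpow_le_rpow (ha0 _) (hanti (by omega)) (by linarith)
  refine ⟨A, fun u => ?_⟩
  refine (Cv.hit_le_hitFrom p (le_refl (wlen u))).trans ?_
  rw [← ENNReal.ofReal_toReal (hfin _)]
  exact ENNReal.ofReal_le_ofReal (hA _)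

end Vale.Agent.P165.Quot.Cov
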