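import Vale.Agent.P165.Quot.Geom
import Vale.Agent.P165.Quot.Rays
import Vale.Agent.P165.Quot.ProbBasic
import Vale.Agent.P165.Quot.Continue

/-!
Exponential decay of the fibre counts with polynomial sphere sums bounds the susceptibility tilted
by the height seen from an end, up to and beyond the threshold, and so gives a nonuniqueness phase.
-/

open Finset
open scoped ENNReal unitInterval

namespace Vale.Agent.P165.Quot

variable {k : ℕ}

/-- The height difference seen from a distant point of a ray. -/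
lemma height_sub_eq {ξ : ℕ → FreeGroup (Fin k)} (hξ : IsRay ξ) (a u : FreeGroup (Fin k)) {m : ℕ}
    (ha : wlen a ≤ m) (hu : wlen (a * u) ≤ m) :
    height ξ (a * u) - height ξ a = (wlen (a⁻¹ * ξ m) : ℤ) - wdist u (a⁻¹ * ξ m) := by
  have h1 := height_eq (u := a) hξ (conf_le.trans ha)
  have h2 := height_eq (u := a * u) hξ (conf_le.trans hu)
  have e1 : wdist (a * u) (ξ m) = wdist u (a⁻¹ * ξ m) := by
    conv_lhs => rw [show ξ m = a * (a⁻¹ * ξ m) by group]
    exact wdist_mul_left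
  have e2 : wdist a (ξ m) = wlen (a⁻¹ * ξ m) := rfl
  rw [e1] at h2
  rw [e2] at h1
  omega

/-- Weights growing towards a word are summable against exponentially decaying quantities. -/
lemma sum_tilt_le {c : FreeGroup (Fin k) → ℝ} (hc0 : ∀ u, 0 ≤ c u) {A C δ : ℝ} (hA : 0 ≤ A)
    (hC : 0 ≤ C) (hδ : 0 < δ) (hmul : ∀ u v, Concat u v → c (u * v) ≤ C * c u * c v)
    (hdec : ∀ u, c u ≤ A * Real.exp (-δ * wlen u))
    (hsph : ∀ n, ∑ u ∈ sphere k n, c u ≤ A * ((n : ℝ) + 1) ^ 3)
    (t : FreeGroup (Fin k)) (s : Finset (FreeGroup (Fin k))) :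
    ∑ u ∈ s, c u * Real.exp (δ / 2 * ((wlen t : ℝ) - wdist u t)) ≤
      C * (A * ∑' i : ℕ, Real.exp (-(δ / 2) * i)) *
        (A * ∑' n : ℕ, ((n : ℝ) + 1) ^ 3 * Real.exp (-(δ / 2) * n)) := by
  classical
  have hdata : ∀ u : FreeGroup (Fin k), ∃ q : ℕ × FreeGroup (Fin k), q.1 ≤ wlen t ∧
      Concat (pfx t q.1) q.2 ∧ u = pfx t q.1 * q.2 ∧ wlen q.2 ≤ wlen u ∧
      (wlen t : ℝ) - wdist u t = (q.1 : ℝ) - wlen q.2 := by
    intro u
    obtain ⟨a, d, b, ht, hu, had, hab, hdb⟩ := exists_common t u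
    have hat : Pre a t := ht ▸ pre_mul had
    have hpa : pfx t (wlen a) = a :=
      pre_eq_of_length (pre_of_pre_of_le (pre_pfx _) hat (wlen_pfx (pre_length hat)).le)
        (wlen_pfx (pre_length hat)).ge
    refine ⟨(wlen a, b), pre_length hat, ?_, ?_, ?_, ?_⟩
    · simpa only [hpa] using hab
    · simpa only [hpa] using hu
    · show wlen b ≤ wlen u
      rw [hu, hab]
      omega
    · have hd : wdist u t = wlen d + wlen b := by
        rw [wdist_comm, ht, hu, wdist_mul_left, wdist]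
        exact hdb.trans (by rw [wlen_inv])
      rw [hd, ht, had]
      push_cast
      ring
  choose q hq1 hq2 hq3 hq4 hq5 using hdata
  have hinj : Set.InjOn q ↑s := fun u _ v _ h => by rw [hq3 u, hq3 v, h]
  set N := s.sup wlen
  set G : ℕ × FreeGroup (Fin k) → ℝ := fun x => C *
    (c (pfx t x.1) * Real.exp (δ / 2 * x.1)) * (c x.2 * Real.exp (-(δ / 2) * wlen x.2))
  have hG : ∀ x, 0 ≤ G x := fun x => mul_nonneg (mul_nonneg hC
    (mul_nonneg (hc0 _) (Real.exp_nonneg _))) (mul_nonneg (hc0 _) (Real.exp_nonneg _))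
  have hterm : ∀ u ∈ s, c u * Real.exp (δ / 2 * ((wlen t : ℝ) - wdist u t)) ≤ G (q u) := by
    intro u _
    have h := hmul _ _ (hq2 u)
    rw [← hq3 u] at h
    have he : Real.exp (δ / 2 * ((wlen t : ℝ) - wdist u t)) =
        Real.exp (δ / 2 * (q u).1) * Real.exp (-(δ / 2) * wlen (q u).2) := by
      rw [hq5 u, ← Real.exp_add]
      congr 1
      ring
    rw [he]
    calc c u * (Real.exp (δ / 2 * (q u).1) * Real.exp (-(δ / 2) * wlen (q u).2))
        ≤ C * c (pfx t (q u).1) * c (q u).2 *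
          (Real.exp (δ / 2 * (q u).1) * Real.exp (-(δ / 2) * wlen (q u).2)) :=
          mul_le_mul_of_nonneg_right h (by positivity)
      _ = G (q u) := by simp only [G]; ring
  set B := (range (N + 1)).biUnion (sphere k)
  have himg : s.image q ⊆ range (wlen t + 1) ×ˢ B := by
    intro x hx
    obtain ⟨u, hu, rfl⟩ := mem_image.1 hx
    have hN : wlen (q u).2 ≤ N := (hq4 u).trans (le_sup hu)
    exact mem_product.2 ⟨mem_range.2 (Nat.lt_succ_of_le (hq1 u)),
      mem_biUnion.2 ⟨_, mem_range.2 (Nat.lt_succ_of_le hN), mem_sphere.2 rfl⟩⟩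
  have hs0 : Summable fun i : ℕ => Real.exp (-(δ / 2) * i) := by
    simpa using Real.summable_pow_mul_exp_neg_nat_mul 0 (half_pos hδ)
  have hs3 : Summable fun n : ℕ => ((n : ℝ) + 1) ^ 3 * Real.exp (-(δ / 2) * n) := by
    refine Summable.of_nonneg_of_le (fun n => by positivity) (fun n => ?_)
      (((Real.summable_pow_mul_exp_neg_nat_mul 3 (half_pos hδ)).add hs0).mul_left 8)
    rw [← add_one_mul, ← mul_assoc]
    refine mul_le_mul_of_nonneg_right ?_ (Real.exp_nonneg _)
    have hn : (0 : ℝ) ≤ n := Nat.cast_nonneg n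
    nlinarith [mul_nonneg hn (sq_nonneg ((n : ℝ) - 1)), sq_nonneg ((n : ℝ) - 1), pow_nonneg hn 3]
  calc ∑ u ∈ s, c u * Real.exp (δ / 2 * ((wlen t : ℝ) - wdist u t))
      ≤ ∑ u ∈ s, G (q u) := sum_le_sum hterm
    _ = ∑ x ∈ s.image q, G x := (sum_image hinj).symm
    _ ≤ ∑ x ∈ range (wlen t + 1) ×ˢ B, G x := sum_le_sum_of_subset_of_nonneg himg fun x _ _ => hG x
    _ = C * (∑ i ∈ range (wlen t + 1), c (pfx t i) * Real.exp (δ / 2 * i)) *
        ∑ b ∈ B, c b * Real.exp (-(δ / 2) * wlen b) := by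
      rw [sum_product, mul_sum (a := C), sum_mul_sum]
    _ ≤ _ := by
      refine mul_le_mul (mul_le_mul_of_nonneg_left ?_ hC) ?_
        (sum_nonneg fun b _ => mul_nonneg (hc0 _) (Real.exp_nonneg _))
        (mul_nonneg hC (mul_nonneg hA (tsum_nonneg fun i => Real.exp_nonneg _)))
      · calc ∑ i ∈ range (wlen t + 1), c (pfx t i) * Real.exp (δ / 2 * i)
            ≤ ∑ i ∈ range (wlen t + 1), A * Real.exp (-(δ / 2) * i) := by
              refine sum_le_sum fun i hi => ?_
              have hi' : i ≤ wlen t := Nat.lt_succ_iff.1 (mem_range.1 hi)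
              refine (mul_le_mul_of_nonneg_right (hdec _) (Real.exp_nonneg _)).trans_eq ?_
              rw [wlen_pfx hi', mul_assoc, ← Real.exp_add]
              congr 2
              ring
          _ ≤ _ := by
              rw [← mul_sum]
              exact mul_le_mul_of_nonneg_left
                (hs0.sum_le_tsum _ fun i _ => Real.exp_nonneg _) hA
      · rw [sum_biUnion fun a _ b _ hab => Finset.disjoint_left.2 fun x hx hy =>
          hab ((mem_sphere.1 hx).symm.trans (mem_sphere.1 hy))]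
        calc ∑ n ∈ range (N + 1), ∑ b ∈ sphere k n, c b * Real.exp (-(δ / 2) * wlen b)
            ≤ ∑ n ∈ range (N + 1), A * (((n : ℝ) + 1) ^ 3 * Real.exp (-(δ / 2) * n)) := by
              refine sum_le_sum fun n _ => ?_
              rw [← mul_assoc]
              refine (le_of_eq ?_).trans (mul_le_mul_of_nonneg_right (hsph n) (Real.exp_nonneg _))
              rw [sum_mul]
              exact sum_congr rfl fun b hb => by rw [mem_sphere.1 hb]
          _ ≤ _ := by
              rw [← mul_sum]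
              exact mul_le_mul_of_nonneg_left
                (hs3.sum_le_tsum _ fun n _ => by positivity) hA

namespace Cov

variable {W Γ : Type*} [Group Γ] [MulAction Γ W] {H : SimpleGraph W}
  (Cv : Cov (Γ := Γ) H k)

/-- The tilt by the height seen from a ray. -/
noncomputable def tiltW (ξ : ℕ → FreeGroup (Fin k)) (lam : ℝ) (a b : W) : ℝ :=
  Real.exp (lam * ((height ξ (Cv.proj b) - height ξ (Cv.proj a) : ℤ) : ℝ))

lemma tiltW_mul (ξ : ℕ → FreeGroup (Fin k)) (lam : ℝ) (a b c : W) :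
    Cv.tiltW ξ lam a c = Cv.tiltW ξ lam a b * Cv.tiltW ξ lam b c := by
  rw [tiltW, tiltW, tiltW, ← Real.exp_add]
  congr 1
  push_cast
  ring

variable [DecidableEq W]

/-- The connections of a translated representative to a translated fibre are counted by `count`. -/
lemma sum_pr_fib_le {p : ℝ} (h0 : 0 ≤ p) (h1 : p ≤ 1) {g : Γ} {r : W} (hr : r ∈ Cv.reps)
    (u : FreeGroup (Fin k)) {U : Finset (Sym2 W)} (hU : ↑U ⊆ H.edgeSet) (s : Finset W)
    (hs : ∀ z ∈ s, Cv.proj z = Cv.π g * u) :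
    ENNReal.ofReal (∑ z ∈ s, pr p U (fun T => z ∈ cl {g • r} T)) ≤ Cv.count p u := by
  have hE : Sym2.map (Cv.act g) '' (Set.univ : Set (Sym2 W)) = Set.univ := by
    refine Set.eq_univ_of_forall fun e => ?_
    induction e with
    | h a b =>
      refine ⟨s((Cv.act g).symm a, (Cv.act g).symm b), trivial, ?_⟩
      rw [Sym2.map_mk]
      erw [(Cv.act g).apply_symm_apply, (Cv.act g).apply_symm_apply]
  have hT : (Cv.act g) '' Cv.Fib u = Cv.Fib (Cv.π g * u) := by
    ext z
    constructor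
    · rintro ⟨y, hy, rfl⟩
      show Cv.proj (g • y) = _
      rw [Cv.proj_smul, hy]
    · intro hz
      refine ⟨g⁻¹ • z, ?_, smul_inv_smul g z⟩
      show Cv.proj (g⁻¹ • z) = u
      rw [Cv.proj_smul, map_inv, hz, inv_mul_cancel_left]
  have hmean : mean H p Set.univ (g • r) (Cv.Fib (Cv.π g * u)) = mean H p Set.univ r (Cv.Fib u) := by
    have h := mean_iso (p := p) (Cv.act g) Set.univ r (Cv.Fib u)
    rwa [hE, hT, act_apply] at h
  refine le_trans (le_of_eq ?_) ((mean_ge_pr h0 h1 Set.univ (g • r) (Cv.Fib (Cv.π g * u)) hU s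
    hs).trans (hmean.le.trans (Finset.single_le_sum (f := fun r => mean H p Set.univ r (Cv.Fib u))
      (fun _ _ => zero_le) hr)))
  congr 1
  refine sum_congr rfl fun z _ => ?_
  congr 1
  funext S
  have hS : inPart Set.univ S = S := by ext e; simp [mem_inPart]
  simp [connTo, hS]

/-- The tilted susceptibility is bounded in terms of the fibre counts. -/
lemma tilted_le_of_count {p : ℝ} (h0 : 0 ≤ p) (h1 : p ≤ 1) {A C δ : ℝ} (hA : 0 ≤ A) (hC : 0 ≤ C)
    (hδ : 0 < δ)
    (hmul : ∀ u v, Concat u v → Cv.count p (u * v) ≤ ENNReal.ofReal C * Cv.count p u * Cv.count p v)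
    (hdec : ∀ u, Cv.count p u ≤ ENNReal.ofReal (A * Real.exp (-δ * wlen u)))
    (hsph : ∀ n, ∑ u ∈ sphere k n, Cv.count p u ≤ ENNReal.ofReal (A * ((n : ℝ) + 1) ^ 3))
    {ξ : ℕ → FreeGroup (Fin k)} (hξ : IsRay ξ) (v : W) (Λ : Finset W) {U : Finset (Sym2 W)}
    (hU : ↑U ⊆ H.edgeSet) :
    ∑ z ∈ Λ, Cv.tiltW ξ (δ / 2) v z * pr p U (fun T => z ∈ cl {v} T) ≤
      C * (A * ∑' i : ℕ, Real.exp (-(δ / 2) * i)) *
        (A * ∑' n : ℕ, ((n : ℝ) + 1) ^ 3 * Real.exp (-(δ / 2) * n)) := by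
  classical
  obtain ⟨g, r, hr, rfl⟩ := Cv.cover v
  set c : FreeGroup (Fin k) → ℝ := fun u => (Cv.count p u).toReal
  have htop : ∀ u, Cv.count p u ≠ ⊤ := fun u =>
    ne_top_of_le_ne_top ENNReal.ofReal_ne_top (hdec u)
  have hmul' : ∀ u v, Concat u v → c (u * v) ≤ C * c u * c v := fun u v h => by
    have := ENNReal.toReal_mono (ENNReal.mul_ne_top (ENNReal.mul_ne_top ENNReal.ofReal_ne_top
      (htop u)) (htop v)) (hmul u v h)
    rwa [ENNReal.toReal_mul, ENNReal.toReal_mul, ENNReal.toReal_ofReal hC] at this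
  have hdec' : ∀ u, c u ≤ A * Real.exp (-δ * wlen u) := fun u =>
    ENNReal.toReal_le_of_le_ofReal (by positivity) (hdec u)
  have hsph' : ∀ n, ∑ u ∈ sphere k n, c u ≤ A * ((n : ℝ) + 1) ^ 3 := fun n => by
    rw [← ENNReal.toReal_sum fun u _ => htop u]
    exact ENNReal.toReal_le_of_le_ofReal (by positivity) (hsph n)
  set a := Cv.π g with ha
  have hv : Cv.proj (g • r) = a := by rw [Cv.proj_smul, Cv.proj_rep r hr, mul_one]
  set key : W → FreeGroup (Fin k) := fun z => a⁻¹ * Cv.proj z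
  set m := max (wlen a) (Λ.sup fun z => wlen (Cv.proj z))
  set t := a⁻¹ * ξ m
  have hw : ∀ z ∈ Λ, Cv.tiltW ξ (δ / 2) (g • r) z =
      Real.exp (δ / 2 * ((wlen t : ℝ) - wdist (key z) t)) := by
    intro z hz
    have h := height_sub_eq hξ a (key z) (m := m) (le_max_left _ _) (by
      simp only [key, mul_inv_cancel_left]
      exact (le_sup (f := fun z => wlen (Cv.proj z)) hz).trans (le_max_right _ _))
    simp only [key, mul_inv_cancel_left] at h
    rw [tiltW, hv, h]
    push_cast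
    rfl
  rw [← sum_fiberwise_of_maps_to (t := Λ.image key) fun z hz => mem_image_of_mem key hz]
  refine le_trans (sum_le_sum fun u _ => ?_)
    (sum_tilt_le (fun u => ENNReal.toReal_nonneg) hA hC hδ hmul' hdec' hsph' t (Λ.image key))
  calc ∑ z ∈ Λ with key z = u, Cv.tiltW ξ (δ / 2) (g • r) z * pr p U (fun T => z ∈ cl {g • r} T)
      = Real.exp (δ / 2 * ((wlen t : ℝ) - wdist u t)) *
          ∑ z ∈ Λ with key z = u, pr p U (fun T => z ∈ cl {g • r} T) := by
        rw [mul_sum]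
        refine sum_congr rfl fun z hz => ?_
        rw [hw z (mem_filter.1 hz).1, (mem_filter.1 hz).2]
    _ ≤ Real.exp (δ / 2 * ((wlen t : ℝ) - wdist u t)) * c u := by
        refine mul_le_mul_of_nonneg_left ((ENNReal.ofReal_le_iff_le_toReal (htop u)).1 ?_)
          (Real.exp_nonneg _)
        refine Cv.sum_pr_fib_le h0 h1 hr u hU _ fun z hz => ?_
        rw [← (mem_filter.1 hz).2]
        simp [key, a]
    _ = c u * Real.exp (δ / 2 * ((wlen t : ℝ) - wdist u t)) := mul_comm _ _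

/-- Uniform decay of the fibre counts below the threshold gives a nonuniqueness phase. -/
theorem pc_lt_pu_of_count [H.LocallyFinite] (hH : H.Connected) (hpc1 : pc H < 1) {p₀ A C δ : ℝ}
    (hp₀ : p₀ < pc H) (hA : 0 ≤ A) (hC : 0 ≤ C) (hδ : 0 < δ)
    (hmul : ∀ p, p₀ ≤ p → 0 ≤ p → p < pc H → ∀ u v, Concat u v →
      Cv.count p (u * v) ≤ ENNReal.ofReal C * Cv.count p u * Cv.count p v)
    (hdec : ∀ p, p₀ ≤ p → 0 ≤ p → p < pc H → ∀ u,
      Cv.count p u ≤ ENNReal.ofReal (A * Real.exp (-δ * wlen u)))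
    (hsph : ∀ p, p₀ ≤ p → 0 ≤ p → p < pc H → ∀ n,
      ∑ u ∈ sphere k n, Cv.count p u ≤ ENNReal.ofReal (A * ((n : ℝ) + 1) ^ 3)) :
    pc H < pu H := by
  classical
  have := Cv.infinite
  have hQT := Cv.quasiTransitive
  have hpc0 : 0 < pc H := pc_pos hH hQT
  obtain ⟨ξ, hξ, -⟩ := exists_ray_through (le_trans one_le_two Cv.two_le) (1 : FreeGroup (Fin k))
  set f := Cv.tiltW ξ (δ / 2) with hf
  have hf0 : ∀ a b, 0 ≤ f a b := fun a b => Real.exp_nonneg _
  have hfm : ∀ a b c, f a c ≤ f a b * f b c := fun a b c => (Cv.tiltW_mul ξ _ a b c).le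
  set B := C * (A * ∑' i : ℕ, Real.exp (-(δ / 2) * i)) *
    (A * ∑' n : ℕ, ((n : ℝ) + 1) ^ 3 * Real.exp (-(δ / 2) * n))
  have hbound : ∀ (v : W) (Λ : Finset W) (U : Finset (Sym2 W)), ↑U ⊆ H.edgeSet →
      ∑ z ∈ Λ, f v z * pr (pc H) U (fun T => z ∈ cl {v} T) ≤ B := by
    intro v Λ U hU
    have hcont : Continuous fun q : ℝ => ∑ z ∈ Λ, f v z * pr q U (fun T => z ∈ cl {v} T) :=
      continuous_finsetSum _ fun z _ => continuous_const.mul
        (continuous_iff_continuousAt.2 fun q => (hasDerivAt_pr q U _).continuousAt)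
    refine le_of_tendsto ((hcont.tendsto (pc H)).mono_left
      (nhdsWithin_le_nhds (s := Set.Iio (pc H)))) ?_
    filter_upwards [Ioo_mem_nhdsLT (max_lt hp₀ hpc0)] with q hq
    have hq0 : 0 ≤ q := (le_max_right _ _).trans hq.1.le
    have hqp : p₀ ≤ q := (le_max_left _ _).trans hq.1.le
    exact Cv.tilted_le_of_count hq0 (hq.2.le.trans hpc1.le) hA hC hδ (hmul q hqp hq0 hq.2)
      (hdec q hqp hq0 hq.2) (hsph q hqp hq0 hq.2) hξ v Λ hU
  obtain ⟨D, hD⟩ := Cv.degree_bound
  have hL : ∀ x y, H.Adj x y → f x y ≤ Real.exp (δ / 2 * Cv.R) := by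
    intro x y hxy
    refine Real.exp_le_exp.2 (mul_le_mul_of_nonneg_left ?_ (half_pos hδ).le)
    have h1 : height ξ (Cv.proj y) - height ξ (Cv.proj x) ≤ (Cv.R : ℤ) :=
      (height_lipschitz hξ).trans (by exact_mod_cast Cv.jump y x hxy.symm)
    exact_mod_cast h1
  obtain ⟨q, hpq, hq1, C', hC'⟩ := tilt_open_uniform hf0 hfm hpc0.le hpc1 hD hL hbound
  refine pc_lt_pu_of_decay hH (q := ⟨q, hpc0.le.trans hpq.le, hq1.le⟩) hpq ?_
  refine connDecay_of_tilt (hpc0.le.trans hpq.le) hq1.le hC' fun P x M => ?_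
  set m₀ := P.sup fun a => wlen (Cv.proj a)
  obtain ⟨j, hj⟩ := exists_nat_gt (Real.log (max M 1) / (δ / 2))
  set m := m₀ + j + 1 with hm
  obtain ⟨g, hg⟩ := Cv.exists_lift (ξ m * (Cv.proj x)⁻¹)
  have hx : Cv.proj (Cv.act g x) = ξ m := by
    rw [act_apply, Cv.proj_smul, hg, inv_mul_cancel_right]
  have hhm : height ξ (ξ m) = (m : ℤ) := by
    have h1 : m ≤ conf ξ (ξ m) := (le_conf_iff hξ).2 pre_refl
    have h2 : conf ξ (ξ m) ≤ wlen (ξ m) := conf_le
    have h3 : wlen (ξ m) = m := (hξ m).1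
    unfold height
    omega
  refine ⟨Cv.act g, fun hmem => ?_, fun a ha => ?_⟩
  · have h1 : wlen (Cv.proj (Cv.act g x)) ≤ m₀ := le_sup (f := fun a => wlen (Cv.proj a)) hmem
    rw [hx, (hξ m).1] at h1
    omega
  · have ha1 : height ξ (Cv.proj a) ≤ (m₀ : ℤ) := by
      have h1 : wlen (Cv.proj a) ≤ m₀ := le_sup (f := fun a => wlen (Cv.proj a)) ha
      have h2 := height_le_conf (ξ := ξ) (u := Cv.proj a)
      have h3 := conf_le (ξ := ξ) (u := Cv.proj a)
      omega
    rw [hf, tiltW, hx, hhm]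
    calc M ≤ max M 1 := le_max_left _ _
      _ = Real.exp (Real.log (max M 1)) := (Real.exp_log (lt_max_of_lt_right one_pos)).symm
      _ ≤ _ := by
        refine Real.exp_le_exp.2 ?_
        rw [div_lt_iff₀ (half_pos hδ)] at hj
        refine hj.le.trans ?_
        rw [mul_comm]
        refine mul_le_mul_of_nonneg_left ?_ (half_pos hδ).le
        have : (j : ℤ) ≤ (m : ℤ) - height ξ (Cv.proj a) := by omega
        exact_mod_cast this

end Cov

end Vale.Agent.P165.Quot
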