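import Vale.Agent.P165.Quot.Moments
import Vale.Agent.P165.Quot.Series
import Vale.Agent.P165.Quot.Tilt

/-!
Polynomial bounds on the fibre counts, uniform below the threshold, improve by submultiplicativity
to exponential decay and so give a nonuniqueness phase.
-/

open Finset
open scoped ENNReal

namespace Vale.Agent.P165.Quot.Cov

variable {W Γ : Type*} {k : ℕ} [Group Γ] [MulAction Γ W] {H : SimpleGraph W} [DecidableEq W]
  [H.LocallyFinite] (Cv : Cov (Γ := Γ) H k)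

/-- Uniform polynomial decay of the counts and of their sphere sums gives `pc < pu`. -/
theorem pc_lt_pu_of_count_bound (hH : H.Connected) (hpc1 : pc H < 1) {B : ℝ} (hB : 0 ≤ B)
    (h : ∀ p, pc H / 2 ≤ p → p < pc H →
      (∀ u : FreeGroup (Fin k),
        Cv.count p u ≤ ENNReal.ofReal (B * ((wlen u : ℝ) + 1) ^ (-(8 : ℝ)))) ∧
      ∀ n, ∑ u ∈ sphere k n, Cv.count p u ≤ ENNReal.ofReal (B * ((n : ℝ) + 1) ^ 3)) :
    pc H < pu H := by
  classical
  have := Cv.infinite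
  have hpc0 : 0 < pc H := pc_pos hH Cv.quasiTransitive
  obtain ⟨C, hC, hmul⟩ := Cv.exists_count_concat hH (half_pos hpc0)
  set C' := max C.toReal B + 1
  have hC'0 : 0 < C' := add_pos_of_nonneg_of_pos (hB.trans (le_max_right _ _)) one_pos
  have hCC : C.toReal ≤ C' := (le_max_left _ _).trans (le_add_of_nonneg_right zero_le_one)
  have hBC : B ≤ C' := (le_max_right _ _).trans (le_add_of_nonneg_right zero_le_one)
  obtain ⟨n, hn⟩ := exists_nat_gt (2 * C' * B)
  set ρ := 1 / (2 * C') with hρdef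
  have hρ0 : 0 < ρ := one_div_pos.2 (by linarith)
  have hρ : C' * ρ < 1 := by
    rw [hρdef, ← mul_div_assoc, mul_one, div_lt_one (by linarith)]
    linarith
  let P := {p : ℝ // pc H / 2 ≤ p ∧ p < pc H}
  let F : P × FreeGroup (Fin k) → ℝ := fun x => (Cv.count x.1.1 x.2).toReal
  have htop : ∀ x : P × FreeGroup (Fin k), Cv.count x.1.1 x.2 ≠ ⊤ := fun x =>
    ne_top_of_le_ne_top ENNReal.ofReal_ne_top ((h x.1.1 x.1.2.1 x.1.2.2).1 x.2)
  have hdec : ∀ x, F x ≤ B * ((wlen x.2 : ℝ) + 1) ^ (-(8 : ℝ)) := fun x =>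
    ENNReal.toReal_le_of_le_ofReal (by positivity) ((h x.1.1 x.1.2.1 x.1.2.2).1 x.2)
  have hbd : ∀ x, F x ≤ C' := fun x => by
    have h1 : ((wlen x.2 : ℝ) + 1) ^ (-(8 : ℝ)) ≤ 1 :=
      Real.rpow_le_one_of_one_le_of_nonpos (by simp) (by norm_num)
    exact (hdec x).trans ((mul_le_of_le_one_right hB h1).trans hBC)
  have hsmall : ∀ x, wlen x.2 = n + 1 → F x ≤ ρ := fun x hx => by
    refine (hdec x).trans ?_
    have h1 : ((wlen x.2 : ℝ) + 1) ^ (-(8 : ℝ)) ≤ ((wlen x.2 : ℝ) + 1)⁻¹ := by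
      rw [← Real.rpow_neg_one]
      exact Real.rpow_le_rpow_of_exponent_le (by simp) (by norm_num)
    refine (mul_le_mul_of_nonneg_left h1 hB).trans ?_
    rw [hx, ← div_eq_mul_inv, hρdef, div_le_div_iff₀ (by positivity) (by linarith)]
    push_cast
    linarith
  have hsplit : ∀ x : P × FreeGroup (Fin k), n + 1 ≤ wlen x.2 → ∃ b d : P × FreeGroup (Fin k),
      wlen b.2 = n + 1 ∧ wlen d.2 + (n + 1) = wlen x.2 ∧ F x ≤ C' * F b * F d := by
    rintro ⟨⟨p, hp, hp'⟩, u⟩ hx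
    have hcat := pre_iff_concat.1 (pre_pfx (u := u) (n + 1))
    have hlen : wlen u = wlen (pfx u (n + 1)) + wlen ((pfx u (n + 1))⁻¹ * u) := by
      rwa [Concat, mul_inv_cancel_left] at hcat
    refine ⟨(⟨p, hp, hp'⟩, pfx u (n + 1)), (⟨p, hp, hp'⟩, (pfx u (n + 1))⁻¹ * u),
      wlen_pfx hx, ?_, ?_⟩
    · show wlen ((pfx u (n + 1))⁻¹ * u) + (n + 1) = wlen u
      rw [wlen_pfx hx] at hlen
      omega
    · have hle := hmul p hp (hp'.le.trans hpc1.le) _ _ hcat
      rw [mul_inv_cancel_left] at hle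
      have hle' := ENNReal.toReal_mono (ENNReal.mul_ne_top (ENNReal.mul_ne_top hC
        (htop (⟨p, hp, hp'⟩, _))) (htop (⟨p, hp, hp'⟩, _))) hle
      rw [ENNReal.toReal_mul, ENNReal.toReal_mul] at hle'
      exact hle'.trans (mul_le_mul_of_nonneg_right
        (mul_le_mul_of_nonneg_right hCC ENNReal.toReal_nonneg) ENNReal.toReal_nonneg)
  obtain ⟨A, δ, hδ, hA⟩ := exp_decay (fun x : P × FreeGroup (Fin k) => wlen x.2) F
    (fun _ => ENNReal.toReal_nonneg) hC'0 hρ0 hρ hbd hsmall (Nat.succ_pos n) hsplit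
  refine Cv.pc_lt_pu_of_count hH hpc1 (p₀ := pc H / 2) (A := max (max A B) 0) (C := C')
    (by linarith) (le_max_right _ _) hC'0.le hδ (fun p hp _ hp' u v huv => ?_)
    (fun p hp _ hp' u => ?_) (fun p hp _ hp' m => ?_)
  · refine (hmul p hp (hp'.le.trans hpc1.le) u v huv).trans ?_
    gcongr
    rw [← ENNReal.ofReal_toReal hC]
    exact ENNReal.ofReal_le_ofReal hCC
  · rw [← ENNReal.ofReal_toReal (htop (⟨p, hp, hp'⟩, u))]
    exact ENNReal.ofReal_le_ofReal ((hA (⟨p, hp, hp'⟩, u)).trans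
      (mul_le_mul_of_nonneg_right ((le_max_left _ _).trans (le_max_left _ _)) (Real.exp_nonneg _)))
  · refine ((h p hp hp').2 m).trans (ENNReal.ofReal_le_ofReal ?_)
    exact mul_le_mul_of_nonneg_right ((le_max_right _ _).trans (le_max_left _ _)) (by positivity)

end Vale.Agent.P165.Quot.Cov
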