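import Vale.Agent.P165.Quot.WordDefs

/-!
Geometry of reduced words: lengths, reduced concatenation, prefixes and relative cones.
-/

namespace Vale.Agent.P165.Quot

variable {k : ℕ} {u v w c h : FreeGroup (Fin k)} {x y l : Letter k}
  {P S : List (Letter k)}

lemma wlen_eq_norm (u : FreeGroup (Fin k)) : wlen u = u.norm := rfl

@[simp] lemma wlen_one : wlen (1 : FreeGroup (Fin k)) = 0 := by simp [wlen]

lemma wlen_eq_zero : wlen u = 0 ↔ u = 1 := FreeGroup.norm_eq_zero

@[simp] lemma wlen_inv : wlen u⁻¹ = wlen u := FreeGroup.norm_inv_eq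

lemma wlen_mul_le : wlen (u * v) ≤ wlen u + wlen v := FreeGroup.norm_mul_le u v

@[simp] lemma wdist_self : wdist u u = 0 := by simp [wdist]

lemma wdist_comm : wdist u v = wdist v u := by
  rw [wdist, wdist, ← wlen_inv (u := v⁻¹ * u), mul_inv_rev, inv_inv]

lemma wdist_triangle : wdist u w ≤ wdist u v + wdist v w := by
  refine le_trans (le_of_eq ?_) wlen_mul_le
  rw [wdist]
  group

@[simp] lemma wdist_mul_left : wdist (h * u) (h * v) = wdist u v := by simp [wdist, mul_assoc]

@[simp] lemma wdist_one_left : wdist 1 u = wlen u := by simp [wdist]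

@[simp] lemma opp_opp : opp (opp x) = x := by simp [opp]

lemma opp_ne : opp x ≠ x := fun e => by simpa [opp] using congrArg Prod.snd e

lemma toWord_mk_of_reduced (h : FreeGroup.IsReduced P) : (FreeGroup.mk P).toWord = P := by
  rw [FreeGroup.toWord_mk, h.reduce_eq]

@[simp] lemma toWord_gen : (gen x).toWord = [x] :=
  toWord_mk_of_reduced FreeGroup.IsReduced.singleton

@[simp] lemma wlen_gen : wlen (gen x) = 1 := by simp [wlen]

lemma gen_inv : (gen x)⁻¹ = gen (opp x) := by simp [gen, opp, FreeGroup.inv_mk, FreeGroup.invRev]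

lemma lastL_eq_none : lastL u = none ↔ u = 1 := by simp [lastL]

lemma headL_eq_none : headL u = none ↔ u = 1 := by simp [headL]

lemma headL_inv : headL u⁻¹ = (lastL u).map opp := by
  simp [headL, lastL, FreeGroup.toWord_inv, FreeGroup.invRev, List.head?_map]
  rfl

lemma lastL_inv : lastL u⁻¹ = (headL u).map opp := by
  simp [headL, lastL, FreeGroup.toWord_inv, FreeGroup.invRev, List.getLast?_map]
  rfl

lemma headL_gen : headL (gen x) = some x := by simp [headL]

lemma lastL_gen : lastL (gen x) = some x := by simp [lastL]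

/-- A letter may follow another one exactly when it is not the opposite one. -/
lemma adj_iff : (x.1 = y.1 → x.2 = y.2) ↔ y ≠ opp x := by
  obtain ⟨a, p⟩ := x
  obtain ⟨b, q⟩ := y
  cases p <;> cases q <;> simp [opp, eq_comm]

lemma isReduced_append_iff : FreeGroup.IsReduced (P ++ S) ↔
    FreeGroup.IsReduced P ∧ FreeGroup.IsReduced S ∧
      ∀ z, P.getLast? = some z → S.head? ≠ some (opp z) := by
  simp only [FreeGroup.IsReduced, List.isChain_append]
  refine and_congr_right fun _ => and_congr_right fun _ => ⟨fun H z hz hs => ?_, fun H a ha b hb => ?_⟩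
  · exact adj_iff.1 (H z hz _ hs) rfl
  · exact adj_iff.2 fun e => H a ha (by rw [← e]; exact hb)

lemma concat_iff_reduced : Concat u v ↔ FreeGroup.IsReduced (u.toWord ++ v.toWord) := by
  refine ⟨fun h => ?_, fun h => ?_⟩
  · have e : (u * v).toWord = u.toWord ++ v.toWord :=
      (FreeGroup.toWord_mul_sublist u v).eq_of_length (by simpa [Concat, wlen] using h)
    exact e ▸ FreeGroup.isReduced_toWord
  · simp [Concat, wlen, FreeGroup.toWord_mul, h.reduce_eq]

lemma toWord_concat (huv : Concat u v) : (u * v).toWord = u.toWord ++ v.toWord := by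
  rw [FreeGroup.toWord_mul, (concat_iff_reduced.1 huv).reduce_eq]

lemma concat_iff : Concat u v ↔ ∀ z, lastL u = some z → headL v ≠ some (opp z) := by
  rw [concat_iff_reduced, isReduced_append_iff]
  simp only [lastL, headL, FreeGroup.isReduced_toWord, true_and]

lemma concat_one_left : Concat 1 u := by simp [Concat]

lemma concat_one_right : Concat u 1 := by simp [Concat]

lemma lastL_concat (huv : Concat u v) (hv : v ≠ 1) : lastL (u * v) = lastL v := by
  rw [lastL, lastL, toWord_concat huv]
  exact List.getLast?_append_of_ne_nil _ (by simpa using hv)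

lemma headL_concat (huv : Concat u v) (hu : u ≠ 1) : headL (u * v) = headL u := by
  rw [headL, headL, toWord_concat huv]
  exact List.head?_append_of_ne_nil _ (by simpa using hu)

lemma concat_assoc (huv : Concat u v) (hvw : Concat v w) (hv : v ≠ 1) :
    Concat (u * v) w ∧ Concat u (v * w) := by
  constructor
  · rw [concat_iff, lastL_concat huv hv]
    exact concat_iff.1 hvw
  · rw [concat_iff, headL_concat hvw hv]
    exact concat_iff.1 huv

lemma concat_inv (huv : Concat u v) : Concat v⁻¹ u⁻¹ := by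
  rw [Concat, ← mul_inv_rev, wlen_inv, wlen_inv, wlen_inv, huv, add_comm]

/-- A split of a reduced word is a product without cancellation. -/
lemma concat_of_split (h : u.toWord = P ++ S) :
    u = FreeGroup.mk P * FreeGroup.mk S ∧ (FreeGroup.mk P).toWord = P ∧
      (FreeGroup.mk S).toWord = S ∧ Concat (FreeGroup.mk P) (FreeGroup.mk S) := by
  have hr : FreeGroup.IsReduced (P ++ S) := h ▸ FreeGroup.isReduced_toWord
  have hP := toWord_mk_of_reduced (isReduced_append_iff.1 hr).1
  have hS := toWord_mk_of_reduced (isReduced_append_iff.1 hr).2.1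
  refine ⟨?_, hP, hS, concat_iff_reduced.2 (by rwa [hP, hS])⟩
  rw [FreeGroup.mul_mk, ← h, FreeGroup.mk_toWord]

lemma pre_refl : Pre u u := List.prefix_rfl

lemma pre_trans (h1 : Pre u v) (h2 : Pre v w) : Pre u w := List.IsPrefix.trans h1 h2

lemma one_pre : Pre 1 u := by simp [Pre]

lemma pre_length (h1 : Pre u v) : wlen u ≤ wlen v := List.IsPrefix.length_le h1

lemma pre_eq_of_length (h1 : Pre u v) (h2 : wlen v ≤ wlen u) : u = v :=
  FreeGroup.toWord_injective
    (List.IsPrefix.eq_of_length h1 (le_antisymm (pre_length h1) h2))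

lemma pre_of_pre_of_le (h1 : Pre u w) (h2 : Pre v w) (hle : wlen u ≤ wlen v) : Pre u v :=
  List.prefix_of_prefix_length_le h1 h2 hle

lemma pre_mul (huv : Concat u v) : Pre u (u * v) := by
  rw [Pre, toWord_concat huv]
  exact List.prefix_append _ _

lemma pre_iff_concat : Pre c u ↔ Concat c (c⁻¹ * u) := by
  refine ⟨fun h => ?_, fun h => by simpa [mul_inv_cancel_left] using pre_mul h⟩
  obtain ⟨S, hS⟩ := h
  obtain ⟨h1, -, -, h4⟩ := concat_of_split hS.symm
  rw [FreeGroup.mk_toWord] at h1 h4
  rw [h1, inv_mul_cancel_left]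
  exact h4

lemma pre_iff_rel (hl : lastL c = some l) : Pre c u ↔ c⁻¹ * u ∈ rel l := by
  rw [pre_iff_concat, concat_iff]
  simp [rel, hl]

lemma pre_translate (hc : lastL c = some l) (hhc : lastL (h * c) = some l) :
    Pre (h * c) (h * u) ↔ Pre c u := by
  rw [pre_iff_rel hc, pre_iff_rel hhc, show (h * c)⁻¹ * (h * u) = c⁻¹ * u by group]

lemma pre_mul_iff (hv : Concat u v) (hw : Concat u w) : Pre (u * v) (u * w) ↔ Pre v w := by
  rw [Pre, Pre, toWord_concat hv, toWord_concat hw, List.prefix_append_right_inj]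

lemma exists_common_list : ∀ L M : List (Letter k), ∃ p s t,
    L = p ++ s ∧ M = p ++ t ∧ ∀ z, s.head? = some z → t.head? ≠ some z
  | [], M => ⟨[], [], M, rfl, rfl, by simp⟩
  | a :: L, [] => ⟨[], a :: L, [], rfl, rfl, by simp⟩
  | a :: L, b :: M => by
    by_cases hab : a = b
    · obtain ⟨p, s, t, h1, h2, h3⟩ := exists_common_list L M
      exact ⟨a :: p, s, t, by simp [h1], by simp [h2, hab], h3⟩
    · exact ⟨[], a :: L, b :: M, rfl, rfl, by simpa using fun e => hab e.symm⟩

/-- Two words split at the end of their common part. -/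
lemma exists_common (u v : FreeGroup (Fin k)) :
    ∃ a b d, u = a * b ∧ v = a * d ∧ Concat a b ∧ Concat a d ∧ Concat b⁻¹ d := by
  obtain ⟨p, s, t, h1, h2, h3⟩ := exists_common_list u.toWord v.toWord
  obtain ⟨e1, -, hs, c1⟩ := concat_of_split h1
  obtain ⟨e2, -, ht, c2⟩ := concat_of_split h2
  refine ⟨_, _, _, e1, e2, c1, c2, concat_iff.2 fun z hz => ?_⟩
  rw [lastL_inv, Option.map_eq_some_iff] at hz
  obtain ⟨q, hq, rfl⟩ := hz
  rw [headL, hs] at hq
  rw [headL, ht, opp_opp]
  exact h3 q hq

lemma cross_dist (h1 : Pre c u) (h2 : ¬ Pre c v) : wlen u < wlen c + wdist u v := by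
  obtain ⟨a, b, d, rfl, rfl, hab, had, hbd⟩ := exists_common u v
  have hd : wdist (a * b) (a * d) = wlen b + wlen d := by
    rw [wdist_mul_left, wdist]
    exact hbd.trans (by rw [wlen_inv])
  have : wlen a < wlen c := not_le.1 fun hle =>
    h2 (pre_trans (pre_of_pre_of_le h1 (pre_mul hab) hle) (pre_mul had))
  have := hab
  unfold Concat at this
  omega

lemma pre_of_near (h1 : Pre c u) (h2 : wlen c + wdist u v ≤ wlen u) : Pre c v :=
  by_contra fun h => absurd (cross_dist h1 h) (not_lt.2 h2)

lemma toWord_pfx (i : ℕ) : (pfx u i).toWord = u.toWord.take i :=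
  toWord_mk_of_reduced (List.IsChain.take FreeGroup.isReduced_toWord _)

lemma pre_pfx (i : ℕ) : Pre (pfx u i) u := by
  rw [Pre, toWord_pfx]
  exact List.take_prefix i _

lemma wlen_pfx {i : ℕ} (hi : i ≤ wlen u) : wlen (pfx u i) = i := by
  rw [wlen, toWord_pfx, List.length_take]
  exact min_eq_left hi

lemma pfx_self : pfx u (wlen u) = u := pre_eq_of_length (pre_pfx _) (wlen_pfx le_rfl).ge

end Vale.Agent.P165.Quot
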