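import Vale.Agent.P165.Quot.Cov
import Vale.Agent.P165.Quot.Words

/-!
Geometry of a graph over a free group: translations, walks following words, cones and their cores.
-/

open Finset
open scoped ENNReal

namespace Vale.Agent.P165.Quot

namespace Cov

variable {W Γ : Type*} {k : ℕ} [Group Γ] [MulAction Γ W] {H : SimpleGraph W}
  (Cv : Cov (Γ := Γ) H k)

/-- Translation by a group element, as an automorphism of the graph. -/
def act (g : Γ) : H ≃g H where
  toEquiv := MulAction.toPerm g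
  map_rel_iff' := Cv.adj_smul g _ _

@[simp] lemma act_apply (g : Γ) (x : W) : Cv.act g x = g • x := rfl

/-- A translated walk. -/
def actWalk (g : Γ) {x y : W} (q : H.Walk x y) : H.Walk (g • x) (g • y) := q.map (Cv.act g).toHom

@[simp] lemma length_actWalk (g : Γ) {x y : W} (q : H.Walk x y) :
    (Cv.actWalk g q).length = q.length :=
  SimpleGraph.Walk.length_map _ _

lemma support_actWalk (g : Γ) {x y : W} (q : H.Walk x y) :
    (Cv.actWalk g q).support = q.support.map (fun z => g • z) :=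
  SimpleGraph.Walk.support_map _ _

lemma edges_actWalk (g : Γ) {x y : W} (q : H.Walk x y) :
    (Cv.actWalk g q).edges = q.edges.map (Sym2.map fun z => g • z) :=
  SimpleGraph.Walk.edges_map _ _

lemma exists_lift (u : FreeGroup (Fin k)) : ∃ g : Γ, Cv.π g = u := Cv.surj u

lemma proj_cls {u : FreeGroup (Fin k)} {r x : W} (hr : r ∈ Cv.reps) (hx : x ∈ Cv.cls u r) :
    Cv.proj x = u := by
  obtain ⟨g, rfl, rfl⟩ := hx
  rw [Cv.proj_smul, Cv.proj_rep r hr, mul_one]

lemma exists_cls (x : W) : ∃ r ∈ Cv.reps, x ∈ Cv.cls (Cv.proj x) r := by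
  obtain ⟨g, r, hr, rfl⟩ := Cv.cover x
  exact ⟨r, hr, g, by rw [Cv.proj_smul, Cv.proj_rep r hr, mul_one], rfl⟩

lemma smul_mem_cls {g : Γ} {u : FreeGroup (Fin k)} {r x : W} (hx : x ∈ Cv.cls u r) :
    g • x ∈ Cv.cls (Cv.π g * u) r := by
  obtain ⟨b, rfl, rfl⟩ := hx
  exact ⟨g * b, map_mul _ _ _, mul_smul _ _ _⟩

include Cv in
lemma quasiTransitive : QuasiTransitive H := by
  refine ⟨↑Cv.reps, Cv.reps.finite_toSet, fun v => ?_⟩
  obtain ⟨g, r, hr, rfl⟩ := Cv.cover v
  exact ⟨(Cv.act g).symm, by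
    rw [show (Cv.act g).symm (g • r) = r from (Cv.act g).symm_apply_apply r]; exact hr⟩

include Cv in
lemma infinite : Infinite W := by
  obtain ⟨r, hr⟩ := Cv.nonempty
  haveI : Nonempty (Fin k) := ⟨⟨0, by have := Cv.two_le; omega⟩⟩
  choose g hg using fun u => Cv.exists_lift u
  refine Infinite.of_injective (fun u : FreeGroup (Fin k) => g u • r) fun u v h => ?_
  simpa [Cv.proj_smul, Cv.proj_rep r hr, hg] using congrArg Cv.proj h

include Cv in
lemma degree_bound [H.LocallyFinite] : ∃ d : ℕ, ∀ x, (H.neighborFinset x).card ≤ d := by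
  classical
  refine ⟨Cv.reps.sup fun r => (H.neighborFinset r).card, fun x => ?_⟩
  obtain ⟨g, r, hr, rfl⟩ := Cv.cover x
  refine le_trans (le_of_eq ?_) (Finset.le_sup (f := fun r => (H.neighborFinset r).card) hr)
  rw [show H.neighborFinset (g • r) = (H.neighborFinset r).map
    (Cv.act g).toEquiv.toEmbedding from ?_, card_map]
  ext y
  obtain ⟨z, rfl⟩ := (Cv.act g).surjective y
  simp only [SimpleGraph.mem_neighborFinset]
  rw [show H.Adj (g • r) (Cv.act g z) ↔ H.Adj r z from Cv.adj_smul g r z]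
  simp [Finset.mem_map]
  erw [(Cv.act g).toEquiv.symm_apply_apply]

lemma walk_proj {x y : W} (q : H.Walk x y) :
    wdist (Cv.proj x) (Cv.proj y) ≤ Cv.R * q.length := by
  induction q with
  | nil => simp
  | @cons a b c h q ih =>
    refine (wdist_triangle (v := Cv.proj b)).trans ?_
    rw [SimpleGraph.Walk.length_cons, Nat.mul_succ]
    have := Cv.jump _ _ h
    omega

/-- Walks following a word, with a bounded excursion. -/
theorem exists_walk_along (hH : H.Connected) : ∃ ρ : ℕ, ∀ (x : W) (m : FreeGroup (Fin k)) (r : W),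
    r ∈ Cv.reps → ∃ y ∈ Cv.cls (Cv.proj x * m) r, ∃ q : H.Walk x y, q.length ≤ ρ * (wlen m + 1) ∧
      ∀ z ∈ q.support, ∃ i ≤ wlen m, wdist (Cv.proj x * pfx m i) (Cv.proj z) ≤ ρ := by
  classical
  choose lift hlift using fun u => Cv.exists_lift u
  let tgt : Option (Letter k) → FreeGroup (Fin k) := fun o => o.elim 1 gen
  have hw : ∀ (r r' : W) (o : Option (Letter k)), Nonempty (H.Walk r (lift (tgt o) • r')) :=
    fun r r' o => hH.preconnected _ _
  let wk := fun r r' o => (hw r r' o).some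
  let ℓ := (Cv.reps ×ˢ Cv.reps ×ˢ (Finset.univ : Finset (Option (Letter k)))).sup fun t =>
    (wk t.1 t.2.1 t.2.2).length
  set ρ := (Cv.R + 1) * (ℓ + 1) with hρ
  -- one step from any vertex
  have step : ∀ (x : W) (r' : W), r' ∈ Cv.reps → ∀ o : Option (Letter k),
      ∃ y ∈ Cv.cls (Cv.proj x * tgt o) r', ∃ q : H.Walk x y, q.length ≤ ℓ ∧
        ∀ z ∈ q.support, wdist (Cv.proj x) (Cv.proj z) ≤ Cv.R * ℓ := by
    intro x r' hr' o
    obtain ⟨g, r, hr, rfl⟩ := Cv.cover x
    let q₀ : H.Walk r (lift (tgt o) • r') := wk r r' o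
    have hlen : q₀.length ≤ ℓ := Finset.le_sup (f := fun t : W × W × Option (Letter k) =>
      (wk t.1 t.2.1 t.2.2).length)
      (mem_product.2 ⟨hr, mem_product.2 ⟨hr', mem_univ o⟩⟩ : (r, r', o) ∈ _)
    refine ⟨g • lift (tgt o) • r', ?_, Cv.actWalk g q₀, by simpa using hlen, fun z hz => ?_⟩
    · refine ⟨g * lift (tgt o), ?_, mul_smul _ _ _⟩
      rw [map_mul, hlift, Cv.proj_smul, Cv.proj_rep r hr, mul_one]
    · rw [Cv.support_actWalk, List.mem_map] at hz
      obtain ⟨z₀, hz₀, rfl⟩ := hz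
      rw [Cv.proj_smul, Cv.proj_smul, wdist_mul_left]
      refine (Cv.walk_proj (q₀.takeUntil z₀ hz₀)).trans (Nat.mul_le_mul_left _ ?_)
      exact (q₀.length_takeUntil_le hz₀).trans hlen
  have hρR : Cv.R * ℓ ≤ ρ := by rw [hρ]; nlinarith
  have hρℓ : ℓ ≤ ρ := by rw [hρ]; nlinarith
  refine ⟨ρ, fun x m r hr => ?_⟩
  induction hn : wlen m generalizing x m with
  | zero =>
    obtain rfl := wlen_eq_zero.1 hn
    obtain ⟨y, hy, q, hq, hs⟩ := step x r hr none
    refine ⟨y, by simpa [tgt] using hy, q, le_trans hq (by simpa using hρℓ), fun z hz => ⟨0, le_rfl, ?_⟩⟩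
    simpa [pfx, ← FreeGroup.one_eq_mk] using le_trans (hs z hz) hρR
  | succ n ih =>
    have hm : m.toWord ≠ [] := by intro h; simp [wlen, h] at hn
    obtain ⟨a, tl, htl⟩ := List.exists_cons_of_ne_nil hm
    have hred : FreeGroup.IsReduced (a :: tl) := htl ▸ FreeGroup.isReduced_toWord
    have htlr : FreeGroup.IsReduced tl := List.IsChain.tail hred
    set m' := FreeGroup.mk tl with hm'
    have hm'w : m'.toWord = tl := by rw [hm', FreeGroup.toWord_mk, htlr.reduce_eq]
    have hmm : m = gen a * m' := by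
      rw [← FreeGroup.mk_toWord (x := m), htl, hm', gen, FreeGroup.mul_mk]; rfl
    have hlen : wlen m' = n := by simp [wlen, hm'w] at hn ⊢; simp [htl] at hn; omega
    obtain ⟨y₁, hy₁, q₁, hq₁, hs₁⟩ := step x r hr (some a)
    have hp₁ : Cv.proj y₁ = Cv.proj x * gen a := Cv.proj_cls hr hy₁
    obtain ⟨y, hy, q₂, hq₂, hs₂⟩ := ih y₁ m' hlen
    refine ⟨y, ?_, q₁.append q₂, ?_, fun z hz => ?_⟩
    · rwa [hmm, ← mul_assoc, ← hp₁]
    · rw [SimpleGraph.Walk.length_append, Nat.mul_succ]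
      linarith
    · rcases (SimpleGraph.Walk.mem_support_append_iff _ _).1 hz with hz | hz
      · exact ⟨0, Nat.zero_le _, by simpa [pfx, ← FreeGroup.one_eq_mk] using le_trans (hs₁ z hz) hρR⟩
      · obtain ⟨i, hi, hd⟩ := hs₂ z hz
        refine ⟨i + 1, Nat.succ_le_succ hi, ?_⟩
        have : Cv.proj x * pfx m (i + 1) = Cv.proj y₁ * pfx m' i := by
          rw [hp₁, mul_assoc]
          simp only [pfx, htl, hm'w, List.take_succ_cons, gen, FreeGroup.mul_mk]
          rfl
        rwa [this]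

/-- Bounded connectors to every class over a nearby word. -/
lemma exists_connector (hH : H.Connected) (ρ : ℕ) : ∃ ℓ : ℕ, ∀ (x : W) (u : FreeGroup (Fin k))
    (r : W), r ∈ Cv.reps → wdist (Cv.proj x) u ≤ ρ →
      ∃ y ∈ Cv.cls u r, ∃ q : H.Walk x y, q.length ≤ ℓ := by
  obtain ⟨ρ₀, hρ₀⟩ := Cv.exists_walk_along hH
  refine ⟨ρ₀ * (ρ + 1), fun x u r hr hd => ?_⟩
  obtain ⟨y, hy, q, hq, -⟩ := hρ₀ x ((Cv.proj x)⁻¹ * u) r hr
  rw [mul_inv_cancel_left] at hy
  exact ⟨y, hy, q, hq.trans (Nat.mul_le_mul_left _ (Nat.succ_le_succ hd))⟩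

variable {D : ℕ} {c c' u : FreeGroup (Fin k)} {x y z : W}

lemma core_subset : Cv.core D c ⊆ Cv.coneV c := fun _ h => h.1

lemma mem_core_of_deep (h : x ∈ Cv.coneV c) (hd : wlen c + D ≤ wlen (Cv.proj x)) :
    x ∈ Cv.core D c := ⟨h, x, hd, .refl _⟩

lemma core_step (hx : x ∈ Cv.core D c) (hy : y ∈ Cv.coneV c) (h : H.Adj x y) :
    y ∈ Cv.core D c := by
  obtain ⟨hxc, z, hz, hxz⟩ := hx
  refine ⟨hy, z, hz, SimpleGraph.Reachable.trans (SimpleGraph.Adj.reachable ?_) hxz⟩
  refine ⟨h.symm, (SimpleGraph.fromEdgeSet_adj _).2 ⟨fun w hw => ?_, h.ne'⟩⟩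
  rcases Sym2.mem_iff.1 hw with rfl | rfl <;> assumption

lemma core_of_walk (q : H.Walk x y) (hs : ∀ w ∈ q.support, w ∈ Cv.coneV c)
    (hy : y ∈ Cv.core D c) : ∀ w ∈ q.support, w ∈ Cv.core D c := by
  induction q with
  | nil => simpa using hy
  | @cons a b d h q ih =>
    have hq : ∀ w ∈ q.support, w ∈ Cv.core D c := ih (fun w hw => hs w (by simp [hw])) hy
    intro w hw
    rcases List.mem_cons.1 hw with rfl | hw
    · exact Cv.core_step (hq b q.start_mem_support) (hs _ (by simp)) h.symm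
    · exact hq w hw

lemma core_mono (h : Pre c c') : Cv.core D c' ⊆ Cv.core D c := by
  rintro x ⟨hx, z, hz, hr⟩
  refine ⟨pre_trans h hx, z, le_trans (by have := pre_length h; omega) hz, hr.mono ?_⟩
  refine inf_le_inf_left _ (SimpleGraph.fromEdgeSet_mono fun e he w hw => ?_)
  exact pre_trans h (he w hw)

lemma mem_outE {a b : W} :
    s(a, b) ∈ Cv.outE D c ↔ a ∉ Cv.core D c ∨ b ∉ Cv.core D c := by
  simp only [outE, pairsIn, Set.mem_compl_iff, Set.mem_ofPred_eq, Sym2.mem_iff]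
  constructor
  · intro h
    by_contra! h'
    exact h (by rintro w (rfl | rfl); exacts [h'.1, h'.2])
  · rintro (h | h) h'
    exacts [h (h' a (.inl rfl)), h (h' b (.inr rfl))]

lemma outE_mono (h : Pre c c') : Cv.outE D c ⊆ Cv.outE D c' :=
  Set.compl_subset_compl.2 fun _ he w hw => Cv.core_mono h (he w hw)

lemma entry_near (h : x ∈ Cv.entry D c) : wdist c (Cv.proj x) ≤ Cv.R := by
  obtain ⟨hx, y, hxy, hy⟩ := h
  have hyc : ¬ Pre c (Cv.proj y) := fun h => hy (Cv.core_step hx h hxy)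
  have h1 := cross_dist (Cv.core_subset hx) hyc
  have h2 := Cv.jump _ _ hxy
  have h3 := pre_iff_concat.1 (Cv.core_subset hx)
  rw [Concat, mul_inv_cancel_left] at h3
  unfold wdist at *
  omega

lemma not_mem_core_one (hc : c ≠ 1) (hx : Cv.proj x = 1) : x ∉ Cv.core D c := by
  intro h
  have := pre_length (Cv.core_subset h)
  rw [hx, wlen_one, Nat.le_zero, wlen_eq_zero] at this
  exact hc this

/-- A walk from outside the core has its first core point at an entry. -/
lemma exists_entry_on_walk (q : H.Walk x y) (hx : x ∉ Cv.core D c) (hy : y ∈ Cv.core D c) :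
    ∃ e ∈ Cv.entry D c, ∃ q' : H.Walk x e, q'.length ≤ q.length ∧
      (∀ a ∈ q'.edges, a ∈ Cv.outE D c) ∧ ∀ w ∈ q'.support, w ∈ q.support := by
  induction q with
  | nil => exact absurd hy hx
  | @cons a b d h q ih =>
    by_cases hb : b ∈ Cv.core D c
    · refine ⟨b, ⟨hb, a, h.symm, hx⟩, .cons h .nil, by simp, ?_, ?_⟩
      · simp [Cv.mem_outE, hx]
      · intro w hw
        simp at hw
        rcases hw with rfl | rfl <;> simp
    · obtain ⟨e, he, q', hl, hE, hs⟩ := ih hb hy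
      refine ⟨e, he, .cons h q', by simpa using hl, ?_, ?_⟩
      · simp only [SimpleGraph.Walk.edges_cons, List.mem_cons]
        rintro s (rfl | hs')
        exacts [Cv.mem_outE.2 (.inl hx), hE s hs']
      · intro w hw
        rcases List.mem_cons.1 hw with rfl | hw
        · simp
        · exact List.mem_cons_of_mem _ (hs w hw)

/-- Where an exploration inside `outE` leaves it. -/
lemma entry_of_exit (hc : c ≠ 1) {r : W} (hr : Cv.proj r = 1) {a b : W} (q : H.Walk r a)
    (hq : ∀ e ∈ q.edges, e ∈ Cv.outE D c) (hab : H.Adj a b) (he : s(a, b) ∉ Cv.outE D c) :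
    a ∈ Cv.entry D c := by
  rw [Cv.mem_outE, not_or, not_not, not_not] at he
  obtain ⟨ha, -⟩ := he
  refine ⟨ha, ?_⟩
  cases hq' : q.reverse with
  | nil => exact absurd ha (Cv.not_mem_core_one hc hr)
  | @cons _ p _ h q'' =>
    refine ⟨p, h, fun hp => ?_⟩
    have hmem : s(a, p) ∈ q.edges := by
      rw [← List.mem_reverse, ← SimpleGraph.Walk.edges_reverse, hq']
      simp
    rcases Cv.mem_outE.1 (hq _ hmem) with h' | h'
    exacts [h' ha, h' hp]

variable {l : Letter k} {g : Γ}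

lemma smul_mem_coneV (h1 : lastL c = some l) (h2 : lastL (Cv.π g * c) = some l) :
    g • x ∈ Cv.coneV (Cv.π g * c) ↔ x ∈ Cv.coneV c := by
  simp only [coneV, Set.mem_ofPred_eq, Cv.proj_smul]
  exact pre_translate h1 h2

lemma smul_mem_core_aux (g : Γ) (c : FreeGroup (Fin k)) (h1 : lastL c = some l)
    (h2 : lastL (Cv.π g * c) = some l) {x : W} (hx : x ∈ Cv.core D c) :
    g • x ∈ Cv.core D (Cv.π g * c) := by
  obtain ⟨hxc, z, hz, hr⟩ := hx
  obtain ⟨q⟩ := hr
  have hs : ∀ w ∈ q.support, w ∈ Cv.coneV c := by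
    intro w hw
    rcases SimpleGraph.Walk.mem_support_iff_exists_mem_edges.1 hw with rfl | ⟨e, he, hwe⟩
    · by_cases hn : q.Nil
      · obtain rfl := hn.eq
        exact hxc
      · obtain ⟨e, he, hwe⟩ : ∃ e ∈ q.edges, w ∈ e := by
          rcases List.mem_iff_getElem.1 q.end_mem_support with ⟨i, hi, -⟩
          exact ⟨_, q.mk_penultimate_end_mem_edges hn, Sym2.mem_mk_right _ _⟩
        have := q.edges_subset_edgeSet he
        rw [SimpleGraph.edgeSet_inf, SimpleGraph.edgeSet_fromEdgeSet] at this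
        exact this.2.1 w hwe
    · have := q.edges_subset_edgeSet he
      rw [SimpleGraph.edgeSet_inf, SimpleGraph.edgeSet_fromEdgeSet] at this
      exact this.2.1 w hwe
  let q' := Cv.actWalk g (q.mapLe inf_le_left)
  have hzc : z ∈ Cv.coneV c := hs z q.end_mem_support
  refine Cv.core_of_walk q' (fun w hw => ?_)
    (Cv.mem_core_of_deep ((Cv.smul_mem_coneV h1 h2).2 hzc) ?_) _ q'.start_mem_support
  · rw [Cv.support_actWalk, SimpleGraph.Walk.support_mapLe_eq_support, List.mem_map] at hw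
    obtain ⟨w₀, hw₀, rfl⟩ := hw
    exact (Cv.smul_mem_coneV h1 h2).2 (hs w₀ hw₀)
  · change _ ≤ wlen (Cv.proj (g • z))
    have ha := pre_iff_concat.1 hzc
    have hb := pre_iff_concat.1 ((Cv.smul_mem_coneV h1 h2).2 hzc)
    simp only [Concat, mul_inv_cancel_left, Cv.proj_smul, mul_inv_rev, mul_assoc,
      inv_mul_cancel_left] at ha hb
    rw [Cv.proj_smul]
    omega

lemma smul_mem_core (h1 : lastL c = some l) (h2 : lastL (Cv.π g * c) = some l) :
    g • x ∈ Cv.core D (Cv.π g * c) ↔ x ∈ Cv.core D c := by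
  refine ⟨fun h => ?_, Cv.smul_mem_core_aux g c h1 h2⟩
  have := Cv.smul_mem_core_aux g⁻¹ (Cv.π g * c) h2 (by simpa using h1) h
  simpa using this

lemma smul_mem_entry (h1 : lastL c = some l) (h2 : lastL (Cv.π g * c) = some l) :
    g • x ∈ Cv.entry D (Cv.π g * c) ↔ x ∈ Cv.entry D c := by
  simp only [entry, Set.mem_ofPred_eq, Cv.smul_mem_core h1 h2]
  refine and_congr_right fun _ => ⟨fun ⟨y, hy, hn⟩ => ?_, fun ⟨y, hy, hn⟩ => ?_⟩
  · obtain ⟨y, rfl⟩ := (Cv.act g).surjective y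
    exact ⟨y, (Cv.adj_smul g _ _).1 hy, fun h => hn ((Cv.smul_mem_core h1 h2).2 h)⟩
  · exact ⟨g • y, (Cv.adj_smul g _ _).2 hy, fun h => hn ((Cv.smul_mem_core h1 h2).1 h)⟩

lemma smul_outE (h1 : lastL c = some l) (h2 : lastL (Cv.π g * c) = some l) :
    Sym2.map (Cv.act g) '' Cv.outE D c = Cv.outE D (Cv.π g * c) := by
  ext e
  induction e with
  | h a b =>
    obtain ⟨a, rfl⟩ := (Cv.act g).surjective a
    obtain ⟨b, rfl⟩ := (Cv.act g).surjective b
    rw [← Sym2.map_mk, (Sym2.map.injective (Cv.act g).injective).mem_set_image]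
    simp [Cv.mem_outE, Cv.smul_mem_core h1 h2]

end Cov

end Vale.Agent.P165.Quot
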