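import Vale.Agent.P165.Quot.TubeDefs
import Vale.Agent.P165.Quot.Shift
import Vale.Agent.P165.Quot.Series
import Vale.Agent.P165.Quot.Rays

/-!
Tail bounds for the reached part of cores, from branches and a bound on sums of powers.
-/

open Finset
open scoped ENNReal

namespace Vale.Agent.P165.Quot

variable {k : ℕ}

/-- After a word there is an allowed letter leaving the way to a given word. -/
lemma exists_deviation (hk : 2 ≤ k) (u w : FreeGroup (Fin k)) :
    ∃ e : Letter k, Concat u (gen e) ∧ ¬ Pre (u * gen e) w := by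
  obtain ⟨b, hb⟩ : ∃ b : Letter k, ∀ q, lastL u = some q → b = opp q := by
    cases h : lastL u with
    | none => exact ⟨(⟨0, by omega⟩, true), by simp⟩
    | some q => exact ⟨opp q, fun _ e => by rw [Option.some.inj e]⟩
  obtain ⟨e₁, he₁, -, -⟩ := exists_letter hk b b b
  obtain ⟨e₂, he₂, he₂₁, -⟩ := exists_letter hk b e₁ b
  have hc : ∀ e, e ≠ b → Concat u (gen e) := fun e he => concat_iff.2 fun q hq hh => by
    rw [headL_gen, Option.some.injEq] at hh
    exact he (hh.trans (hb q hq).symm)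
  by_cases h₁ : Pre (u * gen e₁) w
  · refine ⟨e₂, hc e₂ he₂, fun h₂ => he₂₁ ?_⟩
    have hl : ∀ e, e ≠ b → wlen (u * gen e) = wlen u + 1 := fun e he => by
      rw [hc e he, wlen_gen]
    have := pre_eq_of_length (pre_of_pre_of_le h₂ h₁ (by rw [hl _ he₁, hl _ he₂]))
      (by rw [hl _ he₁, hl _ he₂])
    simpa [gen, FreeGroup.toWord_mk] using congrArg FreeGroup.toWord (mul_left_cancel this)
  · exact ⟨e₁, hc e₁ he₁, h₁⟩

namespace Cov

variable {W Γ : Type*} [Group Γ] [MulAction Γ W] {H : SimpleGraph W} [DecidableEq W]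
  (Cv : Cov (Γ := Γ) H k)

/-- A family of words whose branches never run into one another: the sum of the powers of the
dominating weights. -/
lemma branch_sum_le {ι : Type*} (I : Finset ι) (c : ι → FreeGroup (Fin k)) (q : FreeGroup (Fin k))
    (e : ι → Letter k) (P : ι → ℝ≥0∞) {p t₀ t₁ : ℝ} (ht₁ : 0 < t₁) (ht₁' : t₁ ≤ 1)
    {K : ℕ} (hK : 0 < K) {C B : ℝ≥0∞}
    (hB : ∀ A : Finset (FreeGroup (Fin k)), PrefixFree (↑A : Set (FreeGroup (Fin k))) →
      ∑ u ∈ A, Cv.hit p u ^ t₁ ≤ B)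
    (hV : ∀ i ∈ I, P i ≠ 0 → ∃ V : Finset (FreeGroup (Fin k)),
      PrefixFree (↑V : Set (FreeGroup (Fin k))) ∧ (K : ℝ≥0∞) ^ t₀ ≤ C * V.card ∧
      ∀ v ∈ V, Concat (c i * q * gen (e i)) v ∧ P i ≤ C * Cv.hit p (c i * q * gen (e i) * v))
    (hsep : ∀ i ∈ I, ∀ l ∈ I, P i ≠ 0 → P l ≠ 0 → ∀ v v' : FreeGroup (Fin k),
      Concat (c i * q * gen (e i)) v → Concat (c l * q * gen (e l)) v' →
      Pre (c i * q * gen (e i) * v) (c l * q * gen (e l) * v') → i = l) :
    ∑ i ∈ I, P i ≤ (C * C ^ t₁ * B) ^ (1 / t₁) * (K : ℝ≥0∞) ^ (-(t₀ / t₁)) := by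
  classical
  rw [← sum_filter_ne_zero]
  set J := I.filter fun i => P i ≠ 0
  have hV' : ∀ i, ∃ V : Finset (FreeGroup (Fin k)), i ∈ J →
      PrefixFree (↑V : Set (FreeGroup (Fin k))) ∧ (K : ℝ≥0∞) ^ t₀ ≤ C * V.card ∧
      ∀ v ∈ V, Concat (c i * q * gen (e i)) v ∧ P i ≤ C * Cv.hit p (c i * q * gen (e i) * v) := by
    intro i
    by_cases hi : i ∈ J
    · obtain ⟨h1, h2⟩ := mem_filter.1 hi
      obtain ⟨V, hV⟩ := hV i h1 h2
      exact ⟨V, fun _ => hV⟩
    · exact ⟨∅, fun h => absurd h hi⟩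
  choose V hV' using hV'
  set f : (_ : ι) × FreeGroup (Fin k) → FreeGroup (Fin k) :=
    fun iv => c iv.1 * q * gen (e iv.1) * iv.2
  have hpre : ∀ a ∈ J.sigma V, ∀ b ∈ J.sigma V, Pre (f a) (f b) → a = b := by
    rintro ⟨i, v⟩ ha ⟨l, v'⟩ hb hab
    obtain ⟨hi, hv⟩ := mem_sigma.1 ha
    obtain ⟨hl, hv'⟩ := mem_sigma.1 hb
    have c1 := ((hV' i hi).2.2 v hv).1
    have c2 := ((hV' l hl).2.2 v' hv').1
    obtain rfl := hsep i (mem_filter.1 hi).1 l (mem_filter.1 hl).1 (mem_filter.1 hi).2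
      (mem_filter.1 hl).2 v v' c1 c2 hab
    obtain rfl := (hV' i hi).1 v hv v' hv' ((pre_mul_iff c1 c2).1 hab)
    rfl
  have hinj : Set.InjOn f ↑(J.sigma V) := fun a ha b hb h => hpre a ha b hb (by rw [h]; exact pre_refl)
  have hfree : PrefixFree (↑((J.sigma V).image f) : Set (FreeGroup (Fin k))) := by
    intro x hx y hy hxy
    obtain ⟨a, ha, rfl⟩ := mem_image.1 (mem_coe.1 hx)
    obtain ⟨b, hb, rfl⟩ := mem_image.1 (mem_coe.1 hy)
    rw [hpre a ha b hb hxy]
  have hK0 : (K : ℝ≥0∞) ≠ 0 := by exact_mod_cast hK.ne'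
  have key : (K : ℝ≥0∞) ^ t₀ * ∑ i ∈ J, P i ^ t₁ ≤ C * C ^ t₁ * B :=
    calc (K : ℝ≥0∞) ^ t₀ * ∑ i ∈ J, P i ^ t₁
        ≤ ∑ i ∈ J, C * ((V i).card * P i ^ t₁) := by
          rw [mul_sum]
          refine sum_le_sum fun i hi => ?_
          rw [← mul_assoc]
          exact mul_le_mul_left (hV' i hi).2.1 _
      _ = C * ∑ iv ∈ J.sigma V, P iv.1 ^ t₁ := by
          rw [sum_sigma, ← mul_sum]
          simp only [sum_const, nsmul_eq_mul]
      _ ≤ C * ∑ iv ∈ J.sigma V, C ^ t₁ * Cv.hit p (f iv) ^ t₁ := by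
          refine mul_le_mul_right (sum_le_sum fun iv hiv => ?_) _
          obtain ⟨hi, hv⟩ := mem_sigma.1 hiv
          rw [← ENNReal.mul_rpow_of_nonneg _ _ ht₁.le]
          exact ENNReal.rpow_le_rpow ((hV' _ hi).2.2 _ hv).2 ht₁.le
      _ ≤ C * C ^ t₁ * B := by
          rw [← mul_sum, mul_assoc, ← sum_image (f := fun u => Cv.hit p u ^ t₁) hinj]
          exact mul_le_mul_right (mul_le_mul_right (hB _ hfree) _) _
  have hsum : ∑ i ∈ J, P i ^ t₁ ≤ C * C ^ t₁ * B * (K : ℝ≥0∞) ^ (-t₀) := by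
    have hne : (K : ℝ≥0∞) ^ t₀ ≠ 0 := by simp [hK0]
    have hne' : (K : ℝ≥0∞) ^ t₀ ≠ ⊤ := by simp [hK0]
    rw [ENNReal.rpow_neg, ← div_eq_mul_inv, ENNReal.le_div_iff_mul_le (.inl hne) (.inl hne'),
      mul_comm]
    exact key
  refine (sum_le_rpow_sum J P ht₁ ht₁').trans ((ENNReal.rpow_le_rpow hsum (by positivity)).trans
    (le_of_eq ?_))
  rw [ENNReal.mul_rpow_of_nonneg _ _ (by positivity), ← ENNReal.rpow_mul (K : ℝ≥0∞)]
  congr 2
  ring

/-- Many prefix-free extensions for each class give the tail bound with exponent `t₀ / t₁`. -/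
theorem exists_tail_bound (hH : H.Connected) (D : ℕ) {p t₀ t₁ θ : ℝ} (hp : 0 < p) (hp1 : p ≤ 1)
    (ht0 : 0 < t₀) (ht01 : t₀ ≤ t₁) (ht1 : t₁ ≤ 1) (_hθ0 : 0 ≤ θ) (_hθ1 : θ ≤ 1)
    (hratio : (1 - θ) * t₁ ≤ t₀) (hbr : Cv.HalfBranches D p t₀) (hbad : ¬ Cv.Good p t₁) :
    ∃ C : ℝ≥0∞, C ≠ ⊤ ∧ Cv.TailBound D p θ C := by
  classical
  have ht1pos : 0 < t₁ := ht0.trans_le ht01
  have hk := Cv.two_le
  obtain ⟨m, q, C, hC, hP⟩ := hbr
  obtain ⟨B, hBtop, hB⟩ : ∃ B : ℝ≥0∞, B ≠ ⊤ ∧ ∀ A : Finset (FreeGroup (Fin k)),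
      PrefixFree (↑A : Set (FreeGroup (Fin k))) → ∑ u ∈ A, Cv.hit p u ^ t₁ ≤ B := by
    rw [Good] at hbad
    push Not at hbad
    exact hbad
  obtain ⟨ℓ, hℓ⟩ := Cv.exists_connector hH Cv.R
  set C₁ := (C * C ^ t₁ * B) ^ (1 / t₁) with hC₁
  have hC₁top : C₁ ≠ ⊤ :=
    ENNReal.rpow_ne_top_of_nonneg (by positivity)
      (ENNReal.mul_ne_top (ENNReal.mul_ne_top hC (ENNReal.rpow_ne_top_of_nonneg ht1pos.le hC))
        hBtop)
  set C₂ := ∑ j : Fin m, ((wlen (q j) + 1 : ℕ) : ℝ≥0∞) * C₁ with hC₂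
  have hC₂top : C₂ ≠ ⊤ :=
    ENNReal.sum_ne_top.2 fun j _ => ENNReal.mul_ne_top (ENNReal.natCast_ne_top _) hC₁top
  set C₃ := (ENNReal.ofReal p ^ ℓ)⁻¹ with hC₃
  have hpl : ENNReal.ofReal p ^ ℓ ≠ 0 := pow_ne_zero _ (by simpa using hp)
  have hC₃top : C₃ ≠ ⊤ := ENNReal.inv_ne_top.2 hpl
  have hexp : ∀ K : ℕ, 0 < K → (K : ℝ≥0∞) ^ (-(t₀ / t₁)) ≤ (K : ℝ≥0∞) ^ (-(1 - θ)) := by
    intro K hK
    refine ENNReal.rpow_le_rpow_of_exponent_le (by exact_mod_cast hK) (neg_le_neg ?_)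
    rwa [le_div_iff₀ ht1pos]
  refine ⟨max C₂ C₃, (max_lt hC₂top.lt_top hC₃top.lt_top).ne, ?_, ?_, ?_⟩
  · intro n K hn hK
    have hne : ∀ c ∈ sphere k n, c ≠ 1 := fun c hc h => by
      have := mem_sphere.1 hc
      rw [h, wlen_one] at this
      omega
    choose P hPle hPc using fun c (hc : c ∈ sphere k n) => hP c K (hne c hc) hK
    let P' : Fin m → FreeGroup (Fin k) → ℝ≥0∞ :=
      fun j c => if h : c ∈ sphere k n then P c h j else 0
    choose e he _ using fun (j : Fin m) (c : FreeGroup (Fin k)) => exists_deviation hk (c * q j) 1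
    calc ∑ c ∈ sphere k n, Cv.halfTail D p c K
        ≤ ∑ c ∈ sphere k n, ∑ j, P' j c := sum_le_sum fun c hc => (hPle c hc).trans
          (le_of_eq (sum_congr rfl fun j _ => by simp only [P', dif_pos hc]))
      _ = ∑ j, ∑ c ∈ sphere k n, P' j c := sum_comm
      _ ≤ ∑ j : Fin m, ((wlen (q j) + 1 : ℕ) : ℝ≥0∞) * (C₁ * (K : ℝ≥0∞) ^ (-(t₀ / t₁))) := by
          refine sum_le_sum fun j _ => ?_
          refine le_trans (Cv.branch_sum_le (sphere k n) id (q j) (e j) (P' j) ht1pos ht1 hK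
            hB ?_ ?_) (le_mul_of_one_le_left zero_le
              (Nat.one_le_cast.2 (Nat.succ_le_succ (Nat.zero_le _))))
          · intro c hc hne'
            simp only [P', dif_pos hc] at hne' ⊢
            exact (hPc c hc j hne').2 (e j c) (he j c)
          · intro c hc c' hc' hne₁ hne₂ v v' hv hv' hpre
            simp only [P', dif_pos hc] at hne₁
            simp only [P', dif_pos hc'] at hne₂
            have pr1 : Pre c (c' * q j * gen (e j c') * v') :=
              pre_trans (pre_mul (hPc c hc j hne₁).1)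
                (pre_trans (pre_mul (he j c)) (pre_trans (pre_mul hv) hpre))
            have pr2 : Pre c' (c' * q j * gen (e j c') * v') :=
              pre_trans (pre_mul (hPc c' hc' j hne₂).1)
                (pre_trans (pre_mul (he j c')) (pre_mul hv'))
            have hlen : wlen c = wlen c' := by rw [mem_sphere.1 hc, mem_sphere.1 hc']
            exact pre_eq_of_length (pre_of_pre_of_le pr1 pr2 hlen.le) hlen.ge
      _ = C₂ * (K : ℝ≥0∞) ^ (-(t₀ / t₁)) := by rw [hC₂, sum_mul]; simp only [mul_assoc]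
      _ ≤ _ := mul_le_mul' (le_max_left _ _) (hexp K hK)
  · intro w K hK
    have hne : ∀ i ∈ Icc 1 (wlen w), pfx w i ≠ 1 := fun i hi h => by
      obtain ⟨h1, h2⟩ := mem_Icc.1 hi
      have := wlen_pfx h2
      rw [h, wlen_one] at this
      omega
    choose P hPle hPc using fun i (hi : i ∈ Icc 1 (wlen w)) => hP (pfx w i) K (hne i hi) hK
    let P' : Fin m → ℕ → ℝ≥0∞ := fun j i => if h : i ∈ Icc 1 (wlen w) then P i h j else 0
    choose e he hew using fun (j : Fin m) (i : ℕ) => exists_deviation hk (pfx w i * q j) w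
    calc ∑ i ∈ Icc 1 (wlen w), Cv.halfTail D p (pfx w i) K
        ≤ ∑ i ∈ Icc 1 (wlen w), ∑ j, P' j i := sum_le_sum fun i hi => (hPle i hi).trans
          (le_of_eq (sum_congr rfl fun j _ => by simp only [P', dif_pos hi]))
      _ = ∑ j, ∑ i ∈ Icc 1 (wlen w), P' j i := sum_comm
      _ ≤ ∑ j : Fin m, ((wlen (q j) + 1 : ℕ) : ℝ≥0∞) * (C₁ * (K : ℝ≥0∞) ^ (-(t₀ / t₁))) := by
          refine sum_le_sum fun j _ => ?_
          rw [← sum_fiberwise_of_maps_to (t := range (wlen (q j) + 1))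
            (g := fun i => i % (wlen (q j) + 1))
            (fun i _ => mem_range.2 (Nat.mod_lt _ (Nat.succ_pos _))) (P' j)]
          refine (sum_le_card_nsmul _ _ (C₁ * (K : ℝ≥0∞) ^ (-(t₀ / t₁))) fun r _ => ?_).trans_eq
            (by rw [card_range, nsmul_eq_mul])
          refine Cv.branch_sum_le _ (pfx w) (q j) (e j) (P' j) ht1pos ht1 hK hB ?_ ?_
          · intro i hi hne'
            have hi' := (mem_filter.1 hi).1
            simp only [P', dif_pos hi'] at hne' ⊢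
            exact (hPc i hi' j hne').2 (e j i) (he j i)
          · intro i hi l hl hne₁ hne₂ v v' hv hv' hpre
            obtain ⟨hi', hir⟩ := mem_filter.1 hi
            obtain ⟨hl', hlr⟩ := mem_filter.1 hl
            simp only [P', dif_pos hi'] at hne₁
            simp only [P', dif_pos hl'] at hne₂
            have ci := (hPc i hi' j hne₁).1
            have cl := (hPc l hl' j hne₂).1
            have wi := wlen_pfx (mem_Icc.1 hi').2
            have wl := wlen_pfx (mem_Icc.1 hl').2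
            have li : wlen (pfx w i * q j * gen (e j i)) = i + wlen (q j) + 1 := by
              rw [he j i, ci, wi, wlen_gen]
            have ll : wlen (pfx w l * q j * gen (e j l)) = l + wlen (q j) + 1 := by
              rw [he j l, cl, wl, wlen_gen]
            have pri : Pre (pfx w i * q j * gen (e j i)) (pfx w l * q j * gen (e j l) * v') :=
              pre_trans (pre_mul hv) hpre
            have prl : Pre (pfx w l * q j * gen (e j l)) (pfx w l * q j * gen (e j l) * v') :=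
              pre_mul hv'
            have hmod : i ≡ l [MOD wlen (q j) + 1] := hir.trans hlr.symm
            rcases lt_trichotomy i l with h | h | h
            · refine absurd (pre_trans (pre_of_pre_of_le pri
                (pre_trans (pre_mul cl) (pre_trans (pre_mul (he j l)) prl)) ?_) (pre_pfx l))
                (hew j i)
              have := Nat.ModEq.add_le_of_lt hmod h
              omega
            · exact h
            · refine absurd (pre_trans (pre_of_pre_of_le prl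
                (pre_trans (pre_mul ci) (pre_trans (pre_mul (he j i)) pri)) ?_) (pre_pfx i))
                (hew j l)
              have := Nat.ModEq.add_le_of_lt hmod.symm h
              omega
      _ = C₂ * (K : ℝ≥0∞) ^ (-(t₀ / t₁)) := by rw [hC₂, sum_mul]; simp only [mul_assoc]
      _ ≤ _ := mul_le_mul' (le_max_left _ _) (hexp K hK)
  · intro c K _ hK
    refine le_trans ?_ (mul_le_mul_left (le_max_right C₂ C₃) _)
    rw [hC₃, mul_comm, ← div_eq_mul_inv, ENNReal.le_div_iff_mul_le (.inl hpl)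
      (.inl (ENNReal.pow_ne_top ENNReal.ofReal_ne_top))]
    simp only [halfTail, hit, sum_mul]
    refine sum_le_sum fun r hr => ?_
    have hle : prob H p (manyIn (Cv.outE D c) r (Cv.entry D c) K) ≤
        prob H p (connTo Set.univ r (Cv.entry D c)) := by
      refine prob_mono hp.le hp1 fun S _ ⟨Y, hY, hYc⟩ => ?_
      obtain ⟨y, hy⟩ := card_pos.1 (hK.trans_le hY)
      refine ⟨y, (hYc y hy).1, cl_mono subset_rfl (fun a ha => ?_) (hYc y hy).2⟩
      exact mem_inPart.2 ⟨(mem_inPart.1 ha).1, Set.mem_univ a⟩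
    refine (mul_le_mul_left hle _).trans (connTo_trans hp.le hp1 _ r _ _ fun u hu => ?_)
    obtain ⟨y, hy, qw, hq⟩ := hℓ u c r hr (by rw [wdist_comm]; exact Cv.entry_near hu)
    exact pow_le_connTo hp.le hp1 qw (fun _ _ => Set.mem_univ _) hq (Cv.proj_cls hr hy)

end Cov

end Vale.Agent.P165.Quot
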