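import Vale.Agent.P165.Quot.Chain
import Vale.Agent.P165.Quot.Tail
import Vale.Agent.P165.Quot.Decay
import Vale.Agent.P165.Quot.Bootstrap
import Vale.Agent.P165.Quot.Finish

/-!
A graph with a free cofinite action of a group mapped onto a nonabelian free group has a
nonuniqueness phase.
-/

open Finset
open scoped ENNReal

namespace Vale.Agent.P165.Quot

variable {W Γ : Type*} {k : ℕ} [Group Γ] [MulAction Γ W] {H : SimpleGraph W}

/-- The threshold is below the uniqueness threshold for every covering datum. -/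
theorem Cov.pc_lt_pu [H.LocallyFinite] (Cv : Cov (Γ := Γ) H k) (hH : H.Connected) :
    pc H < pu H := by
  classical
  obtain ⟨hpc, hpc1⟩ := Cv.pc_pos_lt_one hH
  obtain ⟨ρ₀, hρ⟩ := Cv.exists_walk_along hH
  set D := ρ₀ + 1
  obtain ⟨t, ht0, ht1, htG⟩ := Cv.exists_good hH
  obtain ⟨t₀, t₁, h00, h01, h11, hG0, hG1, hr⟩ := exists_exponents (G := Cv.Good (pc H))
    (fun a b hb hba ha h => Cv.good_mono hpc.le hpc1.le hb hba ha h) (Cv.not_good_one hH)
    ⟨t, ht0, ht1, htG⟩ (show (0 : ℝ) < 1 / 10000 by norm_num) (by norm_num)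
  have hbr := Cv.exists_half_branches hH hρ (Nat.lt_succ_self ρ₀) hpc hpc1 h00 (h01.trans h11) hG0
  obtain ⟨C, hC, hT⟩ := Cv.exists_tail_bound hH D hpc hpc1.le h00 h01 h11
    (show (0 : ℝ) ≤ 1 / 10000 by norm_num) (by norm_num) hr hbr hG1
  obtain ⟨A, hA⟩ := Cv.exists_decay hH D hpc hpc1.le (show (0 : ℝ) < 1 / 10000 by norm_num)
    (by norm_num) hC hT
  obtain ⟨B, hB0, hB⟩ := Cv.exists_count_bound hH hpc hpc1.le D
    (show (0 : ℝ) < 1 / 10000 by norm_num) le_rfl hC hT hA
  exact Cv.pc_lt_pu_of_count_bound hH hpc1 hB0 hB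

/-- A free cofinite action of a group with a map onto a free group gives covering data. -/
theorem exists_cov [H.LocallyFinite] (hH : H.Connected)
    (hadj : ∀ (g : Γ) x y, H.Adj (g • x) (g • y) ↔ H.Adj x y)
    (hfree : ∀ (g : Γ) (x : W), g • x = x → g = 1)
    (hfin : ∃ F : Set W, F.Finite ∧ ∀ x, ∃ g : Γ, g • x ∈ F) (hk : 2 ≤ k)
    (π : Γ →* FreeGroup (Fin k)) (hπ : Function.Surjective π) :
    Nonempty (Cov (Γ := Γ) H k) := by
  classical
  obtain ⟨F, hF, hcov⟩ := hfin
  let q : W → MulAction.orbitRel.Quotient Γ W := Quotient.mk''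
  have : Fintype (MulAction.orbitRel.Quotient Γ W) := by
    have := hF.fintype
    refine Fintype.ofSurjective (fun f : F => q f) fun o => ?_
    induction o using Quotient.inductionOn' with
    | h x =>
      obtain ⟨g, hg⟩ := hcov x
      exact ⟨⟨g • x, hg⟩, Quotient.sound' ⟨g, rfl⟩⟩
  let out : MulAction.orbitRel.Quotient Γ W → W := Quotient.out
  have hmem : ∀ x : W, ∃ g : Γ, g • out (q x) = x := fun x => by
    obtain ⟨g, hg⟩ : out (q x) ∈ MulAction.orbit Γ x := Quotient.mk_out (s := MulAction.orbitRel Γ W) x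
    exact ⟨g⁻¹, inv_smul_eq_iff.2 hg.symm⟩
  choose g hg using hmem
  have huniq : ∀ (x : W) (h : Γ), h • out (q x) = x → g x = h := fun x h hh =>
    inv_mul_eq_one.1 (hfree _ (out (q x)) (by rw [mul_smul, hh, inv_smul_eq_iff, hg]))
  have hq : ∀ (h : Γ) (x : W), q (h • x) = q x := fun h x => Quotient.sound' ⟨h, rfl⟩
  have hgs : ∀ (h : Γ) (x : W), g (h • x) = h * g x := fun h x =>
    huniq _ _ (by rw [hq, mul_smul, hg])
  have hqo : ∀ o, q (out o) = o := fun o => Quotient.out_eq' o
  have hgo : ∀ o, g (out o) = 1 := fun o => huniq _ _ (by rw [hqo, one_smul])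
  set proj : W → FreeGroup (Fin k) := fun x => π (g x)
  set reps : Finset W := univ.image out
  have hrep : ∀ x : W, out (q x) ∈ reps := fun x => mem_image_of_mem _ (mem_univ _)
  refine ⟨{
    π := π, two_le := hk, surj := hπ, adj_smul := hadj, free := hfree, reps := reps
    nonempty := ⟨_, hrep hH.nonempty.some⟩
    proj := proj
    proj_smul := fun h x => by simp only [proj, hgs, map_mul]
    proj_rep := ?_
    cover := fun x => ⟨g x, out (q x), hrep x, hg x⟩
    rep_inj := ?_
    R := reps.sup fun r => (H.neighborFinset r).sup fun y => wlen (proj y)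
    jump := ?_ }⟩
  · intro r hr
    obtain ⟨o, -, rfl⟩ := mem_image.1 hr
    simp only [proj, hgo, map_one]
  · intro r hr r' hr' h hh
    obtain ⟨o, -, rfl⟩ := mem_image.1 hr
    obtain ⟨o', -, rfl⟩ := mem_image.1 hr'
    have := hq h (out o)
    rw [hh, hqo, hqo] at this
    rw [this]
  · intro x y hxy
    have e : g x • (g x)⁻¹ • y = y := smul_inv_smul _ _
    have hadj' : H.Adj (out (q x)) ((g x)⁻¹ • y) := by
      rw [← hadj (g x), hg, e]
      exact hxy
    refine le_trans (le_of_eq ?_) (le_trans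
      (le_sup (f := fun y => wlen (proj y)) ((H.mem_neighborFinset _ _).2 hadj'))
      (le_sup (f := fun r => (H.neighborFinset r).sup fun y => wlen (proj y)) (hrep x)))
    simp only [proj, hgs, map_mul, map_inv]
    rfl

/-- Main theorem. -/
theorem pc_lt_pu_of_free_quotient (hlf : ∀ x, (H.neighborSet x).Finite) (hH : H.Connected)
    (hadj : ∀ (g : Γ) x y, H.Adj (g • x) (g • y) ↔ H.Adj x y)
    (hfree : ∀ (g : Γ) (x : W), g • x = x → g = 1)
    (hfin : ∃ F : Set W, F.Finite ∧ ∀ x, ∃ g : Γ, g • x ∈ F) (hk : 2 ≤ k)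
    (π : Γ →* FreeGroup (Fin k)) (hπ : Function.Surjective π) : pc H < pu H := by
  classical
  letI : H.LocallyFinite := fun x => (hlf x).fintype
  obtain ⟨Cv⟩ := exists_cov hH hadj hfree hfin hk π hπ
  exact Cv.pc_lt_pu hH

/-- Cayley graphs of groups virtually mapped onto a free group. -/
theorem pc_lt_pu_cayley {G : Type*} [Group G] (S : Finset G)
    (hS : Subgroup.closure (S : Set G) = ⊤) (Δ : Subgroup G) [Δ.FiniteIndex] (hk : 2 ≤ k)
    (π : Δ →* FreeGroup (Fin k)) (hπ : Function.Surjective π) :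
    pc (SimpleGraph.mulCayley (S : Set G)) < pu (SimpleGraph.mulCayley (S : Set G)) := by
  classical
  refine pc_lt_pu_of_free_quotient (Γ := Δ) (fun x => ?_) ?_ (fun g x y => ?_)
    (fun g x h => Subtype.ext (by simpa [Subgroup.smul_def] using h)) ?_ hk π hπ
  · refine (((S.finite_toSet).union S.finite_toSet.inv).image (x * ·)).subset fun y hy => ?_
    rw [SimpleGraph.mem_neighborSet, SimpleGraph.mulCayley_adj] at hy
    obtain ⟨-, h | h⟩ := hy
    · exact ⟨x⁻¹ * y, .inl h, mul_inv_cancel_left _ _⟩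
    · exact ⟨x⁻¹ * y, .inr (by simpa using h), mul_inv_cancel_left _ _⟩
  · have key : ∀ x : G, (SimpleGraph.mulCayley (S : Set G)).Reachable 1 x := by
      intro x
      have hx : x ∈ Subgroup.closure (S : Set G) := hS ▸ Subgroup.mem_top x
      induction hx using Subgroup.closure_induction_right with
      | one => exact .refl _
      | mul_right x hx s hs ih =>
        by_cases h : x = x * s
        · exact h ▸ ih
        · exact ih.trans (SimpleGraph.Adj.reachable ((SimpleGraph.mulCayley_adj _ _ _).2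
            ⟨h, .inl (by simpa using hs)⟩))
      | mul_inv_cancel x hx s hs ih =>
        by_cases h : x = x * s⁻¹
        · exact h ▸ ih
        · exact ih.trans (SimpleGraph.Adj.reachable ((SimpleGraph.mulCayley_adj _ _ _).2
            ⟨h, .inr (by simpa using hs)⟩))
    exact ⟨fun x y => (key x).symm.trans (key y)⟩
  · exact SimpleGraph.mulCayley_adj_mul_iff_right
  · have : Finite (Quotient (QuotientGroup.rightRel Δ)) := by
      have := Subgroup.finite_quotient_of_finiteIndex (H := Δ)
      exact Finite.of_equiv _ (QuotientGroup.quotientRightRelEquivQuotientLeftRel Δ).symm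
    let o : Quotient (QuotientGroup.rightRel Δ) → G := Quotient.out
    refine ⟨Set.range o, Set.finite_range _, fun x => ?_⟩
    have h := Quotient.mk_out (s := QuotientGroup.rightRel Δ) x
    rw [QuotientGroup.rightRel_apply] at h
    refine ⟨⟨o (Quotient.mk _ x) * x⁻¹, ?_⟩, Quotient.mk _ x, ?_⟩
    · simpa using Δ.inv_mem h
    · simp [Subgroup.smul_def]

end Vale.Agent.P165.Quot
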