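import Vale.Agent.P165.Quot.TubeDefs
import Vale.Agent.P165.Quot.Shift
import Vale.Agent.P165.Quot.Rays

/-!
Finiteness below the threshold, submultiplicativity of the fibre counts, and second moments of
the reached part of a core.
-/

open Finset
open scoped ENNReal unitInterval

namespace Vale.Agent.P165.Quot.Cov

variable {W Γ : Type*} {k : ℕ} [Group Γ] [MulAction Γ W] {H : SimpleGraph W} [DecidableEq W]
  (Cv : Cov (Γ := Γ) H k)

omit [DecidableEq W] in
/-- A walk from the empty word to the cone of `u` passes near `u`. -/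
lemma exists_near_on_walk {u : FreeGroup (Fin k)} {x y : W} (hx : Cv.proj x = 1)
    (q : H.Walk x y) (hy : Pre u (Cv.proj y)) : ∃ m ∈ q.support, m ∈ Cv.nearV Cv.R u := by
  by_cases hu : u = 1
  · exact ⟨x, q.start_mem_support, show wdist u (Cv.proj x) ≤ Cv.R by simp [hu, hx]⟩
  have hxn : ¬ Pre u (Cv.proj x) := by
    intro h
    have := pre_length h
    rw [hx, wlen_one, Nat.le_zero, wlen_eq_zero] at this
    exact hu this
  obtain ⟨d, hd, hd1, hd2⟩ := q.exists_boundary_dart {z : W | Pre u (Cv.proj z)}ᶜ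
    (by simpa using hxn) (by simpa using hy)
  rw [Set.mem_compl_iff, not_not] at hd2
  refine ⟨d.snd, q.dart_snd_mem_support_of_mem_darts hd, ?_⟩
  have h1 := cross_dist (show Pre u (Cv.proj d.snd) from hd2) hd1
  have h2 := Cv.jump _ _ d.adj.symm
  have h3 := pre_iff_concat.1 (show Pre u (Cv.proj d.snd) from hd2)
  rw [Concat, mul_inv_cancel_left] at h3
  show wdist u (Cv.proj d.snd) ≤ Cv.R
  unfold wdist at *
  omega

/-- Below the threshold the fibre counts have a finite sum. -/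
theorem count_tsum_ne_top [H.LocallyFinite] (hH : H.Connected) {p : ℝ} (h0 : 0 ≤ p)
    (hp : p < pc H) : ∑' u, Cv.count p u ≠ ⊤ := by
  classical
  have h1 : p ≤ 1 := by
    set X := {t : ℝ | ∃ q : I, (q : ℝ) = t ∧
      0 < bondMeasure H q {ω | ∃ C : (openGraph H ω).ConnectedComponent, C.supp.Infinite}}
    have hpc : pc H = sInf X := rfl
    rcases X.eq_empty_or_nonempty with h | ⟨t, ht⟩
    · rw [hpc, h, Real.sInf_empty] at hp
      linarith
    · have hb : BddBelow X := ⟨0, by rintro _ ⟨q, rfl, -⟩; exact q.2.1⟩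
      have ht1 : t ≤ 1 := by
        obtain ⟨q, rfl, -⟩ := ht
        exact q.2.2
      exact (hp.le.trans (hpc ▸ csInf_le hb ht)).trans ht1
  obtain ⟨C, hC⟩ := sharp_susceptibility hH Cv.quasiTransitive ⟨p, h0, h1⟩ hp
  have hW : ∀ r : W, ∑' y : W, prob H p (connTo Set.univ r {y}) ≤ ENNReal.ofReal C := by
    intro r
    rw [ENNReal.tsum_eq_iSup_sum]
    refine iSup_le fun F => ?_
    simp only [prob, iSup_subtype']
    refine sum_iSup_le F _ fun f => ?_
    let U : Finset (Sym2 W) := F.biUnion fun y => (f y).1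
    have hU : ↑U ⊆ H.edgeSet := by
      intro e he
      obtain ⟨y, -, hy⟩ := mem_biUnion.1 (Finset.mem_coe.1 he)
      exact (f y).2 hy
    rw [← ENNReal.ofReal_sum_of_nonneg fun y _ => pr_nonneg h0 h1 _ _]
    refine ENNReal.ofReal_le_ofReal (le_trans (sum_le_sum fun y hy => ?_) ((hC r F).1 U hU))
    refine le_trans (pr_mono_set h0 h1 (subset_biUnion_of_mem (fun y => (f y).1) hy)
      (incr_connTo _ _ _)) (pr_mono h0 h1 ?_)
    rintro S _ ⟨z, hz, hzc⟩
    obtain rfl : z = y := hz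
    exact cl_mono subset_rfl (inPart_subset _ _) hzc
  have hfib : ∀ r : W, ∑' u, mean H p Set.univ r (Cv.Fib u) =
      ∑' y : W, prob H p (connTo Set.univ r {y}) := by
    intro r
    rw [← (Equiv.sigmaFiberEquiv Cv.proj).tsum_eq, ENNReal.tsum_sigma']
    rfl
  refine ne_top_of_le_ne_top (ENNReal.mul_ne_top (ENNReal.natCast_ne_top Cv.reps.card)
    ENNReal.ofReal_ne_top) (b := (Cv.reps.card : ℝ≥0∞) * ENNReal.ofReal C) ?_
  simp only [count]
  rw [Summable.tsum_finsetSum fun _ _ => ENNReal.summable]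
  refine (sum_le_card_nsmul _ _ (ENNReal.ofReal C) fun r _ => ?_).trans_eq (nsmul_eq_mul _ _)
  rw [hfib]
  exact hW r

/-- Bounded shifts of the start and of the target cost a bounded factor. -/
lemma exists_mean_shift (hH : H.Connected) (ρ : ℕ) {p₀ : ℝ} (hp₀ : 0 < p₀) :
    ∃ C : ℝ≥0∞, C ≠ ⊤ ∧ ∀ p, p₀ ≤ p → p ≤ 1 → ∀ (x y : W) (u v : FreeGroup (Fin k)),
      wdist (Cv.proj x) (Cv.proj y) ≤ ρ → wdist u v ≤ ρ →
        mean H p Set.univ x (Cv.Fib u) ≤ C * mean H p Set.univ y (Cv.Fib v) := by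
  obtain ⟨ℓ, hℓ⟩ := Cv.exists_count_shift hH ρ
  have hc : ENNReal.ofReal p₀ ^ ℓ ≠ 0 := pow_ne_zero _ (ENNReal.ofReal_pos.2 hp₀).ne'
  refine ⟨(ENNReal.ofReal p₀ ^ ℓ)⁻¹ * Cv.reps.card,
    ENNReal.mul_ne_top (ENNReal.inv_ne_top.2 hc) (ENNReal.natCast_ne_top _),
    fun p hp h1 x y u v hxy huv => ?_⟩
  have h := le_trans (mul_le_mul_left (pow_le_pow_left₀ zero_le (ENNReal.ofReal_le_ofReal hp) ℓ) _)
    (hℓ p (hp₀.le.trans hp) h1 x y u v hxy huv)
  calc mean H p Set.univ x (Cv.Fib u)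
      = (ENNReal.ofReal p₀ ^ ℓ)⁻¹ * (ENNReal.ofReal p₀ ^ ℓ * mean H p Set.univ x (Cv.Fib u)) := by
        rw [← mul_assoc, ENNReal.inv_mul_cancel hc
          (ENNReal.pow_ne_top ENNReal.ofReal_ne_top), one_mul]
    _ ≤ (ENNReal.ofReal p₀ ^ ℓ)⁻¹ *
          ((Cv.reps.card : ℝ≥0∞) * mean H p Set.univ y (Cv.Fib v)) := mul_le_mul_right h _
    _ = _ := (mul_assoc _ _ _).symm

/-- The neighbourhood of a fibre is reached little more than the fibre. -/
lemma exists_mean_near (hH : H.Connected) {p₀ : ℝ} (hp₀ : 0 < p₀) :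
    ∃ C : ℝ≥0∞, C ≠ ⊤ ∧ ∀ p, p₀ ≤ p → p ≤ 1 → ∀ (x : W) (c : FreeGroup (Fin k)),
      mean H p Set.univ x (Cv.nearV Cv.R c) ≤ C * mean H p Set.univ x (Cv.Fib c) := by
  classical
  obtain ⟨C, hC, hsh⟩ := Cv.exists_mean_shift hH Cv.R hp₀
  set B := (finite_ball (k := k) Cv.R).toFinset
  refine ⟨B.card * C, ENNReal.mul_ne_top (ENNReal.natCast_ne_top _) hC, fun p hp h1 x c => ?_⟩
  calc mean H p Set.univ x (Cv.nearV Cv.R c)
      ≤ ∑' z : ↥(⋃ s ∈ B, Cv.Fib (c * s)), prob H p (connTo Set.univ x {(z : W)}) :=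
        ENNReal.tsum_mono_subtype (fun z => prob H p (connTo Set.univ x {z}))
          (s := Cv.nearV Cv.R c) fun z hz => by
          refine Set.mem_biUnion (x := c⁻¹ * Cv.proj z) ((Set.Finite.mem_toFinset _).2 hz) ?_
          show Cv.proj z = _
          rw [mul_inv_cancel_left]
    _ ≤ ∑ s ∈ B, mean H p Set.univ x (Cv.Fib (c * s)) :=
        ENNReal.tsum_biUnion_le (fun z => prob H p (connTo Set.univ x {z})) _ _
    _ ≤ ∑ _s ∈ B, C * mean H p Set.univ x (Cv.Fib c) := sum_le_sum fun s hs => by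
        refine hsh p hp h1 x x _ _ (by simp) ?_
        rw [wdist_comm, wdist, inv_mul_cancel_left]
        exact (Set.Finite.mem_toFinset (finite_ball (k := k) Cv.R)).1 hs
    _ = _ := by rw [sum_const, nsmul_eq_mul, mul_assoc]

/-- Counts are submultiplicative along reduced products. -/
theorem exists_count_concat (hH : H.Connected) {p₀ : ℝ} (hp₀ : 0 < p₀) : ∃ C : ℝ≥0∞, C ≠ ⊤ ∧
    ∀ p, p₀ ≤ p → p ≤ 1 → ∀ u v : FreeGroup (Fin k), Concat u v →
      Cv.count p (u * v) ≤ C * Cv.count p u * Cv.count p v := by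
  classical
  obtain ⟨C₁, hC₁, hsh⟩ := Cv.exists_mean_shift hH Cv.R hp₀
  obtain ⟨C₂, hC₂, hnear⟩ := Cv.exists_mean_near hH hp₀
  obtain ⟨r₀, hr₀⟩ := Cv.nonempty
  refine ⟨C₂ * C₁, ENNReal.mul_ne_top hC₂ hC₁, fun p hp h1 u v huv => ?_⟩
  have h0 : 0 ≤ p := hp₀.le.trans hp
  obtain ⟨g, hg⟩ := Cv.exists_lift u
  have hpy : Cv.proj (g • r₀) = u := by rw [Cv.proj_smul, Cv.proj_rep r₀ hr₀, hg, mul_one]
  have hsecond : ∀ m ∈ Cv.nearV Cv.R u,
      mean H p Set.univ m (Cv.Fib (u * v)) ≤ C₁ * Cv.count p v := by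
    intro m hm
    refine (hsh p hp h1 m (g • r₀) (u * v) (u * v) (by rw [hpy, wdist_comm]; exact hm) (by simp)).trans ?_
    gcongr
    refine (Cv.mean_le_count p (g • r₀) (u * v)).trans_eq ?_
    rw [hpy, inv_mul_cancel_left]
  calc Cv.count p (u * v)
      ≤ ∑ r ∈ Cv.reps, mean H p Set.univ r (Cv.nearV Cv.R u) * (C₁ * Cv.count p v) := by
        refine sum_le_sum fun r hr => ?_
        refine (mean_le_through (ι := Unit) h0 h1 Set.univ r _ (fun _ => Set.univ)
          (fun _ => Cv.nearV Cv.R u) fun y hy q _ _ => ⟨(), fun e _ => Set.mem_univ e, ?_⟩).trans ?_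
        · exact Cv.exists_near_on_walk (Cv.proj_rep r hr) q
            (by rw [show Cv.proj y = u * v from hy]; exact pre_mul huv)
        · rw [tsum_fintype, Fintype.sum_unique, mean, ← ENNReal.tsum_mul_right]
          exact ENNReal.tsum_le_tsum fun m => mul_le_mul_right (hsecond m m.2) _
    _ ≤ ∑ r ∈ Cv.reps, C₂ * mean H p Set.univ r (Cv.Fib u) * (C₁ * Cv.count p v) :=
        sum_le_sum fun r _ => mul_le_mul_left (hnear p hp h1 r u) _
    _ = _ := by
        rw [← sum_mul, ← mul_sum]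
        simp only [count]
        ring

/-- Layer cake for the reached part of a core, with the tree-graph second moment. -/
theorem exists_halfMean_le [H.LocallyFinite] (hH : H.Connected) (D : ℕ) {p₀ : ℝ} (hp₀ : 0 < p₀) :
    ∃ C : ℝ≥0∞, C ≠ ⊤ ∧ ∀ p, p₀ ≤ p → p ≤ 1 → ∀ (c : FreeGroup (Fin k)) (K : ℕ), 0 < K →
      Cv.halfMean D p c ≤ (∑ i ∈ range K, Cv.halfTail D p c (i + 1)) +
        C * (∑' u, Cv.count p u * Cv.count p (u⁻¹ * c) ^ 2) / K := by
  classical
  obtain ⟨C₂, hC₂, hnear⟩ := Cv.exists_mean_near hH hp₀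
  refine ⟨C₂ ^ 2, ENNReal.pow_ne_top hC₂, fun p hp h1 c K hK => ?_⟩
  have h0 : 0 ≤ p := hp₀.le.trans hp
  set G : FreeGroup (Fin k) → ℝ≥0∞ := fun u => C₂ ^ 2 * Cv.count p (u⁻¹ * c) ^ 2
  have hz : ∀ z : W, ∑' a : Cv.entry D c, prob H p (connTo Set.univ z {(a : W)}) ≤
      C₂ * Cv.count p ((Cv.proj z)⁻¹ * c) := fun z =>
    (ENNReal.tsum_mono_subtype (fun a => prob H p (connTo Set.univ z {a}))
      (fun a ha => Cv.entry_near ha)).trans
      ((hnear p hp h1 z c).trans (mul_le_mul_right (Cv.mean_le_count p z c) _))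
  have hsecond : ∀ r : W, (∑' a : Cv.entry D c, ∑' b : Cv.entry D c,
      prob H p (fun S => connTo (Cv.outE D c) r {(a : W)} S ∧ connTo (Cv.outE D c) r {(b : W)} S)) ≤
      ∑' u, mean H p Set.univ r (Cv.Fib u) * G u := by
    intro r
    set τ : W → W → ℝ≥0∞ := fun x y => prob H p (connTo Set.univ x {y})
    calc (∑' a : Cv.entry D c, ∑' b : Cv.entry D c, prob H p
          (fun S => connTo (Cv.outE D c) r {(a : W)} S ∧ connTo (Cv.outE D c) r {(b : W)} S))
        ≤ ∑' a : Cv.entry D c, ∑' b : Cv.entry D c, ∑' z : W, τ r z * τ z a * τ z b := by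
          refine ENNReal.tsum_le_tsum fun a => ENNReal.tsum_le_tsum fun b => ?_
          refine le_trans (prob_mono h0 h1 ?_) (prob_two_le h0 h1 r a b)
          rintro S - ⟨⟨a', ha', ha⟩, ⟨b', hb', hb⟩⟩
          exact ⟨⟨a', ha', cl_mono subset_rfl (inPart_mono_set (Set.subset_univ _) S) ha⟩,
            ⟨b', hb', cl_mono subset_rfl (inPart_mono_set (Set.subset_univ _) S) hb⟩⟩
      _ = ∑' z : W, τ r z * (∑' a : Cv.entry D c, τ z a) * (∑' b : Cv.entry D c, τ z b) := by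
          conv_lhs => arg 1; ext a; rw [ENNReal.tsum_comm]
          rw [ENNReal.tsum_comm]
          refine tsum_congr fun z => ?_
          simp_rw [ENNReal.tsum_mul_left, ENNReal.tsum_mul_right]
          rw [ENNReal.tsum_mul_left]
      _ ≤ ∑' z : W, τ r z * G (Cv.proj z) := by
          refine ENNReal.tsum_le_tsum fun z => ?_
          rw [mul_assoc]
          refine mul_le_mul_right ((mul_le_mul' (hz z) (hz z)).trans_eq ?_) _
          simp only [G]
          ring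
      _ = ∑' u, ∑' z : Cv.Fib u, τ r z * G u := by
          rw [← (Equiv.sigmaFiberEquiv Cv.proj).tsum_eq, ENNReal.tsum_sigma']
          refine tsum_congr fun u => tsum_congr fun z => ?_
          show τ r z.1 * G (Cv.proj z.1) = τ r z.1 * G u
          rw [show Cv.proj z.1 = u from z.2]
      _ = _ := tsum_congr fun u => ENNReal.tsum_mul_right
  calc Cv.halfMean D p c
      ≤ ∑ r ∈ Cv.reps, ((∑ i ∈ range K, prob H p (manyIn (Cv.outE D c) r (Cv.entry D c) (i + 1))) +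
          (∑' u, mean H p Set.univ r (Cv.Fib u) * G u) / K) := sum_le_sum fun r _ =>
        (mean_le_tails h0 h1 _ r _ hK).trans
          (add_le_add le_rfl (ENNReal.div_le_div_right (hsecond r) _))
    _ = _ := by
        rw [sum_add_distrib, sum_comm]
        congr 1
        simp only [div_eq_mul_inv]
        rw [← sum_mul]
        congr 1
        rw [← Summable.tsum_finsetSum fun _ _ => ENNReal.summable, ← ENNReal.tsum_mul_left]
        refine tsum_congr fun u => ?_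
        rw [← sum_mul]
        simp only [G, count]
        ring

/-- One second moment against the maximum and the sum of squares. -/
theorem conv_le {p : ℝ} {M : ℝ≥0∞} (hM : ∀ u, Cv.count p u ≤ M) (c : FreeGroup (Fin k)) :
    ∑' u, Cv.count p u * Cv.count p (u⁻¹ * c) ^ 2 ≤ M * ∑' u, Cv.count p u ^ 2 := by
  rw [← ((Equiv.inv (FreeGroup (Fin k))).trans (Equiv.mulRight c)).tsum_eq
    (fun u => Cv.count p u ^ 2), ← ENNReal.tsum_mul_left]
  exact ENNReal.tsum_le_tsum fun u => mul_le_mul_left (hM u) _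

/-- The second moments summed over a sphere. -/
theorem conv_sphere_le {p : ℝ} {C M : ℝ≥0∞} (hM : ∀ u, Cv.count p u ≤ M)
    (hmul : ∀ u v : FreeGroup (Fin k), Concat u v →
      Cv.count p (u * v) ≤ C * Cv.count p u * Cv.count p v) (n : ℕ) :
    ∑ c ∈ sphere k n, ∑' u, Cv.count p u * Cv.count p (u⁻¹ * c) ^ 2 ≤
      C ^ 2 * M * (∑' u, Cv.count p u ^ 2) *
        ∑ j ∈ range (n + 1), (∑ a ∈ sphere k j, Cv.count p a) *
          ∑ b ∈ sphere k (n - j), Cv.count p b := by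
  classical
  set F := Cv.count p
  set B := ∑' u, F u ^ 2
  have hB : ∑' b : FreeGroup (Fin k), F b * F b⁻¹ ≤ B := by
    have hamgm : ∀ x y : ℝ≥0∞, 2 * (x * y) ≤ x ^ 2 + y ^ 2 := by
      intro x y
      rcases le_total x y with h | h <;> obtain ⟨d, rfl⟩ := exists_add_of_le h
      · calc 2 * (x * (x + d)) ≤ 2 * (x * (x + d)) + d ^ 2 := le_self_add
          _ = x ^ 2 + (x + d) ^ 2 := by ring
      · calc 2 * ((y + d) * y) ≤ 2 * ((y + d) * y) + d ^ 2 := le_self_add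
          _ = (y + d) ^ 2 + y ^ 2 := by ring
    have h2 : 2 * ∑' b : FreeGroup (Fin k), F b * F b⁻¹ ≤ 2 * B := by
      rw [← ENNReal.tsum_mul_left]
      refine (ENNReal.tsum_le_tsum fun b => hamgm (F b) (F b⁻¹)).trans_eq ?_
      rw [ENNReal.tsum_add, two_mul]
      congr 1
      exact (Equiv.inv (FreeGroup (Fin k))).tsum_eq (fun u => F u ^ 2)
    exact (ENNReal.mul_le_mul_iff_right two_ne_zero ENNReal.ofNat_ne_top).1 h2
  set T := (range (n + 1)).sigma fun j => sphere k j ×ˢ sphere k (n - j)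
  have hdata : ∀ x : ↥(sphere k n) × FreeGroup (Fin k), ∃ y : ↥T × FreeGroup (Fin k),
      (x.1 : FreeGroup (Fin k)) = y.1.1.2.1 * y.1.1.2.2 ∧ x.2 = y.1.1.2.1 * y.2 ∧
      F x.2 * F (x.2⁻¹ * (x.1 : FreeGroup (Fin k))) ^ 2 ≤
        C ^ 2 * M * (F y.1.1.2.1 * F y.1.1.2.2) * (F y.2 * F y.2⁻¹) := by
    rintro ⟨⟨c, hc⟩, u⟩
    obtain ⟨a, d, b, hcad, huab, had, hab, hdb⟩ := exists_common c u
    have hlen : wlen a + wlen d = n := by
      rw [← had, ← hcad]
      exact mem_sphere.1 hc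
    refine ⟨(⟨⟨wlen a, a, d⟩, mem_sigma.2 ⟨mem_range.2 (show wlen a < n + 1 by omega), mem_product.2
      ⟨mem_sphere.2 rfl, mem_sphere.2 (show wlen d = n - wlen a by omega)⟩⟩⟩, b), hcad, huab, ?_⟩
    have e : u⁻¹ * c = b⁻¹ * d := by
      rw [hcad, huab]
      group
    have h2 : F (u⁻¹ * c) ≤ C * F b⁻¹ * F d :=
      e ▸ hmul b⁻¹ d (by simpa using concat_inv hdb)
    calc F u * F (u⁻¹ * c) ^ 2 ≤ (C * F a * F b) * (M * (C * F b⁻¹ * F d)) := by
          rw [sq]
          exact mul_le_mul' (huab ▸ hmul a b hab) (mul_le_mul' (hM _) h2)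
      _ = C ^ 2 * M * (F a * F d) * (F b * F b⁻¹) := by ring
  choose φ hφ1 hφ2 hφ3 using hdata
  have hinj : Function.Injective φ := fun x x' h => by
    refine Prod.ext (Subtype.ext ?_) ?_
    · rw [hφ1 x, hφ1 x', h]
    · rw [hφ2 x, hφ2 x', h]
  calc ∑ c ∈ sphere k n, ∑' u, F u * F (u⁻¹ * c) ^ 2
      = ∑' x : ↥(sphere k n) × FreeGroup (Fin k),
          F x.2 * F (x.2⁻¹ * (x.1 : FreeGroup (Fin k))) ^ 2 := by
        rw [ENNReal.tsum_prod', tsum_fintype, ← Finset.sum_coe_sort]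
    _ ≤ ∑' x, C ^ 2 * M * (F (φ x).1.1.2.1 * F (φ x).1.1.2.2) * (F (φ x).2 * F (φ x).2⁻¹) :=
        ENNReal.tsum_le_tsum hφ3
    _ ≤ ∑' y : ↥T × FreeGroup (Fin k),
          C ^ 2 * M * (F y.1.1.2.1 * F y.1.1.2.2) * (F y.2 * F y.2⁻¹) :=
        ENNReal.tsum_comp_le_tsum_of_injective hinj fun y =>
          C ^ 2 * M * (F y.1.1.2.1 * F y.1.1.2.2) * (F y.2 * F y.2⁻¹)
    _ = (∑ t ∈ T, C ^ 2 * M * (F t.2.1 * F t.2.2)) * ∑' b, F b * F b⁻¹ := by
        rw [ENNReal.tsum_prod', tsum_fintype, ← Finset.sum_coe_sort T, sum_mul]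
        refine sum_congr rfl fun t _ => ?_
        rw [← ENNReal.tsum_mul_left]
    _ ≤ (∑ t ∈ T, C ^ 2 * M * (F t.2.1 * F t.2.2)) * B := mul_le_mul_right hB _
    _ = _ := by
        rw [sum_sigma]
        simp only [sum_product, ← mul_sum, ← sum_mul]
        ring

end Vale.Agent.P165.Quot.Cov
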