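import Vale.Agent.P165.Quot.Geom
import Vale.Agent.P165.Quot.Finite

/-!
The counting in one stage: translates of one finite connection carry many points to many landings.
-/

open Finset
open scoped ENNReal

namespace Vale.Agent.P165.Quot.Cov

variable {W Γ : Type*} {k : ℕ} [Group Γ] [MulAction Γ W] {H : SimpleGraph W} [DecidableEq W]
  (Cv : Cov (Γ := Γ) H k)

/-- The translates of a finite connection: the translates of `z` joined to `Y`, counted with the
probability of the translated connection, are at least as many as `Y` times the probability of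
the connection. -/
lemma sum_translates_ge {p : ℝ} (h0 : 0 ≤ p) (h1 : p ≤ 1) (E₀ : Finset (Sym2 W)) (z : W)
    (T : Set W) (Y : Finset W) (G : Finset Γ)
    (hG : ∀ v ∈ T, (v = z ∨ ∃ e ∈ E₀, v ∈ e) →
      ∃ f : W → Γ, Set.InjOn f Y ∧ ∀ y ∈ Y, f y ∈ G ∧ f y • v = y) :
    (Y.card : ℝ) * pr p E₀ (connTo Set.univ z T) ≤
      ∑ g ∈ G, pr p E₀ (fun S => ∃ y ∈ Y, g⁻¹ • y ∈ cl {z} S) := by
  classical
  simp only [pr, sum_filter]
  rw [mul_sum, sum_comm]
  refine sum_le_sum fun S hS => ?_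
  have hw := wt_nonneg h0 h1 E₀ S
  by_cases hQ : connTo Set.univ z T S
  · rw [if_pos hQ, ← sum_filter, sum_const, nsmul_eq_mul]
    refine mul_le_mul_of_nonneg_right (Nat.cast_le.2 ?_) hw
    obtain ⟨v, hvT, hv⟩ := hQ
    replace hv : v ∈ cl {z} S := cl_mono subset_rfl (inPart_subset _ _) hv
    have hv0 : v = z ∨ ∃ e ∈ E₀, v ∈ e := by
      by_cases hvz : v = z
      · exact Or.inl hvz
      · obtain ⟨w, -, -, hwe⟩ := mem_cl_iff_out hv (by simpa using hvz)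
        exact Or.inr ⟨_, mem_powerset.1 hS hwe, Sym2.mem_mk_right w v⟩
    obtain ⟨f, hf, hfG⟩ := hG v hvT hv0
    refine card_le_card_of_injOn f (fun y hy => ?_) hf
    obtain ⟨h, hv'⟩ := hfG y hy
    refine mem_filter.2 ⟨h, y, hy, ?_⟩
    rwa [show (f y)⁻¹ • y = v from by rw [inv_smul_eq_iff, hv']]
  · rw [if_neg hQ, mul_zero]
    exact sum_nonneg fun g _ => by split_ifs <;> simp [hw]

/-- One finite edge set joining `z` to the class of `x₀`, translated to every element with a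
prescribed image, joins many points of that class to many translates of `z`. -/
theorem exists_stage_count {p : ℝ} (h0 : 0 ≤ p) (h1 : p ≤ 1) (E₀ : Finset (Sym2 W))
    (hE₀ : ↑E₀ ⊆ H.edgeSet) (z x₀ : W) {κ : ℝ} (hκ0 : 0 < κ)
    (hκ : κ ≤ pr p E₀ (connTo Set.univ z (Cv.cls 1 x₀))) :
    ∃ L : ℕ, ∀ (u : FreeGroup (Fin k)) (Y : Finset W), ↑Y ⊆ Cv.cls u x₀ → Y.Nonempty →
      ∃ U : Finset (Sym2 W), ↑U ⊆ H.edgeSet ∧
        (∀ e ∈ U, ∃ g : Γ, Cv.π g = u ∧ ∃ e₀ ∈ E₀, Sym2.map (fun x => g • x) e₀ = e) ∧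
        1 - 4 * L / (κ * Y.card) ≤
          pr p U (manyFrom Set.univ Y (Cv.cls u z) ⌈κ * Y.card / 2⌉₊) := by
  classical
  have cancel : ∀ {g h : Γ} {x : W}, g • x = h • x → g = h := fun {g h x} e =>
    inv_mul_eq_one.1 (Cv.free (g⁻¹ * h) x (by rw [mul_smul, ← e, inv_smul_smul]))
  set V₀ : Finset W := insert z (E₀.biUnion fun e => e.toFinset) with hV₀
  have hV₀mem : ∀ v, v ∈ V₀ ↔ v = z ∨ ∃ e ∈ E₀, v ∈ e := fun v => by
    simp [hV₀, Sym2.mem_toFinset]
  refine ⟨(V₀ ×ˢ V₀).card, fun u Y hY hYne => ?_⟩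
  -- the elements carrying a point of the class near the fixed connection onto a point of `Y`
  have hgY : ∀ y : W, ∃ g : Γ, y ∈ Y → Cv.π g = u ∧ g • x₀ = y := fun y => by
    by_cases hy : y ∈ Y
    · obtain ⟨g, hg1, hg2⟩ := hY hy
      exact ⟨g, fun _ => ⟨hg1, hg2⟩⟩
    · exact ⟨1, fun h => absurd h hy⟩
  choose gY hgY using hgY
  have hnV : ∀ v : W, ∃ g : Γ, v ∈ Cv.cls 1 x₀ → Cv.π g = 1 ∧ g • x₀ = v := fun v => by
    by_cases hv : v ∈ Cv.cls 1 x₀
    · obtain ⟨g, hg1, hg2⟩ := hv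
      exact ⟨g, fun _ => ⟨hg1, hg2⟩⟩
    · exact ⟨1, fun h => absurd h hv⟩
  choose nV hnV using hnV
  set G : Finset Γ := (Y ×ˢ V₀.filter (· ∈ Cv.cls 1 x₀)).image fun yv => gY yv.1 * (nV yv.2)⁻¹
    with hG
  have hGu : ∀ g ∈ G, Cv.π g = u := by
    intro g hg
    obtain ⟨⟨y, v⟩, hyv, rfl⟩ := mem_image.1 hg
    obtain ⟨hy, hv⟩ := mem_product.1 hyv
    rw [map_mul, map_inv, (hgY y hy).1, (hnV v (mem_filter.1 hv).2).1, inv_one, mul_one]
  set loc : Γ → Finset (Sym2 W) :=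
    fun g => E₀.map (MulAction.toPerm (α := Γ) (β := W) g).toEmbedding.sym2Map with hloc
  have hloc_mem : ∀ g e, e ∈ loc g ↔ ∃ e₀ ∈ E₀, Sym2.map (fun x => g • x) e₀ = e := fun g e => by
    simp [hloc]
  set U : Finset (Sym2 W) := G.biUnion loc with hU
  refine ⟨U, ?_, ?_, ?_⟩
  · intro e he
    obtain ⟨g, -, he⟩ := mem_biUnion.1 (mem_coe.1 he)
    obtain ⟨e₀, he₀, rfl⟩ := (hloc_mem g e).1 he
    have := hE₀ (mem_coe.2 he₀)
    induction e₀ with
    | h a b => exact (Cv.adj_smul g a b).2 this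
  · intro e he
    obtain ⟨g, hg, he⟩ := mem_biUnion.1 he
    exact ⟨g, hGu g hg, (hloc_mem g e).1 he⟩
  set A : Γ → Finset (Sym2 W) → Prop :=
    fun g S => ∃ y ∈ Y, g • z ∈ cl {y} (S ∩ loc g) with hA
  have hpr : ∀ g ∈ G, pr p U (A g) = pr p E₀ (fun S => ∃ y ∈ Y, g⁻¹ • y ∈ cl {z} S) := by
    intro g hg
    rw [hA, pr_marginal p (subset_biUnion_of_mem loc hg) fun S => ∃ y ∈ Y, g • z ∈ cl {y} S]
    rw [show loc g = E₀.map (MulAction.toPerm (α := Γ) (β := W) g).toEmbedding.sym2Map from rfl,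
      pr_image]
    refine pr_congr fun S _ => exists_congr fun y => and_congr_right fun _ => ?_
    have := cl_map (MulAction.toPerm (α := Γ) (β := W) g) z (g⁻¹ • y) S
    simp only [MulAction.toPerm_apply, smul_inv_smul] at this
    rw [← this, mem_cl_single, mem_cl_single]
    exact ⟨fun h => h.symm, fun h => h.symm⟩
  have hμ : κ * (Y.card : ℝ) ≤ ∑ g ∈ G, pr p U (A g) := by
    rw [sum_congr rfl hpr, mul_comm]
    refine (mul_le_mul_of_nonneg_left hκ (Nat.cast_nonneg _)).trans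
      (sum_translates_ge h0 h1 E₀ z _ Y G fun v hvT hv => ?_)
    refine ⟨fun y => gY y * (nV v)⁻¹, fun a ha b hb hab => ?_, fun y hy => ⟨?_, ?_⟩⟩
    · rw [← (hgY a ha).2, ← (hgY b hb).2, mul_right_cancel hab]
    · exact mem_image.2 ⟨(y, v), mem_product.2 ⟨hy, mem_filter.2 ⟨(hV₀mem v).2 hv, hvT⟩⟩, rfl⟩
    · change (gY y * (nV v)⁻¹) • v = y
      conv_lhs => arg 2; rw [← (hnV v hvT).2]
      rw [← mul_smul, inv_mul_cancel_right, (hgY y hy).2]
  have hdep : ∀ i ∈ G, ∀ t : Finset Γ, t ⊆ G →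
      (∀ j ∈ t, ¬ Disjoint (loc i) (loc j) ∨ j = i) → t.card ≤ (V₀ ×ˢ V₀).card := by
    intro i _ t _ ht
    have key : ∀ j, ∃ ab : W × W, j ∈ t → ab ∈ V₀ ×ˢ V₀ ∧ i • ab.1 = j • ab.2 := by
      intro j
      by_cases hj : j ∈ t
      · rcases ht j hj with h | rfl
        · obtain ⟨e, hei, hej⟩ := Finset.not_disjoint_iff.1 h
          obtain ⟨e₁, he₁, rfl⟩ := (hloc_mem i e).1 hei
          obtain ⟨e₂, he₂, heq⟩ := (hloc_mem j _).1 hej
          induction e₂ with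
          | h b b' =>
            have hb : j • b ∈ Sym2.map (fun x => i • x) e₁ := by rw [← heq]; simp
            obtain ⟨a, ha, hab⟩ := Sym2.mem_map.1 hb
            exact ⟨(a, b), fun _ => ⟨mem_product.2 ⟨(hV₀mem a).2 (Or.inr ⟨e₁, he₁, ha⟩),
              (hV₀mem b).2 (Or.inr ⟨_, he₂, Sym2.mem_mk_left b b'⟩)⟩, hab⟩⟩
        · exact ⟨(z, z), fun _ => ⟨mem_product.2
            ⟨(hV₀mem z).2 (Or.inl rfl), (hV₀mem z).2 (Or.inl rfl)⟩, rfl⟩⟩
      · exact ⟨(z, z), fun h => absurd h hj⟩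
    choose ab hab using key
    refine card_le_card_of_injOn ab (fun j hj => (hab j hj).1) fun j hj l hl hjl => ?_
    have e1 := (hab j hj).2
    have e2 := (hab l hl).2
    rw [← hjl, e1] at e2
    exact cancel e2
  have hYpos : (0 : ℝ) < Y.card := by exact_mod_cast hYne.card_pos
  refine (pr_count_ge h0 h1 U G loc A (fun g _ S _ => by simp only [hA, inter_assoc, inter_self])
    hdep (mul_pos hκ0 hYpos) hμ).trans (pr_mono h0 h1 ?_)
  rintro S - ⟨t, htG, htcard, htA⟩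
  refine ⟨t.image fun g => g • z, ?_, fun w hw => ?_⟩
  · rw [card_image_of_injective _ fun g h e => cancel e]
    exact Nat.ceil_le.2 htcard
  · obtain ⟨g, hg, rfl⟩ := mem_image.1 hw
    obtain ⟨y, hy, hc⟩ := htA g hg
    refine ⟨⟨g, hGu g (htG hg), rfl⟩,
      cl_mono (Set.singleton_subset_iff.2 (mem_coe.2 hy)) ?_ hc⟩
    intro e he
    exact mem_inPart.2 ⟨(mem_inter.1 he).1, Set.mem_univ e⟩

end Vale.Agent.P165.Quot.Cov
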