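import Vale.Agent.P165.Quot.StageRegion
import Vale.Agent.P165.Quot.StageCount

/-!
One stage: many reached points of one entry class give many reached landings of a longer word.
-/

open Finset
open scoped ENNReal

namespace Vale.Agent.P165.Quot

namespace Cov

variable {W Γ : Type*} {k : ℕ} [Group Γ] [MulAction Γ W] {H : SimpleGraph W}
  (Cv : Cov (Γ := Γ) H k) {D : ℕ}

lemma lastL_ext {u c : FreeGroup (Fin k)} {v : FreeGroup (Fin k)} {a : Letter k}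
    (hu : lastL (u * c) = lastL c) (hc : c ≠ 1) (hv : Concat c v) (hv1 : v ≠ 1)
    (ha : lastL (c * v) = some a) :
    Pre (u * c) (u * (c * v)) ∧ lastL (u * (c * v)) = some a := by
  obtain ⟨l, hl⟩ := Option.ne_none_iff_exists'.1 (fun h => hc (lastL_eq_none.1 h))
  rw [hl] at hu
  have hcv : Concat (u * c) v := concat_iff.2 fun z hz => by
    rw [hu] at hz
    exact concat_iff.1 hv z (hl.trans hz)
  rw [← mul_assoc]
  exact ⟨pre_mul hcv, by rw [lastL_concat hcv hv1, ← ha, lastL_concat hv hv1]⟩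

variable [DecidableEq W]

lemma prob_manyIn_anti {p : ℝ} (h0 : 0 ≤ p) (h1 : p ≤ 1) (E : Set (Sym2 W)) (x : W) (T : Set W)
    {K K' : ℕ} (h : K ≤ K') : prob H p (manyIn E x T K') ≤ prob H p (manyIn E x T K) :=
  prob_mono h0 h1 fun _ _ ⟨Y, hY, hY'⟩ => ⟨Y, h.trans hY, hY'⟩

/-- One stage. -/
theorem exists_stage_step {ρ₀ : ℕ} (hρ : Cv.WalkBound ρ₀) (hD : ρ₀ < D)
    {c₀ : FreeGroup (Fin k)} (hc₀ : c₀ ≠ 1) {x₀ : W} (hx₀ : x₀ ∈ Cv.entry D c₀)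
    {q : FreeGroup (Fin k)} (hq : 2 * D ≤ wlen q) {rd d : W} (hrd : rd ∈ Cv.reps)
    (hd : d ∈ Cv.cls (c₀ * q) rd) (P : H.Walk x₀ d) (hP : ∀ w ∈ P.support, w ∈ Cv.core D c₀)
    (a : Letter k) {M : ℕ} (hM : ρ₀ < M) {z₀ r₀ : W} (hr₀ : r₀ ∈ Cv.reps) (P₀ : H.Walk r₀ z₀)
    (hP₀ : ∀ e ∈ P₀.edges, e ∈ Cv.outE D (lpow a M))
    (hP₀' : ∀ w ∈ P₀.support, ∃ i ≤ M + D + ρ₀ + 1, wdist (lpow a i) (Cv.proj w) ≤ ρ₀)
    (n₁ n₂ : ℕ) :
    ∃ ℓ : ℕ, ∀ (ρ : ℕ) (m₁ μ b : FreeGroup (Fin k)), wlen m₁ = n₁ → wlen b = n₂ → ρ ≤ n₁ →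
      ρ + Cv.R * (P.length + 1) < n₂ + M →
      wlen (c₀ * q * m₁ * μ * b * lpow a M) =
        wlen c₀ + wlen q + n₁ + wlen μ + n₂ + M →
      ∀ p : ℝ, 0 < p → p < 1 → ∀ κ : ℝ, 0 < κ → Cv.Tube p ρ μ⁻¹ κ →
        ∃ L : ℕ, ∀ u : FreeGroup (Fin k), lastL (u * c₀) = lastL c₀ → ∀ (r : W) (K : ℕ), 0 < K →
          prob H p (manyIn (Cv.outE D (u * c₀)) r (Cv.cls u x₀) K) *
              ENNReal.ofReal (1 - 4 * L / (p ^ ℓ * κ * K)) ≤
            prob H p (manyIn (Cv.outE D (u * (c₀ * q * m₁ * μ * b * lpow a M))) r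
              (Cv.cls (u * (c₀ * q * m₁ * μ * b)) z₀) ⌈p ^ ℓ * κ * K / 2⌉₊) := by
  obtain ⟨ℓ, hℓ⟩ :=
    Cv.exists_stage_region hρ hD hc₀ hx₀ hq hrd hd P hP a hM hr₀ P₀ hP₀ hP₀' n₁ n₂
  refine ⟨ℓ, fun ρ m₁ μ b hm₁ hb h1 h2 hlen p hp0 hp1 κ hκ hT => ?_⟩
  obtain ⟨g, hg⟩ := Cv.exists_lift (c₀ * q * m₁ * μ * b)
  obtain ⟨E₀, hE₀, hE₀r, hpr⟩ := hℓ ρ m₁ μ b hm₁ hb h1 h2 hlen p hp0 hp1 κ hκ hT g hg
  obtain ⟨L, hL⟩ := Cv.exists_stage_count hp0.le hp1.le E₀ hE₀ (g • z₀) x₀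
    (mul_pos (pow_pos hp0 ℓ) hκ) hpr
  refine ⟨L, fun u hu r K hK => ?_⟩
  set c' := c₀ * q * m₁ * μ * b * lpow a M with hc'
  set v := q * m₁ * μ * b * lpow a M with hv
  have hcv : c' = c₀ * v := by simp only [hc', hv, mul_assoc]
  have hvlen : wlen v ≤ wlen q + n₁ + wlen μ + n₂ + M := by
    have e1 := wlen_mul_le (u := q) (v := m₁)
    have e2 := wlen_mul_le (u := q * m₁) (v := μ)
    have e3 := wlen_mul_le (u := q * m₁ * μ) (v := b)
    have e4 := wlen_mul_le (u := q * m₁ * μ * b) (v := lpow a M)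
    rw [wlen_lpow] at e4
    rw [hv]
    omega
  have hconc : Concat c₀ v := by
    have := wlen_mul_le (u := c₀) (v := v)
    unfold Concat
    rw [← hcv]
    rw [← hcv] at this
    omega
  have hv1 : v ≠ 1 := fun h => by
    rw [h, mul_one] at hcv
    rw [hcv] at hlen
    omega
  have hlast : lastL (c₀ * v) = some a := by
    rw [← hcv, hc', lastL_concat ?_ (fun h => by
      have := wlen_lpow a M
      rw [h, wlen_one] at this
      omega), lastL_lpow a (by omega)]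
    have e1 := wlen_mul_le (u := c₀) (v := q)
    have e2 := wlen_mul_le (u := c₀ * q) (v := m₁)
    have e3 := wlen_mul_le (u := c₀ * q * m₁) (v := μ)
    have e4 := wlen_mul_le (u := c₀ * q * m₁ * μ) (v := b)
    have e5 := wlen_mul_le (u := c₀ * q * m₁ * μ * b) (v := lpow a M)
    rw [wlen_lpow] at e5
    rw [hc'] at hlen
    unfold Concat
    rw [wlen_lpow]
    omega
  obtain ⟨hpre, hlast'⟩ := lastL_ext hu hc₀ hconc hv1 hlast
  rw [← hcv] at hlast hpre hlast'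
  refine prob_manyIn_compose hp0.le hp1.le (Cv.outE_mono hpre) r _ _ fun Y hY hcard => ?_
  obtain ⟨U, hU, hUform, hUpr⟩ := hL u Y hY (card_pos.1 (hcard ▸ hK))
  have hUreg : ↑U ⊆ Cv.outE D (u * c') \ Cv.outE D (u * c₀) := by
    intro e he
    obtain ⟨g', hg', e₀, he₀, rfl⟩ := hUform e he
    obtain ⟨l, hl⟩ := Option.ne_none_iff_exists'.1 (fun h => hc₀ (lastL_eq_none.1 h))
    have hinj := Sym2.map.injective (Cv.act g').injective
    refine ⟨?_, fun h => (hE₀r he₀).2 ?_⟩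
    · rw [← hg', ← Cv.smul_outE (g := g') hlast (by rw [hg']; exact hlast')]
      exact ⟨e₀, (hE₀r he₀).1, rfl⟩
    · rw [← hg', ← Cv.smul_outE (g := g') hl (by rw [hg', hu]; exact hl)] at h
      exact hinj.mem_set_image.1 h
  refine ⟨U, hU, hUreg, le_trans (le_of_eq (by rw [hcard])) (hUpr.trans
    (pr_mono hp0.le hp1.le fun S hS hmany => ?_))⟩
  obtain ⟨Z, hZ, hZ'⟩ := hmany
  refine ⟨Z, by rwa [hcard] at hZ, fun z hz => ?_⟩
  have hin : inPart (Cv.outE D (u * c')) S = inPart Set.univ S := by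
    ext e
    simp only [mem_inPart, Set.mem_univ, and_true, and_iff_left_iff_imp]
    exact fun he => (hUreg (hS he)).1
  obtain ⟨⟨g', hg', hgz⟩, hcl⟩ := hZ' z hz
  refine ⟨⟨g' * g, by rw [map_mul, hg', hg], by rw [mul_smul, hgz]⟩, ?_⟩
  rw [hin]
  exact hcl

end Cov

end Vale.Agent.P165.Quot
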