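import Vale.Agent.P165.Quot.Cov

/-!
Connections that can be made in a finite region along a word, unboundedness of the sums of powers
of hitting probabilities over prefix-free sets, and bounds on the reached part of a core.
-/

open scoped ENNReal

namespace Vale.Agent.P165.Quot

namespace Cov

variable {W Γ : Type*} {k : ℕ} [Group Γ] [MulAction Γ W] {H : SimpleGraph W} [DecidableEq W]
  (Cv : Cov (Γ := Γ) H k)

/-- From every representative the fibre over `w` is reached with probability at least `κ` through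
finitely many edges lying within `ρ` of the segment from the empty word to `w`. -/
def Tube (p : ℝ) (ρ : ℕ) (w : FreeGroup (Fin k)) (κ : ℝ) : Prop :=
  ∀ r ∈ Cv.reps, ∃ U : Finset (Sym2 W), ↑U ⊆ H.edgeSet ∧
    (∀ e ∈ U, ∀ x ∈ e, ∃ i ≤ wlen w, wdist (pfx w i) (Cv.proj x) ≤ ρ) ∧
    κ ≤ pr p U (connTo Set.univ r (Cv.Fib w))

/-- The sums of `t`-th powers of hitting probabilities over prefix-free sets are unbounded. -/
def Good (p t : ℝ) : Prop :=
  ∀ C : ℝ≥0∞, C ≠ ⊤ → ∃ A : Finset (FreeGroup (Fin k)),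
    PrefixFree (↑A : Set (FreeGroup (Fin k))) ∧ C < ∑ u ∈ A, Cv.hit p u ^ t

/-- Tail bounds with exponent `1 - θ` for the entry points of cores, summed over spheres and over
the initial segments of any word, and comparison with hitting. -/
def TailBound (D : ℕ) (p θ : ℝ) (C : ℝ≥0∞) : Prop :=
  (∀ n K : ℕ, 0 < n → 0 < K →
    ∑ c ∈ sphere k n, Cv.halfTail D p c K ≤ C * (K : ℝ≥0∞) ^ (-(1 - θ))) ∧
  (∀ (w : FreeGroup (Fin k)) (K : ℕ), 0 < K →
    ∑ i ∈ Finset.Icc 1 (wlen w), Cv.halfTail D p (pfx w i) K ≤ C * (K : ℝ≥0∞) ^ (-(1 - θ))) ∧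
  ∀ (c : FreeGroup (Fin k)) (K : ℕ), c ≠ 1 → 0 < K → Cv.halfTail D p c K ≤ C * Cv.hit p c

/-- The reached part of a core is dominated, class by class, by hitting probabilities at many
prefix-free extensions, whatever letter is put after the branch of the class. -/
def HalfBranches (D : ℕ) (p t : ℝ) : Prop :=
  ∃ (m : ℕ) (q : Fin m → FreeGroup (Fin k)) (C : ℝ≥0∞), C ≠ ⊤ ∧
    ∀ (c : FreeGroup (Fin k)) (K : ℕ), c ≠ 1 → 0 < K → ∃ P : Fin m → ℝ≥0∞,
      Cv.halfTail D p c K ≤ ∑ j, P j ∧ ∀ j, P j ≠ 0 → Concat c (q j) ∧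
        ∀ e : Letter k, Concat (c * q j) (gen e) → ∃ V : Finset (FreeGroup (Fin k)),
          PrefixFree (↑V : Set (FreeGroup (Fin k))) ∧ (K : ℝ≥0∞) ^ t ≤ C * V.card ∧
          ∀ v ∈ V, Concat (c * q j * gen e) v ∧ P j ≤ C * Cv.hit p (c * q j * gen e * v)

end Cov

end Vale.Agent.P165.Quot
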