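import Vale.Agent.P165.Quot.Branch
import Vale.Agent.P165.Quot.TubeDefs

/-!
One finite connection between a landing entry and the class of an entry of a shorter word, inside
the edges which are fresh for that stage.
-/

open Finset
open scoped ENNReal

namespace Vale.Agent.P165.Quot

variable {k : ℕ}

/-- Going back along the last block stays within it. -/
lemma seg_back {u v : FreeGroup (Fin k)} (h : Concat u v) (i : ℕ) :
    Pre u (u * v * pfx v⁻¹ i) ∧ wlen u ≤ wlen (u * v * pfx v⁻¹ i) ∧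
      wlen (u * v * pfx v⁻¹ i) ≤ wlen u + wlen v := by
  set t := pfx v⁻¹ i with ht
  have h2 : Concat t (t⁻¹ * v⁻¹) := pre_iff_concat.1 (pre_pfx i)
  have h3 := concat_inv h2
  unfold Concat at h h2 h3
  rw [mul_inv_cancel_left, wlen_inv] at h2
  have hA : wlen (v * t) + wlen t = wlen v := by
    rw [show v * t = (t⁻¹ * v⁻¹)⁻¹ by simp, wlen_inv]
    omega
  have h4 := wlen_mul_le (u := u) (v := v * t)
  have h5 := wlen_mul_le (u := u * (v * t)) (v := t⁻¹)
  rw [show u * (v * t) * t⁻¹ = u * v by simp [mul_assoc], wlen_inv] at h5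
  have hc : Concat u (v * t) := by unfold Concat; omega
  rw [mul_assoc]
  exact ⟨pre_mul hc, by rw [hc]; omega, by omega⟩

namespace Cov

variable {W Γ : Type*} [Group Γ] [MulAction Γ W] {H : SimpleGraph W} (Cv : Cov (Γ := Γ) H k)
  {D : ℕ}

lemma mem_region {c c' : FreeGroup (Fin k)} {x y : W} (hx : x ∈ Cv.core D c) (hy : y ∈ Cv.core D c)
    (hx' : x ∉ Cv.core D c') : s(x, y) ∈ Cv.outE D c' \ Cv.outE D c :=
  ⟨Cv.mem_outE.2 (.inl hx'), fun h => by
    rcases Cv.mem_outE.1 h with h | h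
    exacts [h hx, h hy]⟩

lemma walk_in_region {c c' : FreeGroup (Fin k)} {x y : W} (q : H.Walk x y)
    (hq : ∀ w ∈ q.support, w ∈ Cv.core D c ∧ w ∉ Cv.core D c') :
    ∀ e ∈ q.edges, e ∈ Cv.outE D c' \ Cv.outE D c := by
  intro e he
  induction e with
  | h a b =>
    have ha := hq a (q.fst_mem_support_of_mem_edges he)
    have hb := hq b (q.snd_mem_support_of_mem_edges he)
    exact Cv.mem_region ha.1 hb.1 ha.2

lemma smul_kernel_core {c : FreeGroup (Fin k)} (hc : c ≠ 1) {n : Γ} (hn : Cv.π n = 1) {x : W}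
    (hx : x ∈ Cv.core D c) : n • x ∈ Cv.core D c := by
  obtain ⟨l, hl⟩ := Option.ne_none_iff_exists'.1 (fun h => hc (lastL_eq_none.1 h))
  have := (Cv.smul_mem_core (g := n) hl (by rw [hn, one_mul]; exact hl) (x := x)).2 hx
  rwa [hn, one_mul] at this

variable [DecidableEq W]

/-- The connection of one stage. -/
theorem exists_stage_region {ρ₀ : ℕ} (hρ : Cv.WalkBound ρ₀) (hD : ρ₀ < D)
    {c₀ : FreeGroup (Fin k)} (hc₀ : c₀ ≠ 1) {x₀ : W} (hx₀ : x₀ ∈ Cv.entry D c₀)
    {q : FreeGroup (Fin k)} (hq : 2 * D ≤ wlen q) {rd d : W} (hrd : rd ∈ Cv.reps)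
    (hd : d ∈ Cv.cls (c₀ * q) rd) (P : H.Walk x₀ d) (hP : ∀ w ∈ P.support, w ∈ Cv.core D c₀)
    (a : Letter k) {M : ℕ} (hM : ρ₀ < M) {z₀ r₀ : W} (hr₀ : r₀ ∈ Cv.reps) (P₀ : H.Walk r₀ z₀)
    (hP₀ : ∀ e ∈ P₀.edges, e ∈ Cv.outE D (lpow a M))
    (hP₀' : ∀ w ∈ P₀.support, ∃ i ≤ M + D + ρ₀ + 1, wdist (lpow a i) (Cv.proj w) ≤ ρ₀)
    (n₁ n₂ : ℕ) :
    ∃ ℓ : ℕ, ∀ (ρ : ℕ) (m₁ μ b : FreeGroup (Fin k)), wlen m₁ = n₁ → wlen b = n₂ → ρ ≤ n₁ →
      ρ + Cv.R * (P.length + 1) < n₂ + M →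
      wlen (c₀ * q * m₁ * μ * b * lpow a M) =
        wlen c₀ + wlen q + n₁ + wlen μ + n₂ + M →
      ∀ p : ℝ, 0 < p → p < 1 → ∀ κ : ℝ, 0 < κ → Cv.Tube p ρ μ⁻¹ κ →
      ∀ g : Γ, Cv.π g = c₀ * q * m₁ * μ * b →
        ∃ E₀ : Finset (Sym2 W), ↑E₀ ⊆ H.edgeSet ∧
          ↑E₀ ⊆ Cv.outE D (c₀ * q * m₁ * μ * b * lpow a M) \ Cv.outE D c₀ ∧
          p ^ ℓ * κ ≤ pr p E₀ (connTo Set.univ (g • z₀) (Cv.cls 1 x₀)) := by
  classical
  refine ⟨P₀.length + ρ₀ * (n₂ + 1) + ρ₀ * (n₁ + 1) + P.length + 1, ?_⟩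
  intro ρ m₁ μ b hm₁ hb hρ₁ hρ₂ hlen p hp0 hp1 κ hκ0 hT g hg
  set E := Cv.outE D (c₀ * q * m₁ * μ * b * lpow a M) \ Cv.outE D c₀ with hE
  have e1 := wlen_mul_le (u := c₀) (v := q)
  have e2 := wlen_mul_le (u := c₀ * q) (v := m₁)
  have e3 := wlen_mul_le (u := c₀ * q * m₁) (v := μ)
  have e4 := wlen_mul_le (u := c₀ * q * m₁ * μ) (v := b)
  have e5 := wlen_mul_le (u := c₀ * q * m₁ * μ * b) (v := lpow a M)
  rw [wlen_lpow] at e5
  have l1 : wlen (c₀ * q) = wlen c₀ + wlen q := by omega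
  have l2 : wlen (c₀ * q * m₁) = wlen c₀ + wlen q + n₁ := by omega
  have l3 : wlen (c₀ * q * m₁ * μ) = wlen c₀ + wlen q + n₁ + wlen μ := by omega
  have l4 : wlen (c₀ * q * m₁ * μ * b) = wlen c₀ + wlen q + n₁ + wlen μ + n₂ := by omega
  have h1 : Concat c₀ q := l1
  have h2 : Concat (c₀ * q) m₁ := by unfold Concat; omega
  have h3 : Concat (c₀ * q * m₁) μ := by unfold Concat; omega
  have h4 : Concat (c₀ * q * m₁ * μ) b := by unfold Concat; omega
  have h5 : Concat (c₀ * q * m₁ * μ * b) (lpow a M) := by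
    unfold Concat; rw [wlen_lpow]; omega
  have k1 : Pre c₀ (c₀ * q) := pre_mul h1
  have k2 : Pre c₀ (c₀ * q * m₁) := pre_trans k1 (pre_mul h2)
  have k3 : Pre c₀ (c₀ * q * m₁ * μ) := pre_trans k2 (pre_mul h3)
  have k4 : Pre c₀ (c₀ * q * m₁ * μ * b) := pre_trans k3 (pre_mul h4)
  have hlen' : wlen (c₀ * q * m₁ * μ * b * lpow a M) =
      wlen c₀ + wlen q + n₁ + wlen μ + n₂ + M := hlen
  -- a point near a position in the middle is usable
  have mid : ∀ (u : FreeGroup (Fin k)) (dd : ℕ) (x : W), Pre c₀ u →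
      wlen c₀ + D + dd ≤ wlen u → wlen u + dd < wlen c₀ + wlen q + n₁ + wlen μ + n₂ + M →
      wdist u (Cv.proj x) ≤ dd →
      x ∈ Cv.core D c₀ ∧ x ∉ Cv.core D (c₀ * q * m₁ * μ * b * lpow a M) :=
    fun u dd x hu h6 h7 h8 => ⟨Cv.mem_core_near hu h6 h8, Cv.not_mem_core_near (by omega) h8⟩
  -- the last block, backwards to a vertex over the end of the middle one
  have hlast : lastL (c₀ * q * m₁ * μ * b * lpow a M) = some a := by
    rw [lastL_concat h5 (fun h => by
      have := wlen_lpow a M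
      rw [h, wlen_one] at this
      omega), lastL_lpow a (by omega)]
  obtain ⟨y, hy, q₁, hq₁, hs₁⟩ := hρ (g • r₀) b⁻¹ r₀ hr₀
  have hgr : Cv.proj (g • r₀) = c₀ * q * m₁ * μ * b := by
    rw [Cv.proj_smul, hg, Cv.proj_rep r₀ hr₀, mul_one]
  rw [hgr, mul_inv_cancel_right] at hy
  rw [wlen_inv, hb] at hq₁
  have hwalk₁ : ∀ e ∈ q₁.edges, e ∈ E := Cv.walk_in_region q₁ fun w hw => by
    obtain ⟨i, -, hd⟩ := hs₁ w hw
    rw [hgr] at hd
    obtain ⟨i1, i2, i3⟩ := seg_back h4 i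
    exact mid _ ρ₀ w (pre_trans k3 i1) (by omega) (by omega) hd
  have hwalk₀ : ∀ e ∈ (Cv.actWalk g P₀).edges, e ∈ E := by
    intro e he
    rw [Cv.edges_actWalk, List.mem_map] at he
    obtain ⟨e₀, he₀, rfl⟩ := he
    refine ⟨?_, ?_⟩
    · have hM0 : lastL (lpow a M) = some a := lastL_lpow a (by omega)
      have := Cv.smul_outE (D := D) (g := g) hM0 (by rw [hg]; exact hlast)
      rw [hg] at this
      rw [← this]
      exact ⟨e₀, hP₀ e₀ he₀, rfl⟩
    · induction e₀ with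
      | h u v =>
        have key : ∀ w ∈ P₀.support, g • w ∈ Cv.core D c₀ := by
          intro w hw
          obtain ⟨i, -, hd⟩ := hP₀' w hw
          have hci : Concat (c₀ * q * m₁ * μ * b) (lpow a i) := by
            rcases Nat.eq_zero_or_pos i with hi | hi
            · rw [show lpow a i = 1 by subst hi; simp [lpow, ← FreeGroup.one_eq_mk]]
              exact concat_one_right
            · refine concat_iff.2 fun z hz => ?_
              rw [headL_lpow a hi, ← headL_lpow a (show 0 < M by omega)]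
              exact concat_iff.1 h5 z hz
          refine Cv.mem_core_near (d := ρ₀) (pre_trans k4 (pre_mul hci)) ?_ ?_
          · rw [show wlen (_ * lpow a i) = _ from hci]
            omega
          · rw [Cv.proj_smul, hg, wdist_mul_left]
            exact hd
        intro h
        rw [Sym2.map_mk] at h
        rcases Cv.mem_outE.1 h with h | h
        · exact h (key u (P₀.fst_mem_support_of_mem_edges he₀))
        · exact h (key v (P₀.snd_mem_support_of_mem_edges he₀))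
  -- the tube
  obtain ⟨g₁, hg₁, rfl⟩ := hy
  obtain ⟨U, hU, hUnear, hUpr⟩ := hT r₀ hr₀
  set B : Set W := Cv.Fib (c₀ * q * m₁) with hB
  have hpre : ∀ e ∈ U, Sym2.map (fun x => g₁ • x) e ∈ E := by
    intro e he
    induction e with
    | h u v =>
      have key : ∀ w ∈ s(u, v), g₁ • w ∈ Cv.core D c₀ ∧
          g₁ • w ∉ Cv.core D (c₀ * q * m₁ * μ * b * lpow a M) := by
        intro w hw
        obtain ⟨i, -, hd⟩ := hUnear _ he w hw
        obtain ⟨i1, i2, i3⟩ := seg_back h3 i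
        refine mid _ ρ _ (pre_trans k2 i1) (by omega) (by omega) ?_
        rw [Cv.proj_smul, hg₁, wdist_mul_left]
        exact hd
      exact Cv.mem_region (key u (Sym2.mem_mk_left _ _)).1 (key v (Sym2.mem_mk_right _ _)).1
        (key u (Sym2.mem_mk_left _ _)).2
  have htube : ENNReal.ofReal κ ≤ prob H p (connTo E (g₁ • r₀) B) := by
    have hB' : (Cv.act g₁) '' Cv.Fib μ⁻¹ = B := by
      rw [Cv.smul_Fib, hg₁, mul_inv_cancel_right]
    set E' : Set (Sym2 W) := {e | Sym2.map (Cv.act g₁) e ∈ E} with hE'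
    have hEE' : Sym2.map (Cv.act g₁) '' E' ⊆ E := by rintro _ ⟨e, he, rfl⟩; exact he
    calc ENNReal.ofReal κ ≤ ENNReal.ofReal (pr p U (connTo Set.univ r₀ (Cv.Fib μ⁻¹))) :=
          ENNReal.ofReal_le_ofReal hUpr
      _ = ENNReal.ofReal (pr p U (connTo E' r₀ (Cv.Fib μ⁻¹))) := by
          congr 1
          refine pr_congr fun S hS => ?_
          have : inPart E' S = inPart Set.univ S := by
            ext e
            simp only [mem_inPart, Set.mem_univ, and_true, and_iff_left_iff_imp]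
            exact fun he => hpre e (hS he)
          simp [connTo, this]
      _ ≤ prob H p (connTo E' r₀ (Cv.Fib μ⁻¹)) := ofReal_pr_le_prob hU _
      _ = prob H p (connTo (Sym2.map (Cv.act g₁) '' E') (g₁ • r₀) B) := by
          rw [← hB', ← prob_connTo_iso (Cv.act g₁)]; rfl
      _ ≤ _ := prob_connTo_mono hp0.le hp1.le hEE' subset_rfl _
  -- from the fibre at the start of the middle block to the class of the entry
  have hout : ∀ z ∈ B,
      ENNReal.ofReal p ^ (ρ₀ * (n₁ + 1) + P.length) ≤ prob H p (connTo E z (Cv.cls 1 x₀)) := by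
    intro z hz
    obtain ⟨d', hd', q₂, hq₂, hs₂⟩ := hρ z m₁⁻¹ rd hrd
    have hpz : Cv.proj z = c₀ * q * m₁ := hz
    rw [hpz, mul_inv_cancel_right] at hd'
    rw [wlen_inv, hm₁] at hq₂
    obtain ⟨gd, hgd, rfl⟩ := hd
    obtain ⟨gd', hgd', rfl⟩ := hd'
    set n := gd' * gd⁻¹ with hn
    have hπn : Cv.π n = 1 := by rw [hn, map_mul, map_inv, hgd, hgd', mul_inv_cancel]
    have hnd : n • gd • rd = gd' • rd := by rw [hn, ← mul_smul, inv_mul_cancel_right]
    let P' : H.Walk (gd' • rd) (n • x₀) := ((Cv.actWalk n P).copy rfl hnd).reverse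
    have hsupp : ∀ w ∈ (q₂.append P').support,
        w ∈ Cv.core D c₀ ∧ w ∉ Cv.core D (c₀ * q * m₁ * μ * b * lpow a M) := by
      intro w hw
      rcases (SimpleGraph.Walk.mem_support_append_iff _ _).1 hw with hw | hw
      · obtain ⟨i, -, hd⟩ := hs₂ w hw
        rw [hpz] at hd
        obtain ⟨i1, i2, i3⟩ := seg_back h2 i
        exact mid _ ρ₀ w (pre_trans k1 i1) (by omega) (by omega) hd
      · simp only [P', SimpleGraph.Walk.support_reverse, List.mem_reverse,
          SimpleGraph.Walk.support_copy, Cv.support_actWalk, List.mem_map] at hw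
        obtain ⟨w₀, hw₀, rfl⟩ := hw
        refine ⟨Cv.smul_kernel_core hc₀ hπn (hP w₀ hw₀), Cv.not_mem_core_near
          (u := c₀) (d := Cv.R * (P.length + 1)) (by omega) ?_⟩
        rw [Cv.proj_smul, hπn, one_mul]
        refine wdist_triangle.trans (Nat.add_le_add (Cv.entry_near hx₀) (Cv.walk_proj (P.takeUntil w₀ hw₀))) |>.trans ?_
        have := P.length_takeUntil_le hw₀
        nlinarith
    refine pow_le_connTo hp0.le hp1.le (q₂.append P') (Cv.walk_in_region _ hsupp) ?_ ⟨n, hπn, rfl⟩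
    simp only [P', SimpleGraph.Walk.length_append, SimpleGraph.Walk.length_reverse,
      SimpleGraph.Walk.length_copy, length_actWalk]
    omega
  -- put the pieces together and cut to a finite edge set
  have hall : ENNReal.ofReal p ^ (P₀.length + ρ₀ * (n₂ + 1)) *
      (ENNReal.ofReal κ * ENNReal.ofReal p ^ (ρ₀ * (n₁ + 1) + P.length)) ≤
        prob H p (connTo E (g • z₀) (Cv.cls 1 x₀)) := by
    refine le_trans (mul_le_mul_right (le_trans (mul_le_mul_left htube _)
      (connTo_trans hp0.le hp1.le E _ B _ hout)) _) ?_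
    refine pow_mul_connTo_le hp0.le hp1.le ((Cv.actWalk g P₀).reverse.append q₁) ?_ ?_ _
    · intro e he
      rw [SimpleGraph.Walk.edges_append, SimpleGraph.Walk.edges_reverse, List.mem_append,
        List.mem_reverse] at he
      exact he.elim (hwalk₀ e) (hwalk₁ e)
    · simp only [SimpleGraph.Walk.length_append, SimpleGraph.Walk.length_reverse, length_actWalk]
      omega
  rw [← ENNReal.ofReal_pow hp0.le, ← ENNReal.ofReal_pow hp0.le,
    ← ENNReal.ofReal_mul hκ0.le, ← ENNReal.ofReal_mul (pow_nonneg hp0.le _)] at hall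
  have hlt : ENNReal.ofReal (p ^ (P₀.length + ρ₀ * (n₂ + 1) + ρ₀ * (n₁ + 1) + P.length + 1) * κ)
      < prob H p (connTo E (g • z₀) (Cv.cls 1 x₀)) := by
    refine lt_of_lt_of_le ((ENNReal.ofReal_lt_ofReal_iff (by positivity)).2 ?_) hall
    rw [pow_succ, add_assoc (P₀.length + ρ₀ * (n₂ + 1)), pow_add]
    have : 0 < p ^ (P₀.length + ρ₀ * (n₂ + 1)) * p ^ (ρ₀ * (n₁ + 1) + P.length) * κ := by positivity
    nlinarith
  obtain ⟨V, hV, hVlt⟩ := exists_lt_pr hlt
  refine ⟨inPart E V, fun e he => hV (inPart_subset E V he), fun e he => (mem_inPart.1 he).2, ?_⟩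
  refine le_trans ((ENNReal.ofReal_le_ofReal_iff (pr_nonneg hp0.le hp1.le _ _)).1 hVlt.le) ?_
  have hEv : ∀ S, connTo E (g • z₀) (Cv.cls 1 x₀) S ↔
      connTo Set.univ (g • z₀) (Cv.cls 1 x₀) (inPart E S) := fun S => by
    have : inPart Set.univ (inPart E S) = inPart E S := by ext e; simp [mem_inPart]
    simp [connTo, this]
  rw [pr_congr fun S _ => hEv S]
  refine le_of_eq ?_
  refine Eq.trans (pr_congr fun S hS => ?_) (pr_marginal p (inPart_subset E V) _)
  have : inPart E S = S ∩ inPart E V := by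
    ext e
    simp only [mem_inPart, mem_inter]
    exact ⟨fun h => ⟨h.1, hS h.1, h.2⟩, fun h => ⟨h.1, h.2.2⟩⟩
  rw [this]

end Cov

end Vale.Agent.P165.Quot
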